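import Crest.Agent.R215.Polar

/-! Row 215: a Brascamp–Lieb variance bound on convex cones. -/

set_option autoImplicit false

open MeasureTheory ProbabilityTheory Set Module
open scoped RealInnerProductSpace

namespace Crest.Agent.R215

variable {V : Type*} [NormedAddCommGroup V] [InnerProductSpace ℝ V] [FiniteDimensional ℝ V]
  [MeasurableSpace V] [BorelSpace V]

/-- Real form of Prékopa–Leindler at `t = 1/2`. -/
private theorem pl_half {F G H : V → ℝ} (hF : Measurable F) (hG : Measurable G)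
    (hH : Measurable H) (hF0 : ∀ x, 0 ≤ F x) (hG0 : ∀ x, 0 ≤ G x) (hH0 : ∀ x, 0 ≤ H x)
    (iF : Integrable F) (iG : Integrable G) (iH : Integrable H)
    (h : ∀ x y, F x * G y ≤ H ((1 / 2 : ℝ) • x + (1 / 2 : ℝ) • y) ^ 2) :
    (∫ x, F x) * ∫ x, G x ≤ (∫ x, H x) ^ 2 := by
  have key := hasPL_volume (V := V) (t := 1 / 2) (by norm_num) (by norm_num)
    (fun x => ENNReal.ofReal (F x)) (fun x => ENNReal.ofReal (G x))
    (fun x => ENNReal.ofReal (H x)) hF.ennreal_ofReal hG.ennreal_ofReal hH.ennreal_ofReal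
    (fun x y => by
      have e : (1 - 1 / 2 : ℝ) = 1 / 2 := by norm_num
      rw [e, ← ENNReal.mul_rpow_of_nonneg _ _ (by norm_num), ← ENNReal.ofReal_mul (hF0 x),
        ENNReal.ofReal_rpow_of_nonneg (mul_nonneg (hF0 x) (hG0 y)) (by norm_num)]
      refine ENNReal.ofReal_le_ofReal ?_
      rw [← Real.sqrt_eq_rpow]
      exact Real.sqrt_le_iff.2 ⟨hH0 _, h x y⟩)
  have e : (1 - 1 / 2 : ℝ) = 1 / 2 := by norm_num
  have a0 : 0 ≤ ∫ x, F x := integral_nonneg hF0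
  have b0 : 0 ≤ ∫ x, G x := integral_nonneg hG0
  have c0 : 0 ≤ ∫ x, H x := integral_nonneg hH0
  rw [e, ← ofReal_integral_eq_lintegral_ofReal iF (ae_of_all _ hF0),
    ← ofReal_integral_eq_lintegral_ofReal iG (ae_of_all _ hG0),
    ← ofReal_integral_eq_lintegral_ofReal iH (ae_of_all _ hH0),
    ← ENNReal.mul_rpow_of_nonneg _ _ (by norm_num), ← ENNReal.ofReal_mul a0,
    ENNReal.ofReal_rpow_of_nonneg (mul_nonneg a0 b0) (by norm_num),
    ENNReal.ofReal_le_ofReal_iff c0, ← Real.sqrt_eq_rpow] at key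
  exact (Real.sqrt_le_iff.1 key).2

private theorem int_exp_inner (w : V) (t : ℝ) :
    Integrable (fun x : V => Real.exp (t * ⟪x, w⟫)) (stdGaussian V) := by
  have h := IsGaussian.map_eq_gaussianReal (μ := stdGaussian V) (innerSL ℝ w)
  have h2 : Integrable (fun y : ℝ => Real.exp (t * y)) ((stdGaussian V).map (innerSL ℝ w)) := by
    rw [h]; exact integrable_exp_mul_gaussianReal t
  have h3 := (integrable_map_measure (by fun_prop) (by fun_prop)).1 h2
  refine h3.congr (ae_of_all _ fun x => ?_)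
  simp [real_inner_comm]

private theorem int_pow_inner (w : V) (j : ℕ) :
    Integrable (fun x : V => ⟪x, w⟫ ^ j) (stdGaussian V) := by
  have h := IsGaussian.memLp_dual (stdGaussian V) (innerSL ℝ w) j (by simp)
  have h2 := h.integrable_norm_pow'
  refine h2.mono' (by fun_prop) (ae_of_all _ fun x => ?_)
  simp [real_inner_comm]

omit [FiniteDimensional ℝ V] [MeasurableSpace V] [BorelSpace V] in
private theorem exp_shift (w : V) (hw : ‖w‖ = 1) (t : ℝ) (x : V) :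
    Real.exp (-‖x - t • w‖ ^ 2 / 2) =
      Real.exp (-t ^ 2 / 2) * (Real.exp (t * ⟪x, w⟫) * Real.exp (-‖x‖ ^ 2 / 2)) := by
  rw [← Real.exp_add, ← Real.exp_add, norm_sub_sq_real, inner_smul_right, norm_smul, hw]
  congr 1
  simp only [Real.norm_eq_abs, mul_one, sq_abs]
  ring

/-- The shifted and dilated Gaussian bump on the cone. -/
private noncomputable def bump (A : Set V) (w : V) (α t : ℝ) : V → ℝ :=
  A.indicator fun x => Real.exp (-‖x - (α * t) • w‖ ^ 2 / (2 * α ^ 2))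

private theorem bump_spec {A : Set V} (hA : MeasurableSet A) (hcone : IsCone A) (w : V)
    (hw : ‖w‖ = 1) {α : ℝ} (hα : 0 < α) (t : ℝ) :
    Integrable (bump A w α t) ∧
      (√(2 * Real.pi))⁻¹ ^ finrank ℝ V * ∫ x, bump A w α t x =
        α ^ finrank ℝ V * Real.exp (-t ^ 2 / 2) *
          ∫ x in A, Real.exp (t * ⟪x, w⟫) ∂stdGaussian V := by
  have hcomp : ∀ x, bump A w α t (α • x) = Real.exp (-t ^ 2 / 2) *
      (A.indicator (fun x => Real.exp (t * ⟪x, w⟫)) x * Real.exp (-‖x‖ ^ 2 / 2)) := by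
    intro x
    by_cases hx : x ∈ A
    · have hx' : α • x ∈ A := hcone α hα x hx
      rw [bump, indicator_of_mem hx', indicator_of_mem hx, ← exp_shift w hw, mul_smul,
        ← smul_sub, norm_smul, Real.norm_eq_abs, mul_pow, sq_abs]
      congr 1
      field_simp
    · have hx' : α • x ∉ A := fun h => hx (by
        have := hcone α⁻¹ (inv_pos.2 hα) _ h
        rwa [smul_smul, inv_mul_cancel₀ hα.ne', one_smul] at this)
      rw [bump, indicator_of_notMem hx', indicator_of_notMem hx]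
      simp
  have hi : Integrable (A.indicator fun x : V => Real.exp (t * ⟪x, w⟫)) (stdGaussian V) :=
    (int_exp_inner w t).indicator hA
  have hi2 := (integrable_stdGaussian_iff _).1 hi
  have hi3 : Integrable fun x => bump A w α t (α • x) := by
    simp only [hcomp]; exact hi2.const_mul _
  refine ⟨(integrable_comp_smul_iff volume _ hα.ne').1 hi3, ?_⟩
  have h1 := Measure.integral_comp_smul (volume : Measure V) (bump A w α t) α
  simp only [hcomp] at h1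
  rw [integral_const_mul, abs_of_pos (inv_pos.2 (pow_pos hα _)), smul_eq_mul] at h1
  rw [← integral_indicator hA, integral_stdGaussian]
  have hp : α ^ finrank ℝ V ≠ 0 := (pow_pos hα _).ne'
  have h2 : ∫ x, bump A w α t x = α ^ finrank ℝ V * (Real.exp (-t ^ 2 / 2) *
      ∫ x, A.indicator (fun x => Real.exp (t * ⟪x, w⟫)) x * Real.exp (-‖x‖ ^ 2 / 2)) := by
    rw [h1]; field_simp
  rw [h2]; ring

omit [FiniteDimensional ℝ V] [MeasurableSpace V] [BorelSpace V] in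
private theorem norm_ineq (a b : V) {α β : ℝ} (hα : 0 < α) (hβ : 0 < β)
    (h : α ^ 2 + β ^ 2 = 2) : ‖a + b‖ ^ 2 / 2 ≤ ‖a‖ ^ 2 / α ^ 2 + ‖b‖ ^ 2 / β ^ 2 := by
  have h1 : ‖a + b‖ ^ 2 ≤ (‖a‖ + ‖b‖) ^ 2 := by
    gcongr; exact norm_add_le a b
  have h3 : (‖a‖ + ‖b‖) ^ 2 / 2 ≤ ‖a‖ ^ 2 / α ^ 2 + ‖b‖ ^ 2 / β ^ 2 := by
    rw [div_add_div _ _ (by positivity) (by positivity), div_le_div_iff₀ (by norm_num)
      (by positivity), ← h]
    nlinarith [sq_nonneg (‖a‖ * β ^ 2 - ‖b‖ * α ^ 2)]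
  linarith

/-- Prékopa–Leindler at `t = 1/2`.  Put `ε² = 2 t₁² t₂² / (t₁² + t₂²)`, `α = ε/t₁`, `β = ε/t₂`, so
`α² + β² = 2`.  Take `f = 1_A exp(-‖x - εw‖²/(2α²))`, `g = 1_A exp(-‖y + εw‖²/(2β²))`,
`h = 1_A exp(-‖z‖²/2)`; the hypothesis is `‖a‖²/α² + ‖b‖²/β² ≥ ‖a + b‖²/(α²+β²)`.  The substitution
`x = α x'` (`Measure.integral_comp_smul` / `lintegral` version, `A` is a cone) gives
`∫ f = α^n (2π)^{n/2} e^{-t₁²/2} ∫_A e^{t₁⟪x,w⟫} dγ`, likewise for `g`; `αβ = 2t₁t₂/(t₁²+t₂²)`. -/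
theorem mgf_cone {A : Set V} (hA : MeasurableSet A) (hconv : Convex ℝ A) (hcone : IsCone A)
    (w : V) (hw : ‖w‖ = 1) {t₁ t₂ : ℝ} (h₁ : 0 < t₁) (h₂ : 0 < t₂) :
    (2 * t₁ * t₂ / (t₁ ^ 2 + t₂ ^ 2)) ^ finrank ℝ V * Real.exp (-(t₁ ^ 2 + t₂ ^ 2) / 2) *
        ((∫ x in A, Real.exp (t₁ * ⟪x, w⟫) ∂stdGaussian V) *
          ∫ x in A, Real.exp (-t₂ * ⟪x, w⟫) ∂stdGaussian V) ≤
      (stdGaussian V).real A ^ 2 := by
  set s : ℝ := t₁ ^ 2 + t₂ ^ 2 with hs
  have hs0 : 0 < s := by positivity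
  set ε : ℝ := t₁ * t₂ * √(2 / s) with hε
  have hr : 0 < √(2 / s) := Real.sqrt_pos.2 (by positivity)
  have hr2 : √(2 / s) ^ 2 = 2 / s := Real.sq_sqrt (by positivity)
  set α : ℝ := t₂ * √(2 / s) with hα
  set β : ℝ := t₁ * √(2 / s) with hβ
  have hα0 : 0 < α := by positivity
  have hβ0 : 0 < β := by positivity
  have hab : α ^ 2 + β ^ 2 = 2 := by
    rw [hα, hβ, mul_pow, mul_pow, hr2]; field_simp; rw [hs]; ring
  have hprod : α * β = 2 * t₁ * t₂ / s := by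
    have : α * β = t₁ * t₂ * √(2 / s) ^ 2 := by rw [hα, hβ]; ring
    rw [this, hr2]; ring
  obtain ⟨iF, eF⟩ := bump_spec hA hcone w hw hα0 t₁
  obtain ⟨iG, eG⟩ := bump_spec hA hcone w hw hβ0 (-t₂)
  obtain ⟨iH, eH⟩ := bump_spec hA hcone w hw one_pos 0
  have meas : ∀ a t : ℝ, Measurable (bump A w a t) := fun a t =>
    Measurable.indicator (by fun_prop) hA
  have nn : ∀ (a t : ℝ) x, 0 ≤ bump A w a t x := fun a t x =>
    indicator_nonneg (fun _ _ => (Real.exp_pos _).le) x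
  have key := pl_half (meas α t₁) (meas β (-t₂)) (meas 1 0) (nn _ _) (nn _ _) (nn _ _) iF iG iH
    (fun x y => by
      by_cases hx : x ∈ A
      · by_cases hy : y ∈ A
        · have hz : (1 / 2 : ℝ) • x + (1 / 2 : ℝ) • y ∈ A :=
            hconv hx hy (by norm_num) (by norm_num) (by norm_num)
          simp only [bump, indicator_of_mem hx, indicator_of_mem hy, indicator_of_mem hz]
          rw [← Real.exp_add, ← Real.exp_nat_mul]
          refine Real.exp_le_exp.2 ?_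
          have h1 := norm_ineq (x - (α * t₁) • w) (y - (β * -t₂) • w) hα0 hβ0 hab
          have h2 : x - (α * t₁) • w + (y - (β * -t₂) • w) = x + y := by
            have : β * -t₂ = -(α * t₁) := by rw [hα, hβ]; ring
            rw [this, neg_smul]; abel
          have h3 : ‖(1 / 2 : ℝ) • x + (1 / 2 : ℝ) • y - ((1 : ℝ) * 0) • w‖ = ‖x + y‖ / 2 := by
            rw [mul_zero, zero_smul, sub_zero, ← smul_add, norm_smul]
            norm_num; ring
          rw [h2] at h1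
          rw [h3]
          have e1 : -‖x - (α * t₁) • w‖ ^ 2 / (2 * α ^ 2) =
            -(‖x - (α * t₁) • w‖ ^ 2 / α ^ 2) / 2 := by field_simp
          have e2 : -‖y - (β * -t₂) • w‖ ^ 2 / (2 * β ^ 2) =
            -(‖y - (β * -t₂) • w‖ ^ 2 / β ^ 2) / 2 := by field_simp
          rw [e1, e2]
          push_cast
          nlinarith
        · simp only [bump, indicator_of_notMem hy, mul_zero]; positivity
      · simp only [bump, indicator_of_notMem hx, zero_mul]; positivity)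
  set c : ℝ := (√(2 * Real.pi))⁻¹ ^ finrank ℝ V with hc
  have key2 : (c * ∫ x, bump A w α t₁ x) * (c * ∫ x, bump A w β (-t₂) x) ≤
      (c * ∫ x, bump A w 1 0 x) ^ 2 := by
    have := mul_le_mul_of_nonneg_left key (sq_nonneg c)
    nlinarith
  rw [eF, eG, eH] at key2
  have e0 : ∫ x in A, Real.exp (0 * ⟪x, w⟫) ∂stdGaussian V = (stdGaussian V).real A := by
    simp
  rw [e0] at key2
  have e1 : Real.exp (-s / 2) = Real.exp (-t₁ ^ 2 / 2) * Real.exp (-(-t₂) ^ 2 / 2) := by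
    rw [← Real.exp_add, hs]; congr 1; ring
  rw [← hprod, mul_pow, e1]
  simp only [one_pow, ne_eq, OfNat.ofNat_ne_zero, not_false_eq_true, zero_pow, neg_zero, zero_div,
    Real.exp_zero, mul_one, one_mul] at key2
  refine le_trans (le_of_eq ?_) key2
  ring

private theorem exp_ge_cubic (a : ℝ) : 1 + a + a ^ 2 / 2 + a ^ 3 / 6 ≤ Real.exp a := by
  -- `g a = e^{-a} (1 + a + a²/2 + a³/6)` has derivative `-a³ e^{-a}/6`, maximum at `0`
  have hd : ∀ x : ℝ, HasDerivAt (fun x : ℝ => Real.exp (-x) * (1 + x + x ^ 2 / 2 + x ^ 3 / 6))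
      (-(Real.exp (-x) * x ^ 3 / 6)) x := by
    intro x
    have h1 : HasDerivAt (fun x : ℝ => Real.exp (-x)) (Real.exp (-x) * -1) x :=
      (hasDerivAt_neg x).exp
    have h2 : HasDerivAt (fun x : ℝ => 1 + x + x ^ 2 / 2 + x ^ 3 / 6)
        (1 + (2 * x) / 2 + (3 * x ^ 2) / 6) x := by
      have a1 := ((hasDerivAt_id x).const_add 1).add ((hasDerivAt_pow 2 x).div_const 2)
      have a2 := a1.add ((hasDerivAt_pow 3 x).div_const 6)
      refine a2.congr_deriv ?_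
      simp
    refine (h1.mul h2).congr_deriv ?_
    ring
  have hle : Real.exp (-a) * (1 + a + a ^ 2 / 2 + a ^ 3 / 6) ≤ 1 := by
    rcases lt_trichotomy a 0 with ha | ha | ha
    · obtain ⟨c, hc, he⟩ := exists_hasDerivAt_eq_slope _ _ ha
        (fun x _ => (hd x).continuousAt.continuousWithinAt) (fun x _ => hd x)
      have h3 : c ^ 3 < 0 := Odd.pow_neg (by decide) hc.2
      have h4 : 0 < -(Real.exp (-c) * c ^ 3 / 6) := by
        have := mul_neg_of_pos_of_neg (Real.exp_pos (-c)) h3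
        linarith
      rw [he, lt_div_iff₀ (by linarith)] at h4
      simp at h4
      linarith
    · subst ha; simp
    · obtain ⟨c, hc, he⟩ := exists_hasDerivAt_eq_slope _ _ ha
        (fun x _ => (hd x).continuousAt.continuousWithinAt) (fun x _ => hd x)
      have h3 : 0 < c ^ 3 := pow_pos hc.1 3
      have h4 : -(Real.exp (-c) * c ^ 3 / 6) < 0 := by
        have := mul_pos (Real.exp_pos (-c)) h3
        linarith
      rw [he, div_lt_iff₀ (by linarith)] at h4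
      simp at h4
      linarith
  have h5 := mul_le_mul_of_nonneg_left hle (Real.exp_pos a).le
  rwa [← mul_assoc, ← Real.exp_add, add_neg_cancel, Real.exp_zero, one_mul, mul_one] at h5

private theorem mgf_lower {A : Set V} (hA : MeasurableSet A) (w : V) (t : ℝ) :
    (stdGaussian V).real A + t * (∫ x in A, ⟪x, w⟫ ∂stdGaussian V) +
        t ^ 2 / 2 * (∫ x in A, ⟪x, w⟫ ^ 2 ∂stdGaussian V) +
        t ^ 3 / 6 * (∫ x in A, ⟪x, w⟫ ^ 3 ∂stdGaussian V) ≤
      ∫ x in A, Real.exp (t * ⟪x, w⟫) ∂stdGaussian V := by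
  have i1 : IntegrableOn (fun x : V => ⟪x, w⟫) A (stdGaussian V) := by
    simpa using (int_pow_inner w 1).integrableOn
  have i2 : IntegrableOn (fun x : V => ⟪x, w⟫ ^ 2) A (stdGaussian V) :=
    (int_pow_inner w 2).integrableOn
  have i3 : IntegrableOn (fun x : V => ⟪x, w⟫ ^ 3) A (stdGaussian V) :=
    (int_pow_inner w 3).integrableOn
  have i0 : IntegrableOn (fun _ : V => (1 : ℝ)) A (stdGaussian V) :=
    (integrable_const _).integrableOn
  have j1 : IntegrableOn (fun x : V => 1 + t * ⟪x, w⟫) A (stdGaussian V) :=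
    i0.add (i1.const_mul t)
  have j2 : IntegrableOn (fun x : V => 1 + t * ⟪x, w⟫ + t ^ 2 / 2 * ⟪x, w⟫ ^ 2) A
      (stdGaussian V) := j1.add (i2.const_mul (t ^ 2 / 2))
  have j3 : IntegrableOn (fun x : V => 1 + t * ⟪x, w⟫ + t ^ 2 / 2 * ⟪x, w⟫ ^ 2 +
      t ^ 3 / 6 * ⟪x, w⟫ ^ 3) A (stdGaussian V) := j2.add (i3.const_mul (t ^ 3 / 6))
  have e : ∫ x in A, (1 + t * ⟪x, w⟫ + t ^ 2 / 2 * ⟪x, w⟫ ^ 2 + t ^ 3 / 6 * ⟪x, w⟫ ^ 3)
      ∂stdGaussian V = (stdGaussian V).real A + t * (∫ x in A, ⟪x, w⟫ ∂stdGaussian V) +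
        t ^ 2 / 2 * (∫ x in A, ⟪x, w⟫ ^ 2 ∂stdGaussian V) +
        t ^ 3 / 6 * (∫ x in A, ⟪x, w⟫ ^ 3 ∂stdGaussian V) := by
    rw [integral_add j2 (i3.const_mul _), integral_add j1 (i2.const_mul _),
      integral_add i0 (i1.const_mul _), integral_const_mul, integral_const_mul,
      integral_const_mul]
    simp
  rw [← e]
  refine integral_mono j3 (int_exp_inner w t).integrableOn fun x => ?_
  have := exp_ge_cubic (t * ⟪x, w⟫)
  simp only
  nlinarith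

/-- The real-variable part: the second-order term of the expansion. -/
private theorem second_order (n : ℕ) {p m₁ m₂ m₃ c : ℝ} (hp : 0 < p)
    (M : ℝ → ℝ) (hM : ∀ t, p + t * m₁ + t ^ 2 / 2 * m₂ + t ^ 3 / 6 * m₃ ≤ M t)
    (H : ∀ t₁ t₂ : ℝ, 0 < t₁ → 0 < t₂ →
      (2 * t₁ * t₂ / (t₁ ^ 2 + t₂ ^ 2)) ^ n * Real.exp (-(t₁ ^ 2 + t₂ ^ 2) / 2) *
        (M t₁ * M (-t₂)) ≤ p ^ 2) :
    2 * c * p * m₁ - m₁ ^ 2 + p * m₂ - p ^ 2 * (1 + 2 * n * c ^ 2) ≤ 0 := by
  -- `u ε`, `v ε`: first-order coefficients of the two polynomial lower bounds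
  set u : ℝ → ℝ := fun ε => (1 + c * ε) * m₁ + ε * (1 + c * ε) ^ 2 / 2 * m₂ +
    ε ^ 2 * (1 + c * ε) ^ 3 / 6 * m₃ with hu
  set v : ℝ → ℝ := fun ε => -(1 - c * ε) * m₁ + ε * (1 - c * ε) ^ 2 / 2 * m₂ -
    ε ^ 2 * (1 - c * ε) ^ 3 / 6 * m₃ with hv
  set s : ℝ → ℝ := fun ε => 2 * c * m₁ + ((1 + c * ε) ^ 2 + (1 - c * ε) ^ 2) / 2 * m₂ +
    ε * ((1 + c * ε) ^ 3 - (1 - c * ε) ^ 3) / 6 * m₃ with hs
  set κ : ℝ → ℝ := fun ε => 2 * n * c ^ 2 + (1 + c ^ 2 * ε ^ 2) -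
    2 * n * c ^ 2 * ε ^ 2 * (1 + c ^ 2 * ε ^ 2) with hκ
  set Q : ℝ → ℝ := fun ε => p * s ε + u ε * v ε -
    κ ε * (p ^ 2 + ε ^ 2 * (p * s ε + u ε * v ε)) with hQ
  have hQc : Continuous Q := by simp only [hQ, hu, hv, hs, hκ]; fun_prop
  have hQ0 : Q 0 = 2 * c * p * m₁ - m₁ ^ 2 + p * m₂ - p ^ 2 * (1 + 2 * n * c ^ 2) := by
    simp only [hQ, hu, hv, hs, hκ]; ring
  rw [← hQ0]
  have pos : ∀ f : ℝ → ℝ, Continuous f → 0 < f 0 → ∀ᶠ ε in nhdsWithin (0 : ℝ) (Ioi 0), 0 < f ε :=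
    fun f hf h0 => nhdsWithin_le_nhds (hf.continuousAt.eventually (lt_mem_nhds h0))
  have ev1 := pos (fun ε => 1 + c * ε) (by fun_prop) (by simp)
  have ev2 := pos (fun ε => 1 - c * ε) (by fun_prop) (by simp)
  have ev3 := pos (fun ε => p + ε * u ε) (by simp only [hu]; fun_prop) (by simpa using hp)
  have ev4 := pos (fun ε => p + ε * v ε) (by simp only [hv]; fun_prop) (by simpa using hp)
  have ev5 := pos (fun ε => 1 - 2 * n * c ^ 2 * ε ^ 2) (by fun_prop) (by simp)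
  have ev6 := pos (fun ε => 1 - ε ^ 2 * (1 + c ^ 2 * ε ^ 2)) (by fun_prop) (by simp)
  refine le_of_tendsto (hQc.continuousAt.tendsto.mono_left (nhdsWithin_le_nhds (s := Ioi 0))) ?_
  filter_upwards [ev1, ev2, ev3, ev4, ev5, ev6, self_mem_nhdsWithin] with ε h1 h2 h3 h4 h5 h6 hε
  have hε : 0 < ε := hε
  have k := H (ε * (1 + c * ε)) (ε * (1 - c * ε)) (by positivity) (by positivity)
  have m1 : p + ε * u ε ≤ M (ε * (1 + c * ε)) := by
    refine le_trans (le_of_eq ?_) (hM _); simp only [hu]; ring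
  have m2 : p + ε * v ε ≤ M (-(ε * (1 - c * ε))) := by
    refine le_trans (le_of_eq ?_) (hM _); simp only [hv]; ring
  have r1 : 1 - 2 * n * c ^ 2 * ε ^ 2 ≤ (2 * (ε * (1 + c * ε)) * (ε * (1 - c * ε)) /
      ((ε * (1 + c * ε)) ^ 2 + (ε * (1 - c * ε)) ^ 2)) ^ n := by
    have hx : 0 ≤ c ^ 2 * ε ^ 2 := by positivity
    have e : 2 * (ε * (1 + c * ε)) * (ε * (1 - c * ε)) /
        ((ε * (1 + c * ε)) ^ 2 + (ε * (1 - c * ε)) ^ 2) =
        1 + -(2 * (c ^ 2 * ε ^ 2) / (1 + c ^ 2 * ε ^ 2)) := by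
      have : (ε * (1 + c * ε)) ^ 2 + (ε * (1 - c * ε)) ^ 2 =
        2 * ε ^ 2 * (1 + c ^ 2 * ε ^ 2) := by ring
      rw [this]; field_simp; ring
    have hle : 2 * (c ^ 2 * ε ^ 2) / (1 + c ^ 2 * ε ^ 2) ≤ 2 * (c ^ 2 * ε ^ 2) :=
      div_le_self (by positivity) (by linarith)
    have hle2 : 2 * (c ^ 2 * ε ^ 2) / (1 + c ^ 2 * ε ^ 2) ≤ 2 := by
      rw [div_le_iff₀ (by positivity)]; linarith
    rw [e]
    refine le_trans ?_ (one_add_mul_le_pow (by linarith) n)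
    have := mul_le_mul_of_nonneg_left hle (Nat.cast_nonneg (α := ℝ) n)
    nlinarith
  have r2 : 1 - ε ^ 2 * (1 + c ^ 2 * ε ^ 2) ≤
      Real.exp (-((ε * (1 + c * ε)) ^ 2 + (ε * (1 - c * ε)) ^ 2) / 2) := by
    refine le_trans (le_of_eq ?_) (Real.add_one_le_exp _); ring
  have k2 : (1 - 2 * n * c ^ 2 * ε ^ 2) * (1 - ε ^ 2 * (1 + c ^ 2 * ε ^ 2)) *
      ((p + ε * u ε) * (p + ε * v ε)) ≤ p ^ 2 := by
    refine le_trans ?_ k
    have a1 := mul_le_mul r1 r2 h6.le (h5.le.trans r1)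
    have a2 := mul_le_mul m1 m2 h4.le (h3.le.trans m1)
    exact mul_le_mul a1 a2 (by positivity) ((mul_pos h5 h6).le.trans a1)
  have e : (1 - 2 * n * c ^ 2 * ε ^ 2) * (1 - ε ^ 2 * (1 + c ^ 2 * ε ^ 2)) *
      ((p + ε * u ε) * (p + ε * v ε)) = p ^ 2 + ε ^ 2 * Q ε := by
    simp only [hQ, hu, hv, hs, hκ]; ring
  rw [e] at k2
  have : ε ^ 2 * Q ε ≤ 0 := by linarith
  by_contra hc
  have := mul_pos (pow_pos hε 2) (not_le.1 hc)
  linarith

/-- Proof.  Write `p = γ A`, `m_j = ∫_A ⟪x,w⟫^j`.  If `p = 0` everything vanishes.  Otherwise put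
`t₁ = ε(1+cε)`, `t₂ = ε(1-cε)` in `mgf_cone`, use `e^a ≥ 1 + a + a²/2 + a³/6`,
`((1-c²ε²)/(1+c²ε²))^n ≥ 1 - 2nc²ε²`, `e^{-a} ≥ 1 - a`; the left side is
`p² + ε² (2c p m₁ - m₁² + p m₂ - p²(1 + 2nc²)) + O(ε³)` (write it as `p² + ε² Q ε` with `Q`
a polynomial); let `ε → 0⁺` and take `c = m₁/(2np)`. -/
theorem bl_cone (hn : 1 ≤ finrank ℝ V) {A : Set V} (hA : MeasurableSet A) (hconv : Convex ℝ A)
    (hcone : IsCone A) (w : V) (hw : ‖w‖ = 1) :
    (stdGaussian V).real A * ∫ x in A, ⟪x, w⟫ ^ 2 ∂stdGaussian V ≤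
      (stdGaussian V).real A ^ 2 +
        (1 - 1 / (2 * (finrank ℝ V : ℝ))) * (∫ x in A, ⟪x, w⟫ ∂stdGaussian V) ^ 2 := by
  rcases eq_or_lt_of_le (measureReal_nonneg (μ := stdGaussian V) (s := A)) with hp | hp
  · have h0 : stdGaussian V A = 0 := by
      rwa [eq_comm, measureReal_eq_zero_iff] at hp
    rw [← hp, Measure.restrict_eq_zero.2 h0]
    simp
  · have hn' : (0 : ℝ) < finrank ℝ V := by exact_mod_cast hn
    have key := second_order (finrank ℝ V)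
      (c := (∫ x in A, ⟪x, w⟫ ∂stdGaussian V) / (2 * finrank ℝ V * (stdGaussian V).real A)) hp
      (fun t => ∫ x in A, Real.exp (t * ⟪x, w⟫) ∂stdGaussian V) (mgf_lower hA w)
      (fun t₁ t₂ h₁ h₂ => mgf_cone hA hconv hcone w hw h₁ h₂)
    set p := (stdGaussian V).real A
    set m₁ := ∫ x in A, ⟪x, w⟫ ∂stdGaussian V
    set m₂ := ∫ x in A, ⟪x, w⟫ ^ 2 ∂stdGaussian V
    set n : ℝ := (finrank ℝ V : ℝ)
    have e : 2 * (m₁ / (2 * n * p)) * p * m₁ - m₁ ^ 2 + p * m₂ -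
        p ^ 2 * (1 + 2 * n * (m₁ / (2 * n * p)) ^ 2) =
        p * m₂ - (p ^ 2 + (1 - 1 / (2 * n)) * m₁ ^ 2) := by
      field_simp; ring
    linarith

end Crest.Agent.R215
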