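import Crest.Agent.R215.Defs

/-! Row 215: basic facts on `gw` and on the cells, and the bound for three points. -/

set_option autoImplicit false

open MeasureTheory ProbabilityTheory Set Module
open scoped RealInnerProductSpace

namespace Crest.Agent.R215

universe u

variable {V : Type*} [NormedAddCommGroup V] [InnerProductSpace ℝ V] {ι : Type*}

theorem convex_cell (z : ι → V) (i : ι) : Convex ℝ (cell z i) := by
  intro x hx y hy a b ha hb _ j
  simp only [inner_add_left, real_inner_smul_left]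
  exact add_le_add (mul_le_mul_of_nonneg_left (hx j) ha) (mul_le_mul_of_nonneg_left (hy j) hb)

theorem isCone_cell (z : ι → V) (i : ι) : IsCone (cell z i) := by
  intro t ht x hx j
  simp only [real_inner_smul_left]
  exact mul_le_mul_of_nonneg_left (hx j) ht.le

theorem iUnion_cell [Finite ι] [Nonempty ι] (z : ι → V) : ⋃ i, cell z i = univ := by
  refine eq_univ_of_forall fun x => ?_
  obtain ⟨i, hi⟩ := Finite.exists_max fun i => ⟪x, z i⟫
  exact mem_iUnion.mpr ⟨i, hi⟩

theorem continuous_iSup_inner [Finite ι] (z : ι → V) : Continuous fun x => ⨆ i, ⟪x, z i⟫ := by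
  rcases isEmpty_or_nonempty ι with h | h
  · simpa using continuous_const
  · have := Fintype.ofFinite ι
    simp only [← Finset.sup'_univ_eq_ciSup]
    exact Continuous.finset_sup'_apply _ fun i _ => by fun_prop

variable [FiniteDimensional ℝ V] [MeasurableSpace V] [BorelSpace V]

theorem measurableSet_cell (z : ι → V) (i : ι) : MeasurableSet (cell z i) := by
  have : cell z i = ⋂ j, {x | ⟪x, z j⟫ ≤ ⟪x, z i⟫} := by ext x; simp [cell]
  rw [this]
  exact (isClosed_iInter fun j => isClosed_le (by fun_prop) (by fun_prop)).measurableSet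

theorem integrable_inner (v : V) : Integrable (fun x => ⟪x, v⟫) (stdGaussian V) := by
  exact (IsGaussian.integrable_id (μ := stdGaussian V)).inner_const v

theorem integrable_inner_sq (v : V) : Integrable (fun x => ⟪x, v⟫ ^ 2) (stdGaussian V) := by
  exact ((IsGaussian.memLp_two_id (μ := stdGaussian V)).inner_const v).integrable_sq

theorem integral_inner_eq_zero (v : V) : ∫ x, ⟪x, v⟫ ∂stdGaussian V = 0 := by
  simpa [real_inner_comm] using integral_strongDual_stdGaussian (innerSL ℝ v)

/-- `∫_A ⟪x, v⟫ = ⟪∫_A x, v⟫`. -/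
theorem setIntegral_inner (A : Set V) (v : V) :
    ∫ x in A, ⟪x, v⟫ ∂stdGaussian V = ⟪∫ x in A, x ∂stdGaussian V, v⟫ := by
  have h := integral_inner (𝕜 := ℝ) (μ := (stdGaussian V).restrict A) (f := fun x : V => x)
    (IsGaussian.integrable_id (μ := stdGaussian V)).integrableOn v
  simpa only [real_inner_comm] using h

theorem map_inner_stdGaussian (v : V) :
    (stdGaussian V).map (fun x => ⟪x, v⟫) = (gaussianReal 0 1).map fun t => ‖v‖ * t := by
  have h := IsGaussian.map_eq_gaussianReal (μ := stdGaussian V) (innerSL ℝ v)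
  have e : (fun x => ⟪x, v⟫) = ⇑(innerSL ℝ v) := by ext x; simp [real_inner_comm]
  rw [e, h, gaussianReal_map_const_mul, integral_strongDual_stdGaussian,
    variance_dual_stdGaussian, innerSL_apply_norm]
  congr 1
  · simp
  · ext; simp

theorem integral_abs_gaussianReal : ∫ t, |t| ∂gaussianReal 0 1 = √(2 / Real.pi) := by
  rw [integral_gaussianReal_eq_integral_smul one_ne_zero]
  have h1 : ∫ t in Ioi (0 : ℝ), t * Real.exp (-t ^ 2 / 2) = 0 - -Real.exp (-(0 : ℝ) ^ 2 / 2) := by
    refine integral_Ioi_of_hasDerivAt_of_nonneg' (g := fun t => -Real.exp (-t ^ 2 / 2))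
      (fun x _ => ?_) (fun x hx => mul_nonneg (le_of_lt hx) (Real.exp_pos _).le) ?_
    · have := (((hasDerivAt_pow 2 x).neg.div_const 2).exp).neg
      refine this.congr_deriv ?_
      simp only [Pi.neg_apply]; push_cast; ring
    · rw [← neg_zero]
      refine Filter.Tendsto.neg (Real.tendsto_exp_atBot.comp ?_)
      refine Filter.Tendsto.atBot_div_const (by norm_num) ?_
      exact Filter.tendsto_neg_atTop_atBot.comp (Filter.tendsto_pow_atTop two_ne_zero)
  have h2 := integral_comp_abs (f := fun t : ℝ => (√(2 * Real.pi))⁻¹ * (t * Real.exp (-t ^ 2 / 2)))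
  rw [integral_const_mul (μ := volume.restrict (Ioi 0)), h1] at h2
  have h3 : (fun t : ℝ => gaussianPDFReal 0 1 t • |t|) =
      fun t : ℝ => (√(2 * Real.pi))⁻¹ * (|t| * Real.exp (-|t| ^ 2 / 2)) := by
    ext t; simp [gaussianPDFReal]; ring
  rw [h3, h2]
  have h4 : √(2 / Real.pi) * √(2 * Real.pi) = 2 := by
    rw [← Real.sqrt_mul (by positivity)]
    have : 2 / Real.pi * (2 * Real.pi) = 2 ^ 2 := by field_simp
    rw [this, Real.sqrt_sq (by norm_num)]
  have h5 : 0 < √(2 * Real.pi) := by positivity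
  simp only [ne_eq, OfNat.ofNat_ne_zero, not_false_eq_true, zero_pow, neg_zero, zero_div,
    Real.exp_zero, sub_neg_eq_add, zero_add, mul_one]
  field_simp
  linarith

theorem map_neg_stdGaussian : (stdGaussian V).map (fun x => -x) = stdGaussian V :=
  stdGaussian_map (LinearIsometryEquiv.neg ℝ (E := V))

theorem integral_neg_stdGaussian (f : V → ℝ) :
    ∫ x, f (-x) ∂stdGaussian V = ∫ x, f x ∂stdGaussian V := by
  conv_rhs => rw [← map_neg_stdGaussian]
  exact ((MeasurableEquiv.neg V).measurableEmbedding.integral_map f).symm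

theorem integral_abs_inner (v : V) : ∫ x, |⟪x, v⟫| ∂stdGaussian V = √(2 / Real.pi) * ‖v‖ := by
  have h1 := integral_map (μ := stdGaussian V) (φ := fun x => ⟪x, v⟫) (f := fun t : ℝ => |t|)
    (by fun_prop) (by fun_prop)
  rw [← h1, map_inner_stdGaussian, integral_map (by fun_prop) (by fun_prop)]
  simp only [abs_mul, abs_norm]
  rw [integral_const_mul, integral_abs_gaussianReal, mul_comm]

theorem hyperplane_null {v : V} (hv : v ≠ 0) : stdGaussian V {x | ⟪x, v⟫ = 0} = 0 := by
  have h1 : stdGaussian V {x | ⟪x, v⟫ = 0} = (stdGaussian V).map (fun x => ⟪x, v⟫) {0} := by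
    rw [Measure.map_apply (by fun_prop) (measurableSet_singleton _)]; rfl
  rw [h1, map_inner_stdGaussian, Measure.map_apply (by fun_prop) (measurableSet_singleton _)]
  have h2 : (fun t : ℝ => ‖v‖ * t) ⁻¹' {0} = {0} := by ext t; simp [hv]
  have := nullSingletonClass_gaussianReal (μ := 0) (v := 1) one_ne_zero
  rw [h2, measure_singleton]

theorem half_space {v : V} (hv : v ≠ 0) : (stdGaussian V).real {x | 0 ≤ ⟪x, v⟫} = 1 / 2 := by
  have m1 : MeasurableSet {x : V | 0 ≤ ⟪x, v⟫} := measurableSet_le (by fun_prop) (by fun_prop)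
  have m2 : MeasurableSet {x : V | ⟪x, v⟫ ≤ 0} := measurableSet_le (by fun_prop) (by fun_prop)
  have h1 : (stdGaussian V).real {x | ⟪x, v⟫ ≤ 0} = (stdGaussian V).real {x | 0 ≤ ⟪x, v⟫} := by
    conv_rhs => rw [← map_neg_stdGaussian, map_measureReal_apply (by fun_prop) m1]
    congr 1; ext x; simp
  have h2 := measureReal_union_add_inter (μ := stdGaussian V) (s := {x : V | 0 ≤ ⟪x, v⟫}) m2
  have h3 : {x : V | 0 ≤ ⟪x, v⟫} ∪ {x | ⟪x, v⟫ ≤ 0} = univ := by ext x; simp [le_total]
  have h4 : {x : V | 0 ≤ ⟪x, v⟫} ∩ {x | ⟪x, v⟫ ≤ 0} = {x | ⟪x, v⟫ = 0} := by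
    ext x; simp [le_antisymm_iff, and_comm]
  rw [h3, h4, h1, probReal_univ, measureReal_def, hyperplane_null hv] at h2
  simp only [ENNReal.toReal_zero, add_zero] at h2
  linarith

theorem aedisjoint_cell {z : ι → V} (hz : Function.Injective z) :
    Pairwise fun i j => AEDisjoint (stdGaussian V) (cell z i) (cell z j) := by
  intro i j hij
  refine measure_mono_null (fun x hx => ?_) (hyperplane_null (sub_ne_zero.mpr (hz.ne hij)))
  show ⟪x, z i - z j⟫ = 0
  rw [inner_sub_right, sub_eq_zero]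
  exact le_antisymm (hx.2 i) (hx.1 j)

variable [Fintype ι]

theorem integrable_iSup_inner (z : ι → V) :
    Integrable (fun x => ⨆ i, ⟪x, z i⟫) (stdGaussian V) := by
  refine Integrable.mono' (integrable_finsetSum Finset.univ fun i _ => (integrable_inner (z i)).abs)
    (continuous_iSup_inner z).aestronglyMeasurable (Filter.Eventually.of_forall fun x => ?_)
  rcases isEmpty_or_nonempty ι with h | h
  · simp
  · obtain ⟨i, hi⟩ := exists_eq_ciSup_of_finite (f := fun i => ⟪x, z i⟫)
    rw [← hi]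
    exact Finset.single_le_sum (f := fun i => |⟪x, z i⟫|) (fun _ _ => abs_nonneg _)
      (Finset.mem_univ i)

theorem gw_add_const [Nonempty ι] (z : ι → V) (v : V) : gw (fun i => z i + v) = gw z := by
  have h : ∀ x, ⨆ i, ⟪x, z i + v⟫ = (⨆ i, ⟪x, z i⟫) + ⟪x, v⟫ := fun x => by
    simp only [inner_add_right]
    exact (ciSup_add (Finite.bddAbove_range _) _).symm
  simp only [gw, h]
  rw [integral_add (integrable_iSup_inner z) (integrable_inner v), integral_inner_eq_zero, add_zero]

theorem gw_smul (z : ι → V) {t : ℝ} (ht : 0 ≤ t) : gw (fun i => t • z i) = t * gw z := by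
  simp only [gw, real_inner_smul_right, ← Real.mul_iSup_of_nonneg ht, integral_const_mul]

theorem gw_nonneg (z : ι → V) : 0 ≤ gw z := by
  rcases isEmpty_or_nonempty ι with h | ⟨⟨i⟩⟩
  · simp [gw]
  · rw [← integral_inner_eq_zero (z i)]
    exact integral_mono (integrable_inner _) (integrable_iSup_inner z) fun x =>
      le_ciSup (f := fun i => ⟪x, z i⟫) (Finite.bddAbove_range _) i

theorem gw_comp_le {κ : Type*} [Fintype κ] [Nonempty κ] (z : ι → V) (φ : κ → ι) :
    gw (z ∘ φ) ≤ gw z := by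
  exact integral_mono (integrable_iSup_inner _) (integrable_iSup_inner z) fun x =>
    ciSup_le fun k => le_ciSup (f := fun i => ⟪x, z i⟫) (Finite.bddAbove_range _) (φ k)

theorem continuous_gw : Continuous (gw : (ι → V) → ℝ) := by
  have key : ∀ y z : ι → V, gw y ≤ gw z + (∫ x, ‖x‖ ∂stdGaussian V) * ‖y - z‖ := fun y z => by
    rcases isEmpty_or_nonempty ι with h | h
    · simp only [gw, Real.iSup_of_isEmpty, integral_zero, zero_add]
      exact mul_nonneg (integral_nonneg fun _ => norm_nonneg _) (norm_nonneg _)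
    have hn : Integrable (fun x : V => ‖x‖ * ‖y - z‖) (stdGaussian V) :=
      (IsGaussian.integrable_id (μ := stdGaussian V)).norm.mul_const _
    rw [gw, gw, ← integral_mul_const, ← integral_add (integrable_iSup_inner z) hn]
    refine integral_mono (integrable_iSup_inner y) ((integrable_iSup_inner z).add hn) fun x => ?_
    refine ciSup_le fun i => ?_
    have h1 : ⟪x, z i⟫ ≤ ⨆ i, ⟪x, z i⟫ :=
      le_ciSup (f := fun i => ⟪x, z i⟫) (Finite.bddAbove_range _) i
    have h2 : ⟪x, y i - z i⟫ ≤ ‖x‖ * ‖y - z‖ := (real_inner_le_norm _ _).trans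
      (mul_le_mul_of_nonneg_left (norm_le_pi_norm (y - z) i) (norm_nonneg _))
    rw [inner_sub_right] at h2
    show _ ≤ (⨆ i, ⟪x, z i⟫) + ‖x‖ * ‖y - z‖
    linarith
  refine (LipschitzWith.of_dist_le_mul (K := ⟨∫ x, ‖x‖ ∂stdGaussian V,
    integral_nonneg fun _ => norm_nonneg _⟩) fun y z => ?_).continuous
  rw [Real.dist_eq, dist_eq_norm, abs_sub_le_iff]
  have h1 := key y z
  have h2 := key z y
  rw [norm_sub_rev] at h2
  constructor
  · exact sub_le_iff_le_add'.mpr h1
  · exact sub_le_iff_le_add'.mpr h2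

theorem integral_eq_sum_setIntegral {A : ι → Set V} (hA : ∀ i, MeasurableSet (A i))
    (hd : Pairwise fun i j => AEDisjoint (stdGaussian V) (A i) (A j)) (hc : ⋃ i, A i = univ)
    {E : Type*} [NormedAddCommGroup E] [NormedSpace ℝ E] {f : V → E}
    (hf : Integrable f (stdGaussian V)) :
    ∫ x, f x ∂stdGaussian V = ∑ i, ∫ x in A i, f x ∂stdGaussian V := by
  rw [← tsum_fintype (L := SummationFilter.unconditional ι), ← integral_iUnion_ae
    (fun i => (hA i).nullMeasurableSet) hd hf.integrableOn, hc, Measure.restrict_univ]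

theorem sum_le_gw {A : ι → Set V} (hA : ∀ i, MeasurableSet (A i))
    (hd : Pairwise fun i j => AEDisjoint (stdGaussian V) (A i) (A j)) (hc : ⋃ i, A i = univ)
    (y : ι → V) : ∑ i, ⟪∫ x in A i, x ∂stdGaussian V, y i⟫ ≤ gw y := by
  rw [gw, integral_eq_sum_setIntegral hA hd hc (integrable_iSup_inner y)]
  refine Finset.sum_le_sum fun i _ => ?_
  rw [← setIntegral_inner]
  exact integral_mono (integrable_inner _).integrableOn (integrable_iSup_inner y).integrableOn
    fun x => le_ciSup (f := fun i => ⟪x, y i⟫) (Finite.bddAbove_range _) i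

theorem gw_eq_sum_cell [Nonempty ι] {z : ι → V} (hz : Function.Injective z) :
    gw z = ∑ i, ⟪∫ x in cell z i, x ∂stdGaussian V, z i⟫ := by
  rw [gw, integral_eq_sum_setIntegral (measurableSet_cell z) (aedisjoint_cell hz) (iUnion_cell z)
    (integrable_iSup_inner z)]
  refine Finset.sum_congr rfl fun i _ => ?_
  rw [← setIntegral_inner]
  refine setIntegral_congr_fun (measurableSet_cell z i) fun x hx => ?_
  exact le_antisymm (ciSup_le hx) (le_ciSup (f := fun i => ⟪x, z i⟫) (Finite.bddAbove_range _) i)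

theorem sum_real_cell [Nonempty ι] {z : ι → V} (hz : Function.Injective z) :
    ∑ i, (stdGaussian V).real (cell z i) = 1 := by
  have := integral_eq_sum_setIntegral (measurableSet_cell z) (aedisjoint_cell hz) (iUnion_cell z)
    (integrable_const (1 : ℝ))
  simpa using this.symm

theorem sum_mom_cell [Nonempty ι] {z : ι → V} (hz : Function.Injective z) :
    ∑ i, ∫ x in cell z i, x ∂stdGaussian V = 0 := by
  rw [← integral_eq_sum_setIntegral (measurableSet_cell z) (aedisjoint_cell hz) (iUnion_cell z)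
    (f := fun x => x) (IsGaussian.integrable_id (μ := stdGaussian V)), integral_id_stdGaussian]

omit [Fintype ι] in
theorem iSup_fin_three (f : Fin 3 → ℝ) : ⨆ i, f i = max (f 0) (max (f 1) (f 2)) := by
  refine le_antisymm (ciSup_le fun i => ?_) (max_le ?_ (max_le ?_ ?_))
  · fin_cases i <;> simp
  all_goals exact le_ciSup (Finite.bddAbove_range _) _

omit [Fintype ι] in
theorem gw_fin_three (z : Fin 3 → V) :
    gw z ≤ √(9 / (8 * Real.pi)) * √(∑ i, ‖z i‖ ^ 2) := by
  have h1 : ∫ x, ⨆ i, ⟪-x, z i⟫ ∂stdGaussian V = gw z :=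
    integral_neg_stdGaussian fun x => ⨆ i, ⟪x, z i⟫
  have hi : Integrable (fun x => ⨆ i, ⟪-x, z i⟫) (stdGaussian V) := by
    simpa using integrable_iSup_inner fun i => -z i
  have h2 : ∀ x, (⨆ i, ⟪x, z i⟫) + ⨆ i, ⟪-x, z i⟫ =
      (|⟪x, z 0 - z 1⟫| + |⟪x, z 1 - z 2⟫| + |⟪x, z 0 - z 2⟫|) / 2 := fun x => by
    simp only [iSup_fin_three, inner_neg_left, inner_sub_right]
    generalize ⟪x, z 0⟫ = a
    generalize ⟪x, z 1⟫ = b
    generalize ⟪x, z 2⟫ = c
    simp only [max_def, abs_eq_max_neg]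
    split_ifs <;> linarith
  have h3 : gw z + gw z = √(2 / Real.pi) * (‖z 0 - z 1‖ + ‖z 1 - z 2‖ + ‖z 0 - z 2‖) / 2 := by
    conv_lhs => rw [← h1]; arg 1; rw [h1, gw]
    rw [← integral_add (integrable_iSup_inner z) hi]
    simp only [h2]
    have hi2 : Integrable (fun x => |⟪x, z 0 - z 1⟫| + |⟪x, z 1 - z 2⟫|) (stdGaussian V) :=
      (integrable_inner _).abs.add (integrable_inner _).abs
    rw [integral_div, integral_add hi2 (integrable_inner _).abs, integral_add (integrable_inner _).abs (integrable_inner _).abs,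
      integral_abs_inner, integral_abs_inner, integral_abs_inner]
    ring
  have h4 : √(9 / (8 * Real.pi)) = 3 / 4 * √(2 / Real.pi) := by
    have : 9 / (8 * Real.pi) = (3 / 4) ^ 2 * (2 / Real.pi) := by field_simp; norm_num
    rw [this, Real.sqrt_mul (by positivity), Real.sqrt_sq (by norm_num)]
  have h5 : ‖z 0 - z 1‖ + ‖z 1 - z 2‖ + ‖z 0 - z 2‖ ≤ 3 * √(∑ i, ‖z i‖ ^ 2) := by
    have e1 : ‖z 0 - z 1‖ ^ 2 + ‖z 1 - z 2‖ ^ 2 + ‖z 0 - z 2‖ ^ 2 + ‖z 0 + z 1 + z 2‖ ^ 2 =
        3 * ∑ i, ‖z i‖ ^ 2 := by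
      simp only [Fin.sum_univ_three, norm_sub_sq_real, norm_add_sq_real, inner_add_left]
      ring
    have e2 := Real.sq_sqrt (show 0 ≤ ∑ i, ‖z i‖ ^ 2 by positivity)
    refine abs_le_of_sq_le_sq' ?_ (by positivity) |>.2
    nlinarith [sq_nonneg (‖z 0 - z 1‖ - ‖z 1 - z 2‖), sq_nonneg (‖z 0 - z 1‖ - ‖z 0 - z 2‖),
      sq_nonneg (‖z 1 - z 2‖ - ‖z 0 - z 2‖), sq_nonneg ‖z 0 + z 1 + z 2‖]
  have h6 := mul_le_mul_of_nonneg_left h5 (Real.sqrt_nonneg (2 / Real.pi))
  rw [h4]
  linarith

/-- Three points: by the symmetry `x ↦ -x`, `2 E max = E (max - min)`, and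
`max - min = (|a-b| + |b-c| + |a-c|)/2`; then `integral_abs_inner`, Cauchy–Schwarz and
`Σ_{i<j} ‖z i - z j‖² ≤ 3 Σ ‖z i‖²`.  Fewer points: pad with zero vectors (`gw_comp_le` along an
embedding into `Fin 3`); the empty case has `gw = 0`. -/
theorem bound_three : Bound.{u} 3 := by
  intro V _ _ _ _ _ ι _ hι z
  rcases isEmpty_or_nonempty ι with h | h
  · simp [gw]
  obtain ⟨e⟩ : Nonempty (ι ↪ Fin 3) := Function.Embedding.nonempty_of_card_le (by simpa using hι)
  have h1 : z = Function.extend e z 0 ∘ e := (Function.extend_comp e.injective z 0).symm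
  have h2 : ∑ k, ‖Function.extend e z 0 k‖ ^ 2 = ∑ i, ‖z i‖ ^ 2 := by
    refine (Finset.sum_of_injOn e e.injective.injOn (by simp) (fun k _ hk => ?_)
      fun i _ => ?_).symm
    · rw [Function.extend_apply' _ _ _ (by simpa using hk)]; simp
    · rw [e.injective.extend_apply]
  rw [← h2]
  have h3 := gw_comp_le (Function.extend e z 0) e
  rw [← h1] at h3
  exact h3.trans (gw_fin_three _)

end Crest.Agent.R215
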