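import Crest.Agent.R215.CapAux
import Crest.Agent.R215.GW

/-! Row 215: the first moment of a cone of given Gaussian mass. -/

set_option autoImplicit false

open MeasureTheory ProbabilityTheory Set Module
open scoped RealInnerProductSpace

namespace Crest.Agent.R215

variable {V : Type*} [NormedAddCommGroup V] [InnerProductSpace ℝ V] [FiniteDimensional ℝ V]
  [MeasurableSpace V] [BorelSpace V]

/-- Proof.  Take an orthonormal basis `b : Fin (d+1) → V` with `b 0 = w` (`n = d+1`, `d ≥ 2`), use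
`stdGaussian_eq_map_pi_orthonormalBasis` and `measurePreserving_piFinSuccAbove`: `x = (y, v)`,
`⟪x,w⟫ = y`, `‖x‖² = y² + R²`, `R² = Σ v_i²`.  For fixed `v` with `R > 0` substitute `y = R u`: the
inner integral is `∫_{u>0} (c√(1+u²) - u)₊ R² φ(Ru) du`.  Tonelli, and
`E_v[R² e^{-u²R²/2}] = d (1+u²)^{-(d+2)/2} ≤ d (1+u²)^{-2}` (product of one-dimensional Gaussian
integrals).  Finally `∫_0^U (c√(1+u²) - u)(1+u²)^{-2} du = c²/2` for `U = c/√(1-c²)`
(antiderivative `c u/√(1+u²) + 1/(2(1+u²))`), and the positive part vanishes for `u > U`. -/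
theorem wedge_le (hn : 3 ≤ finrank ℝ V) (w : V) (hw : ‖w‖ = 1) {c : ℝ} (hc0 : 0 ≤ c) (hc1 : c < 1) :
    ∫ x in {x | 0 < ⟪x, w⟫}, max (c * ‖x‖ - ⟪x, w⟫) 0 ∂stdGaussian V ≤
      ((finrank ℝ V : ℝ) - 1) * c ^ 2 / (2 * √(2 * Real.pi)) := by
  obtain ⟨d, hd⟩ : ∃ d, finrank ℝ V = d + 1 := ⟨finrank ℝ V - 1, by omega⟩
  have hd2 : 2 ≤ d := by omega
  obtain ⟨Ψ, hΨ, hΨ'⟩ := exists_split hd w hw
  have hH : MeasurableSet {x : V | 0 < ⟪x, w⟫} := measurableSet_lt (by fun_prop) (by fun_prop)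
  have hint : Integrable ({x : V | 0 < ⟪x, w⟫}.indicator fun x => max (c * ‖x‖ - ⟪x, w⟫) 0)
      (stdGaussian V) :=
    (((integrable_norm_gauss.const_mul c).sub (integrable_inner w)).sup
      (integrable_zero _ _ _)).indicator hH
  have hcomp : ∀ p, {x : V | 0 < ⟪x, w⟫}.indicator (fun x => max (c * ‖x‖ - ⟪x, w⟫) 0) (Ψ p) =
      (Ioi (0 : ℝ)).indicator (fun y => max (c * √(y ^ 2 + ‖p.2‖ ^ 2) - y) 0) p.1 := fun p => by
    simp only [indicator, mem_ofPred_eq, mem_Ioi, (hΨ' p).1, (hΨ' p).2]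
  have hint' := (hΨ.integrable_comp hint.aestronglyMeasurable).mpr hint
  rw [Function.comp_def] at hint'
  have hs0 : 0 < √(2 * Real.pi) := by positivity
  rw [← integral_indicator hH, ← hΨ.map_eq, integral_map hΨ.measurable.aemeasurable
    (by rw [hΨ.map_eq]; exact hint.aestronglyMeasurable), integral_prod_symm _ hint']
  simp only [hcomp, inner_wedge hc1 (norm_nonneg _)]
  rw [integral_integral_swap]
  · simp only [integral_const_mul]
    have hE : finrank ℝ (EuclideanSpace ℝ (Fin d)) = d := by simp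
    simp only [gauss_weighted (V := EuclideanSpace ℝ (Fin d)) (by rw [hE]; omega), hE]
    have hi := integrableOn_wg_mul hc0 hc1 (f := fun u => ((1 + u ^ 2) ^ 2)⁻¹)
      (Continuous.inv₀ (by fun_prop) fun u => by positivity)
    calc _ ≤ ∫ u in Ioi (0 : ℝ), (√(2 * Real.pi))⁻¹ * d * (wg c u * ((1 + u ^ 2) ^ 2)⁻¹) := by
          refine integral_mono_of_nonneg (ae_of_all _ fun u => ?_) (hi.const_mul _)
            (ae_of_all _ fun u => ?_)
          · have := wg_nonneg c u
            positivity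
          · have h0 := wg_nonneg c u
            have hp : 0 < 1 + u ^ 2 := by positivity
            have h1 : 1 ≤ √(1 + u ^ 2) := Real.one_le_sqrt.mpr (by nlinarith)
            have h2 : (1 + u ^ 2) ^ 2 ≤ √(1 + u ^ 2) ^ (d + 2) := by
              calc (1 + u ^ 2) ^ 2 = √(1 + u ^ 2) ^ 4 := by
                    rw [show 4 = 2 * 2 from rfl, pow_mul, Real.sq_sqrt hp.le]
                _ ≤ _ := pow_le_pow_right₀ h1 (by omega)
            have h3 : (√(1 + u ^ 2) ^ (d + 2))⁻¹ ≤ ((1 + u ^ 2) ^ 2)⁻¹ :=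
              inv_anti₀ (by positivity) h2
            calc _ ≤ (√(2 * Real.pi))⁻¹ * wg c u * (d * ((1 + u ^ 2) ^ 2)⁻¹) := by
                  dsimp only; gcongr
              _ = _ := by ring
      _ = _ := by
          rw [integral_const_mul, integral_wg hc0 hc1, hd]
          push_cast; field_simp; ring
  · have hi := integrableOn_wg_mul hc0 hc1 (f := fun _ => (√(2 * Real.pi))⁻¹) continuous_const
    refine ((integrable_norm_sq (V := EuclideanSpace ℝ (Fin d))).mul_prod hi).mono' ?_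
      (ae_of_all _ fun p => ?_)
    · have := continuous_wg c
      exact Continuous.aestronglyMeasurable (by unfold Function.uncurry; fun_prop)
    · have h0 := wg_nonneg c p.2
      have h1 : Real.exp (-(‖p.1‖ * p.2) ^ 2 / 2) ≤ 1 :=
        Real.exp_le_one_iff.mpr (by nlinarith [sq_nonneg (‖p.1‖ * p.2)])
      simp only [Function.uncurry]
      rw [Real.norm_of_nonneg (by positivity)]
      calc _ ≤ (√(2 * Real.pi))⁻¹ * wg c p.2 * (‖p.1‖ ^ 2 * 1) := by gcongr
        _ = _ := by ring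

theorem half_space_pos {w : V} (hw : w ≠ 0) :
    (stdGaussian V).real {x | 0 < ⟪x, w⟫} = 1 / 2 := by
  rw [← half_space hw]
  refine measureReal_congr ?_
  have := hyperplane_null hw
  rw [← compl_mem_ae_iff] at this
  filter_upwards [this] with x hx
  have hx : ⟪x, w⟫ ≠ 0 := hx
  exact propext ⟨fun h => le_of_lt h, fun h => lt_of_le_of_ne h hx.symm⟩

theorem half_space_mom {w : V} (hw : ‖w‖ = 1) :
    √(2 * Real.pi) * ∫ x in {x | 0 < ⟪x, w⟫}, ⟪x, w⟫ ∂stdGaussian V = 1 := by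
  have hH : MeasurableSet {x : V | 0 < ⟪x, w⟫} := measurableSet_lt (by fun_prop) (by fun_prop)
  have h1 : ∀ x : V, {x : V | 0 < ⟪x, w⟫}.indicator (fun x => ⟪x, w⟫) x =
      (|⟪x, w⟫| + ⟪x, w⟫) / 2 := fun x => by
    simp only [indicator, mem_ofPred_eq]
    split_ifs with h
    · rw [abs_of_pos h]; ring
    · rw [abs_of_nonpos (not_lt.mp h)]; ring
  rw [← integral_indicator hH]
  simp only [h1]
  rw [integral_div, integral_add (integrable_inner w).abs (integrable_inner w), integral_abs_inner,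
    integral_inner_eq_zero, hw, mul_one, add_zero, ← mul_div_assoc,
    ← Real.sqrt_mul (by positivity),
    show 2 * Real.pi * (2 / Real.pi) = 2 ^ 2 by field_simp, Real.sqrt_sq (by norm_num)]
  norm_num

theorem aN_cap {n : ℕ} (hn : 3 ≤ n) : Real.pi / 2 * aN n ^ 2 ≤ ((n : ℝ) - 1) ^ 2 := by
  rcases hn.eq_or_lt with rfl | hn
  · rw [aN_three_sq]; apply le_of_eq; field_simp; norm_num
  have h1 := aN_sq_le (n := n) (by omega)
  have h4 : (4 : ℝ) ≤ n := by exact_mod_cast hn
  have h2 : (n : ℝ) ^ 2 / (n + 1 / 2) ≤ n := by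
    rw [div_le_iff₀ (by positivity)]; nlinarith
  have h3 : Real.pi / 2 * aN n ^ 2 ≤ 2 * n :=
    mul_le_mul (by linarith [Real.pi_le_four]) (h1.trans h2) (by positivity) (by norm_num)
  nlinarith

/-- Proof.  Write `g = ⟪x,w⟫`, `H = {g > 0}`, `δ = 1/2 - p`, `a = aN n`.  Pointwise, for `c ≥ 0`,
`1_A g ≤ (g - c‖x‖)₊ + c‖x‖ 1_A` and `(g - c‖x‖)₊ = 1_H (g - c‖x‖ + (c‖x‖ - g)₊)`.
`∫_H g = 1/√(2π)`, `γ H = 1/2`, `cone_norm` for `H` and `A`, and `wedge_le` give
`∫_A g ≤ 1/√(2π) - c a δ + (n-1)c²/(2√(2π))`.  Take `c = √(2π) a δ/(n-1)`; `c < 1` since `δ < 1/2` and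
`(π/2) a² ≤ (n-1)²` (`aN_three_sq` for `n = 3`, `aN_sq_le` for `n ≥ 4`). -/
theorem cap (hn : 3 ≤ finrank ℝ V) {A : Set V} (hA : MeasurableSet A) (hcone : IsCone A)
    (w : V) (hw : ‖w‖ = 1) (hp0 : 0 < (stdGaussian V).real A)
    (hp : (stdGaussian V).real A ≤ 1 / 2) :
    √(2 * Real.pi) * ∫ x in A, ⟪x, w⟫ ∂stdGaussian V ≤
      1 - Real.pi * (aN (finrank ℝ V) ^ 2 / ((finrank ℝ V : ℝ) - 1)) *
        (1 / 2 - (stdGaussian V).real A) ^ 2 := by
  have hw0 : w ≠ 0 := by rintro rfl; simp at hw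
  have hH : MeasurableSet {x : V | 0 < ⟪x, w⟫} := measurableSet_lt (by fun_prop) (by fun_prop)
  have hHc : IsCone {x : V | 0 < ⟪x, w⟫} := fun t ht x hx => by
    simp only [mem_ofPred_eq, inner_smul_left, conj_trivial] at hx ⊢
    positivity
  set p := (stdGaussian V).real A with hpdef
  set a := aN (finrank ℝ V) with ha
  set m : ℝ := (finrank ℝ V : ℝ) - 1 with hm
  set s := √(2 * Real.pi) with hs
  have hs0 : 0 < s := by positivity
  have hs2 : s ^ 2 = 2 * Real.pi := Real.sq_sqrt (by positivity)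
  have ha0 : 0 < a := aN_pos _
  have hm0 : 0 < m := by
    have : (3 : ℝ) ≤ finrank ℝ V := by exact_mod_cast hn
    rw [hm]; linarith
  set c := s * a * (1 / 2 - p) / m with hc
  have hc0 : 0 ≤ c := div_nonneg (mul_nonneg (by positivity) (by linarith)) hm0.le
  have hc1 : c < 1 := by
    rw [hc, div_lt_one hm0]
    have h1 : s * a / 2 ≤ m := by
      refine (sq_le_sq₀ (by positivity) hm0.le).mp ?_
      have := aN_cap hn
      rw [div_pow, mul_pow, hs2]; linarith
    have h2 : 0 < s * a * p := by positivity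
    linarith
  have hW := wedge_le hn w hw hc0 hc1
  have h1 := cone_norm (by omega) hA hcone
  have h2 := cone_norm (by omega) hH hHc
  rw [half_space_pos hw0] at h2
  have h3 := half_space_mom hw
  have iN := integrable_norm_gauss (V := V)
  have iI := integrable_inner w
  have iM : Integrable (fun x : V => max (c * ‖x‖ - ⟪x, w⟫) 0) (stdGaussian V) :=
    ((iN.const_mul c).sub iI).sup (integrable_zero _ _ _)
  have key : ∫ x in A, ⟪x, w⟫ ∂stdGaussian V ≤
      ∫ x in {x | 0 < ⟪x, w⟫}, (⟪x, w⟫ - c * ‖x‖ + max (c * ‖x‖ - ⟪x, w⟫) 0) ∂stdGaussian V +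
        ∫ x in A, c * ‖x‖ ∂stdGaussian V := by
    have j1 := ((iI.sub (iN.const_mul c)).add iM).indicator hH
    have j2 := (iN.const_mul c).indicator hA
    rw [← integral_indicator hA, ← integral_indicator hH, ← integral_indicator hA]
    refine le_of_le_of_eq (integral_mono (iI.indicator hA) (j1.add j2) fun x => ?_)
      (integral_add j1 j2)
    have e1 := le_max_left (c * ‖x‖ - ⟪x, w⟫) 0
    have e2 := le_max_right (c * ‖x‖ - ⟪x, w⟫) 0
    have e3 : 0 ≤ c * ‖x‖ := by positivity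
    simp only [indicator, mem_ofPred_eq, Pi.add_apply, Pi.sub_apply]
    split_ifs <;> linarith
  have iS : Integrable (fun x : V => ⟪x, w⟫ - c * ‖x‖) (stdGaussian V) := iI.sub (iN.const_mul c)
  rw [integral_add iS.integrableOn iM.integrableOn,
    integral_sub iI.integrableOn (iN.const_mul c).integrableOn, integral_const_mul,
    integral_const_mul, h1, h2, ← ha, ← hpdef] at key
  rw [← hm, ← hs] at hW
  rw [← hs] at h3
  have h4 : s * (m * c ^ 2 / (2 * s)) = m * c ^ 2 / 2 := by field_simp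
  have h5 := mul_le_mul_of_nonneg_left hW hs0.le
  have h6 := mul_le_mul_of_nonneg_left key hs0.le
  have h7 : Real.pi * (a ^ 2 / m) * (1 / 2 - p) ^ 2 = s * c * a * (1 / 2 - p) - m * c ^ 2 / 2 := by
    have : Real.pi = s ^ 2 / 2 := by linarith
    rw [this, hc]; field_simp; ring
  rw [h7]
  rw [h4] at h5
  nlinarith

end Crest.Agent.R215
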