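import Crest.Agent.R215.Polar

/-! Row 215: auxiliary computations for `wedge_le`. -/

set_option autoImplicit false

open MeasureTheory ProbabilityTheory Set Module
open scoped RealInnerProductSpace

namespace Crest.Agent.R215

variable {V : Type*} [NormedAddCommGroup V] [InnerProductSpace ℝ V] [FiniteDimensional ℝ V]
  [MeasurableSpace V] [BorelSpace V]

/-- Splitting off the coordinate along a unit vector. -/
theorem exists_split {d : ℕ} (hd : finrank ℝ V = d + 1) (w : V) (hw : ‖w‖ = 1) :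
    ∃ Ψ : ℝ × EuclideanSpace ℝ (Fin d) → V,
      MeasurePreserving Ψ ((gaussianReal 0 1).prod (stdGaussian _)) (stdGaussian V) ∧
      ∀ p, ⟪Ψ p, w⟫ = p.1 ∧ ‖Ψ p‖ = √(p.1 ^ 2 + ‖p.2‖ ^ 2) := by
  obtain ⟨b, hb⟩ := Orthonormal.exists_orthonormalBasis_extension_of_card_eq (𝕜 := ℝ) (E := V)
    (ι := Fin (d + 1)) (by simpa using hd) (v := fun _ => w) (s := {0}) (by
      rw [orthonormal_subsingleton_iff]; intro i; exact hw)
  have hb0 : b 0 = w := hb 0 rfl
  have m1 : MeasurePreserving (fun x : Fin (d + 1) → ℝ => ∑ i, x i • b i)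
      (Measure.pi fun _ => gaussianReal 0 1) (stdGaussian V) :=
    ⟨by fun_prop, (stdGaussian_eq_map_pi_orthonormalBasis b).symm⟩
  have m2 := (measurePreserving_piFinSuccAbove (fun _ : Fin (d + 1) => gaussianReal 0 1) 0).symm
  have m3 : MeasurePreserving (MeasurableEquiv.toLp 2 (Fin d → ℝ))
      (Measure.pi fun _ => gaussianReal 0 1) (stdGaussian (EuclideanSpace ℝ (Fin d))) :=
    ⟨(MeasurableEquiv.toLp 2 (Fin d → ℝ)).measurable, map_pi_eq_stdGaussian⟩
  have m4 := (MeasurePreserving.id (gaussianReal 0 1)).prod m3.symm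
  refine ⟨_, m1.comp (m2.comp m4), fun p => ⟨?_, ?_⟩⟩
  · rw [← hb0]
    simp only [Function.comp]
    rw [b.orthonormal.inner_left_fintype]
    simp
  · simp only [Function.comp]
    have h1 : ∀ x : Fin (d + 1) → ℝ, ‖∑ i, x i • b i‖ = √(∑ i, x i ^ 2) := fun x => by
      have := b.sum_repr_symm (WithLp.toLp 2 x)
      simp only at this
      rw [this, LinearIsometryEquiv.norm_map, EuclideanSpace.norm_eq]
      simp
    rw [h1, Fin.sum_univ_succ, EuclideanSpace.real_norm_sq_eq]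
    simp

theorem integrable_norm_sq : Integrable (fun x : V => ‖x‖ ^ 2) (stdGaussian V) :=
  (IsGaussian.memLp_id (stdGaussian V) 2 (by simp)).integrable_norm_pow (by simp)

theorem integrable_norm_gauss : Integrable (fun x : V => ‖x‖) (stdGaussian V) :=
  IsGaussian.integrable_id.norm

theorem gauss_weighted (hn : 1 ≤ finrank ℝ V) (u : ℝ) :
    ∫ v : V, ‖v‖ ^ 2 * Real.exp (-(‖v‖ * u) ^ 2 / 2) ∂stdGaussian V =
      finrank ℝ V * (√(1 + u ^ 2) ^ (finrank ℝ V + 2))⁻¹ := by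
  set s := √(1 + u ^ 2) with hs
  have hs0 : 0 < s := Real.sqrt_pos.mpr (by positivity)
  have hs2 : s ^ 2 = 1 + u ^ 2 := Real.sq_sqrt (by positivity)
  have h1 := cone_norm_sq hn (A := (univ : Set V)) MeasurableSet.univ (fun _ _ _ _ => trivial)
  rw [Measure.restrict_univ, probReal_univ, mul_one, integral_stdGaussian] at h1
  have h2 := Measure.integral_comp_smul_of_nonneg (volume : Measure V)
    (fun v : V => ‖v‖ ^ 2 * Real.exp (-‖v‖ ^ 2 / 2)) s (hR := hs0.le)
  have h3 : ∀ v : V, ‖v‖ ^ 2 * Real.exp (-(‖v‖ * u) ^ 2 / 2) * Real.exp (-‖v‖ ^ 2 / 2) =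
      (s ^ 2)⁻¹ * (‖s • v‖ ^ 2 * Real.exp (-‖s • v‖ ^ 2 / 2)) := fun v => by
    rw [norm_smul, Real.norm_of_nonneg hs0.le, mul_assoc, ← Real.exp_add, mul_pow s, ← mul_assoc,
      ← mul_assoc, inv_mul_cancel₀ (by positivity), one_mul, hs2]
    congr 2; ring
  rw [integral_stdGaussian]
  simp only [h3]
  rw [integral_const_mul, h2, ← h1, smul_eq_mul, pow_add]
  field_simp

/-- The profile `(c √(1+u²) - u)₊`. -/
noncomputable def wg (c u : ℝ) : ℝ := max (c * √(1 + u ^ 2) - u) 0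

theorem wg_nonneg (c u : ℝ) : 0 ≤ wg c u := le_max_right _ _

theorem continuous_wg (c : ℝ) : Continuous (wg c) := by unfold wg; fun_prop

theorem wg_sign {c : ℝ} (hc0 : 0 ≤ c) (hc1 : c < 1) {u : ℝ} (hu : 0 ≤ u) :
    (u ≤ c / √(1 - c ^ 2) → u ≤ c * √(1 + u ^ 2)) ∧
      (c / √(1 - c ^ 2) ≤ u → c * √(1 + u ^ 2) ≤ u) := by
  have h0 : 0 < 1 - c ^ 2 := by nlinarith
  have ht0 : 0 < √(1 - c ^ 2) := Real.sqrt_pos.mpr h0
  have ht2 : √(1 - c ^ 2) ^ 2 = 1 - c ^ 2 := Real.sq_sqrt h0.le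
  have hs2 : √(1 + u ^ 2) ^ 2 = 1 + u ^ 2 := Real.sq_sqrt (by positivity)
  constructor
  · intro h
    rw [le_div_iff₀ ht0] at h
    have := pow_le_pow_left₀ (by positivity) h 2
    refine (sq_le_sq₀ hu (by positivity)).mp ?_
    rw [mul_pow, ht2] at this
    rw [mul_pow, hs2]; nlinarith
  · intro h
    rw [div_le_iff₀ ht0] at h
    have := pow_le_pow_left₀ hc0 h 2
    refine (sq_le_sq₀ (by positivity) hu).mp ?_
    rw [mul_pow, ht2] at this
    rw [mul_pow, hs2]; nlinarith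

theorem wg_eq_zero {c : ℝ} (hc0 : 0 ≤ c) (hc1 : c < 1) :
    ∀ u ∈ Ioi (0 : ℝ) \ Ioc 0 (c / √(1 - c ^ 2)), wg c u = 0 := fun u hu => by
  have h0 : 0 < u := hu.1
  have h1 : c / √(1 - c ^ 2) ≤ u := by
    by_contra h; exact hu.2 ⟨h0, (not_le.mp h).le⟩
  exact max_eq_right (sub_nonpos.mpr ((wg_sign hc0 hc1 h0.le).2 h1))

theorem integrableOn_wg_mul {c : ℝ} (hc0 : 0 ≤ c) (hc1 : c < 1) {f : ℝ → ℝ} (hf : Continuous f) :
    IntegrableOn (fun u => wg c u * f u) (Ioi 0) :=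
  (((continuous_wg c).mul hf).integrableOn_Ioc (a := 0) (b := c / √(1 - c ^ 2))).of_forall_sdiff_eq_zero
    measurableSet_Ioi fun u hu => by simp [wg_eq_zero hc0 hc1 u hu]

theorem integral_wg {c : ℝ} (hc0 : 0 ≤ c) (hc1 : c < 1) :
    ∫ u in Ioi (0 : ℝ), wg c u * ((1 + u ^ 2) ^ 2)⁻¹ = c ^ 2 / 2 := by
  have h0 : 0 < 1 - c ^ 2 := by nlinarith
  have ht0 : 0 < √(1 - c ^ 2) := Real.sqrt_pos.mpr h0
  have ht2 : √(1 - c ^ 2) ^ 2 = 1 - c ^ 2 := Real.sq_sqrt h0.le
  have hU : 0 ≤ c / √(1 - c ^ 2) := by positivity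
  rw [setIntegral_eq_of_subset_of_forall_sdiff_eq_zero measurableSet_Ioi Ioc_subset_Ioi_self
    (fun u hu => by rw [wg_eq_zero hc0 hc1 u hu, zero_mul]), ← intervalIntegral.integral_of_le hU,
    intervalIntegral.integral_congr
      (g := fun u => (c * √(1 + u ^ 2) - u) * ((1 + u ^ 2) ^ 2)⁻¹) (fun u hu => by
        rw [uIcc_of_le hU] at hu
        simp only [wg, max_eq_left (sub_nonneg.mpr ((wg_sign hc0 hc1 hu.1).1 hu.2))]),
    intervalIntegral.integral_eq_sub_of_hasDerivAt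
      (f := fun u => c * u / √(1 + u ^ 2) + (1 + u ^ 2)⁻¹ / 2)]
  · have e1 : 1 + (c / √(1 - c ^ 2)) ^ 2 = (√(1 - c ^ 2))⁻¹ ^ 2 := by
      field_simp; rw [ht2]; ring
    rw [e1, Real.sqrt_sq (by positivity), inv_pow, inv_inv, ht2]
    simp only [mul_zero, zero_div]
    field_simp; ring
  · intro u _
    have hp : 0 < 1 + u ^ 2 := by positivity
    have hs0 : 0 < √(1 + u ^ 2) := Real.sqrt_pos.mpr hp
    have hs2 : √(1 + u ^ 2) ^ 2 = 1 + u ^ 2 := Real.sq_sqrt hp.le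
    have d1 : HasDerivAt (fun u : ℝ => 1 + u ^ 2) (2 * u) u := by
      simpa using (hasDerivAt_pow 2 u).const_add 1
    have d2 := d1.sqrt hp.ne'
    have d3 := (((hasDerivAt_id u).const_mul c).div d2 hs0.ne').add ((d1.inv hp.ne').div_const 2)
    convert d3 using 1
    · ext; simp
    · simp only [id]
      generalize √(1 + u ^ 2) = s at hs0 hs2
      rw [← hs2]
      have : u ^ 2 = s ^ 2 - 1 := by linarith
      field_simp
      rw [this]; ring
  · refine Continuous.intervalIntegrable ?_ _ _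
    exact Continuous.mul (by fun_prop) (Continuous.inv₀ (by fun_prop) fun u => by positivity)

/-- The inner integral after the substitution `y = R u`. -/
theorem inner_wedge {c : ℝ} (hc1 : c < 1) {R : ℝ} (hR : 0 ≤ R) :
    ∫ y, (Ioi (0 : ℝ)).indicator (fun y => max (c * √(y ^ 2 + R ^ 2) - y) 0) y ∂gaussianReal 0 1 =
      ∫ u in Ioi (0 : ℝ), (√(2 * Real.pi))⁻¹ * wg c u * (R ^ 2 * Real.exp (-(R * u) ^ 2 / 2)) := by
  rw [integral_gaussianReal_eq_integral_smul one_ne_zero]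
  simp only [← indicator_smul_apply]
  rw [integral_indicator measurableSet_Ioi]
  rcases hR.eq_or_lt with rfl | hR
  · rw [setIntegral_eq_zero_of_forall_eq_zero]
    · simp
    · intro y hy
      have hy : 0 < y := hy
      rw [max_eq_right, smul_zero]
      rw [zero_pow two_ne_zero, add_zero, Real.sqrt_sq hy.le]; nlinarith
  have := integral_comp_mul_left_Ioi'
    (fun y => gaussianPDFReal 0 1 y • max (c * √(y ^ 2 + R ^ 2) - y) 0) 0 hR
  rw [mul_zero] at this
  rw [← this, ← integral_smul]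
  refine integral_congr_ae (ae_of_all _ fun u => ?_)
  have e1 : √((R * u) ^ 2 + R ^ 2) = R * √(1 + u ^ 2) := by
    rw [show (R * u) ^ 2 + R ^ 2 = R ^ 2 * (1 + u ^ 2) by ring, Real.sqrt_mul (by positivity),
      Real.sqrt_sq hR.le]
  have e2 : max (c * (R * √(1 + u ^ 2)) - R * u) 0 = R * wg c u := by
    rw [wg, mul_max_of_nonneg _ _ hR.le, mul_zero]; congr 1; ring
  simp only [e1, e2, gaussianPDFReal, smul_eq_mul, NNReal.coe_one, mul_one, sub_zero]
  ring

end Crest.Agent.R215
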