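import Crest.Agent.R215.Defs

/-! Row 215: the constants `Mo j` and `aN n`. -/

set_option autoImplicit false

open MeasureTheory Set

namespace Crest.Agent.R215

theorem integrableOn_Mo (j : ℕ) :
    IntegrableOn (fun r : ℝ => r ^ j * Real.exp (-r ^ 2 / 2)) (Ioi 0) := by
  have h := integrableOn_rpow_mul_exp_neg_mul_sq (b := 1 / 2) (by norm_num) (s := (j : ℝ))
    (by linarith [Nat.cast_nonneg (α := ℝ) j])
  refine h.congr_fun (fun r _ => ?_) measurableSet_Ioi
  simp only [Real.rpow_natCast]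
  congr 2; ring

private lemma Mo_eq (j : ℕ) :
    Mo j = (1 / 2 : ℝ) ^ (-((j : ℝ) + 1) / 2) * (1 / 2) * Real.Gamma (((j : ℝ) + 1) / 2) := by
  rw [← integral_rpow_mul_exp_neg_mul_rpow (p := 2) (q := j) (b := 1 / 2) two_pos
    (by linarith [Nat.cast_nonneg (α := ℝ) j]) (by norm_num)]
  refine setIntegral_congr_fun measurableSet_Ioi fun r _ => ?_
  simp only [Real.rpow_natCast, Real.rpow_two]
  congr 2; ring

theorem Mo_pos (j : ℕ) : 0 < Mo j := by
  rw [Mo_eq]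
  have := Real.Gamma_pos_of_pos (s := ((j : ℝ) + 1) / 2) (by positivity)
  positivity

theorem Mo_zero : Mo 0 = √(Real.pi / 2) := by
  have h := integral_gaussian_Ioi (1 / 2)
  have h1 : Mo 0 = ∫ x in Ioi (0 : ℝ), Real.exp (-(1 / 2) * x ^ 2) := by
    refine setIntegral_congr_fun measurableSet_Ioi fun r _ => ?_
    simp only [pow_zero, one_mul]
    congr 1; ring
  rw [h1, h, show Real.pi / (1 / 2) = 2 ^ 2 * (Real.pi / 2) by ring,
    Real.sqrt_mul (by norm_num), Real.sqrt_sq (by norm_num)]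
  ring

theorem Mo_one : Mo 1 = 1 := by
  rw [Mo_eq]
  norm_num [Real.rpow_neg_one]

/-- Integration by parts (or the Gamma function: `integral_rpow_mul_exp_neg_mul_rpow`). -/
theorem Mo_add_two (j : ℕ) : Mo (j + 2) = (j + 1) * Mo j := by
  rw [Mo_eq, Mo_eq]
  push_cast
  rw [show ((j : ℝ) + 2 + 1) / 2 = ((j : ℝ) + 1) / 2 + 1 by ring,
    Real.Gamma_add_one (by positivity),
    show -((j : ℝ) + 2 + 1) / 2 = -((j : ℝ) + 1) / 2 + (-1) by ring,
    Real.rpow_add (by norm_num), Real.rpow_neg_one]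
  ring

/-- Cauchy–Schwarz: `∫ r^j (r - s)² e^{-r²/2} ≥ 0` for all `s`. -/
theorem Mo_sq_le (j : ℕ) : Mo (j + 1) ^ 2 ≤ Mo j * Mo (j + 2) := by
  have key : ∀ s : ℝ, 0 ≤ Mo j * (s * s) + (-2 * Mo (j + 1)) * s + Mo (j + 2) := fun s => by
    have h0 := integrableOn_Mo j
    have h1 := integrableOn_Mo (j + 1)
    have h2 := integrableOn_Mo (j + 2)
    have h3 : Mo j * (s * s) + (-2 * Mo (j + 1)) * s + Mo (j + 2) =
        ∫ r in Ioi (0 : ℝ), (s * s * (r ^ j * Real.exp (-r ^ 2 / 2)) +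
          (-2 * s) * (r ^ (j + 1) * Real.exp (-r ^ 2 / 2)) +
          r ^ (j + 2) * Real.exp (-r ^ 2 / 2)) := by
      rw [integral_add (by exact (h0.const_mul _).add (h1.const_mul _)) h2,
        integral_add (h0.const_mul _) (h1.const_mul _), integral_const_mul, integral_const_mul]
      simp only [Mo]; ring
    rw [h3]
    refine setIntegral_nonneg measurableSet_Ioi fun r hr => ?_
    have hr0 : 0 < r := hr
    have : 0 ≤ r ^ j * Real.exp (-r ^ 2 / 2) * (r - s) ^ 2 := by positivity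
    refine this.trans_eq ?_
    ring
  have := discrim_le_zero key
  unfold discrim at this
  nlinarith

theorem aN_pos (n : ℕ) : 0 < aN n := div_pos (Mo_pos _) (Mo_pos _)

theorem aN_mul_succ {n : ℕ} (hn : 1 ≤ n) : aN n * aN (n + 1) = n := by
  obtain ⟨m, rfl⟩ := Nat.exists_eq_add_of_le' hn
  have h0 := (Mo_pos m).ne'
  have h1 := (Mo_pos (m + 1)).ne'
  simp only [aN, Nat.add_sub_cancel]
  rw [Mo_add_two]
  push_cast
  field_simp

private lemma aN_le_succ {n : ℕ} (hn : 1 ≤ n) : aN n ≤ aN (n + 1) := by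
  obtain ⟨m, rfl⟩ := Nat.exists_eq_add_of_le' hn
  simp only [aN, Nat.add_sub_cancel]
  rw [div_le_div_iff₀ (Mo_pos _) (Mo_pos _)]
  have := Mo_sq_le m
  nlinarith

private lemma aN_sq_ge_weak {n : ℕ} (hn : 1 ≤ n) : (n : ℝ) ≤ aN (n + 1) ^ 2 := by
  rw [← aN_mul_succ hn, sq]
  exact mul_le_mul_of_nonneg_right (aN_le_succ hn) (aN_pos _).le

private lemma aN_add_two {n : ℕ} (hn : 1 ≤ n) : n * aN (n + 2) = (n + 1) * aN n := by
  have h1 := aN_mul_succ hn
  have h2 := aN_mul_succ (n := n + 1) (by omega)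
  push_cast at h2
  rw [← h2, ← h1]
  ring

/-- `n - 1/2 ≤ aN n ^ 2`.  Proof: `b n = aN n ^ 2 / (n - 1/2)` satisfies `b (n+2) ≤ b n`
(because `aN (n+2) = aN n * (n+1) / n`), and `aN n ^ 2 ≥ aN n * aN (n-1) = n - 1` by `Mo_sq_le`,
so `b (n + 2m) ≥ (n+2m-1)/(n+2m-1/2) → 1`; hence `b n ≥ 1`. -/
theorem aN_sq_ge {n : ℕ} (hn : 1 ≤ n) : (n : ℝ) - 1 / 2 ≤ aN n ^ 2 := by
  have hn' : (1 : ℝ) ≤ n := by exact_mod_cast hn
  set c : ℝ := aN n ^ 2 / (n - 1 / 2) with hc
  have hc0 : 0 ≤ c := div_nonneg (sq_nonneg _) (by linarith)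
  have step : ∀ m : ℕ, aN (n + 2 * m) ^ 2 ≤ c * ((n : ℝ) + 2 * m - 1 / 2) := fun m => by
    induction m with
    | zero =>
      simp only [mul_zero, add_zero, Nat.cast_zero]
      rw [hc, div_mul_cancel₀ _ (by linarith)]
    | succ m ih =>
      have h1 := aN_add_two (n := n + 2 * m) (by omega)
      rw [show n + 2 * (m + 1) = n + 2 * m + 2 by ring]
      push_cast at h1 ⊢
      have hm : (0 : ℝ) ≤ m := Nat.cast_nonneg m
      set N : ℝ := n + 2 * m with hN
      have hN1 : 1 ≤ N := by linarith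
      have h2 : N ^ 2 * aN (n + 2 * m + 2) ^ 2 = (N + 1) ^ 2 * aN (n + 2 * m) ^ 2 := by
        rw [← mul_pow, h1, mul_pow]
      have h3 : (N + 1) ^ 2 * (c * (N - 1 / 2)) ≤ N ^ 2 * (c * (N + 3 / 2)) := by nlinarith
      have h4 := mul_le_mul_of_nonneg_left ih (sq_nonneg (N + 1))
      have h5 : N ^ 2 * aN (n + 2 * m + 2) ^ 2 ≤ N ^ 2 * (c * (N + 3 / 2)) := by linarith
      have h6 := le_of_mul_le_mul_left h5 (by positivity)
      linarith
  have hc1 : 1 ≤ c := by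
    by_contra hlt
    push Not at hlt
    obtain ⟨m, hm⟩ := exists_nat_gt (1 / (1 - c))
    rw [div_lt_iff₀ (by linarith)] at hm
    have h1 := step (m + 1)
    have h2 := aN_sq_ge_weak (n := n + 2 * m + 1) (by omega)
    rw [show n + 2 * m + 1 + 1 = n + 2 * (m + 1) by ring] at h2
    push_cast at h1 h2
    have hm0 : (0 : ℝ) ≤ m := Nat.cast_nonneg m
    nlinarith
  rwa [hc, one_le_div (by linarith)] at hc1

/-- From `aN_sq_ge (n+1)` and `aN_mul_succ`. -/
theorem aN_sq_le {n : ℕ} (hn : 1 ≤ n) : aN n ^ 2 ≤ (n : ℝ) ^ 2 / (n + 1 / 2) := by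
  have h1 := aN_sq_ge (n := n + 1) (by omega)
  push_cast at h1
  rw [le_div_iff₀ (by positivity), ← aN_mul_succ hn, mul_pow, aN_mul_succ hn]
  exact mul_le_mul_of_nonneg_left (by linarith) (sq_nonneg _)

theorem aN_three_sq : aN 3 ^ 2 = 8 / Real.pi := by
  have h3 : Mo 3 = 2 := by rw [Mo_add_two 1, Mo_one]; norm_num
  have h2 : Mo 2 = √(Real.pi / 2) := by rw [Mo_add_two 0, Mo_zero]; norm_num
  have hpi := Real.pi_pos
  simp only [aN, show 3 - 1 = 2 from rfl, h3, h2, div_pow]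
  rw [Real.sq_sqrt (by positivity)]
  field_simp; norm_num

theorem aN_four_sq : aN 4 ^ 2 = 9 * Real.pi / 8 := by
  have h := aN_mul_succ (n := 3) (by norm_num)
  have h2 : aN 3 ^ 2 * aN 4 ^ 2 = 9 := by rw [← mul_pow, h]; norm_num
  have hpi := Real.pi_pos
  rw [aN_three_sq] at h2
  field_simp at h2 ⊢
  linarith

end Crest.Agent.R215
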