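import Crest.Agent.R215.Polar

/-! Row 215: the removal inequality `T1core`, via Prékopa–Leindler for `e^{-‖x‖} dx`. -/

set_option autoImplicit false

open MeasureTheory ProbabilityTheory Set Module Filter
open scoped RealInnerProductSpace ENNReal Topology

namespace Crest.Agent.R215

variable {V : Type*} [NormedAddCommGroup V] [InnerProductSpace ℝ V] [FiniteDimensional ℝ V]
  [MeasurableSpace V] [BorelSpace V]

namespace ExpA

variable (V) in
/-- the measure `e^{-‖x‖} dx` -/
noncomputable def mu : Measure V :=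
  (volume : Measure V).withDensity fun x => ENNReal.ofReal (Real.exp (-‖x‖))

lemma meas_dens : Measurable fun x : V => ENNReal.ofReal (Real.exp (-‖x‖)) := by
  fun_prop

lemma integral_mu (f : V → ℝ) : ∫ x, f x ∂mu V = ∫ x, f x * Real.exp (-‖x‖) := by
  rw [mu, integral_withDensity_eq_integral_toReal_smul meas_dens (by simp)]
  refine integral_congr_ae (Eventually.of_forall fun x => ?_)
  simp only [smul_eq_mul]
  rw [ENNReal.toReal_ofReal (Real.exp_pos _).le, mul_comm]

lemma integrable_mu (f : V → ℝ) :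
    Integrable f (mu V) ↔ Integrable fun x => f x * Real.exp (-‖x‖) := by
  rw [mu, integrable_withDensity_iff meas_dens (by simp)]
  simp only [ENNReal.toReal_ofReal (Real.exp_pos _).le]

lemma integrable_exp (hn : 1 ≤ finrank ℝ V) : Integrable fun x : V => Real.exp (-‖x‖) := by
  have := Homog.integrable_exp (V := V) hn (j := 0) (f := fun _ => 1) measurable_const
    (fun t _ x => by simp) (C := 1) (fun x _ => by simp)
  simpa using this

lemma finite_mu (hn : 1 ≤ finrank ℝ V) : IsFiniteMeasure (mu V) := by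
  have : Integrable (fun _ : V => (1 : ℝ)) (mu V) := by
    rw [integrable_mu]; simpa using integrable_exp hn
  rcases (integrable_const_iff).1 this with h | h
  · exact absurd h one_ne_zero
  · exact h

lemma mu_apply {A : Set V} (hA : MeasurableSet A) :
    mu V A = ∫⁻ x, A.indicator (fun x => ENNReal.ofReal (Real.exp (-‖x‖))) x := by
  rw [mu, withDensity_apply _ hA, lintegral_indicator hA]

/-- log-concavity of `e^{-‖x‖} dx` -/
lemma mu_logConcave {θ : ℝ} (h0 : 0 < θ) (h1 : θ < 1) {A B C : Set V} (hA : MeasurableSet A)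
    (hB : MeasurableSet B) (hC : MeasurableSet C)
    (h : ∀ x ∈ A, ∀ y ∈ B, (1 - θ) • x + θ • y ∈ C) :
    mu V A ^ (1 - θ) * mu V B ^ θ ≤ mu V C := by
  rw [mu_apply hA, mu_apply hB, mu_apply hC]
  refine hasPL_volume h0 h1 _ _ _ (meas_dens.indicator hA) (meas_dens.indicator hB)
    (meas_dens.indicator hC) fun x y => ?_
  by_cases hx : x ∈ A
  swap
  · rw [indicator_of_notMem hx, ENNReal.zero_rpow_of_pos (by linarith), zero_mul]; exact zero_le
  by_cases hy : y ∈ B
  swap
  · rw [indicator_of_notMem hy, ENNReal.zero_rpow_of_pos h0, mul_zero]; exact zero_le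
  rw [indicator_of_mem hx, indicator_of_mem hy, indicator_of_mem (h x hx y hy),
    ENNReal.ofReal_rpow_of_pos (Real.exp_pos _), ENNReal.ofReal_rpow_of_pos (Real.exp_pos _),
    ← ENNReal.ofReal_mul (by positivity), ← Real.exp_mul, ← Real.exp_mul, ← Real.exp_add]
  refine ENNReal.ofReal_le_ofReal (Real.exp_le_exp.2 ?_)
  have := norm_add_le ((1 - θ) • x) (θ • y)
  rw [norm_smul, norm_smul, Real.norm_of_nonneg (by linarith), Real.norm_of_nonneg h0.le] at this
  linarith

lemma mu_real_logConcave (hn : 1 ≤ finrank ℝ V) {θ : ℝ} (h0 : 0 < θ) (h1 : θ < 1)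
    {A B C : Set V} (hA : MeasurableSet A) (hB : MeasurableSet B) (hC : MeasurableSet C)
    (h : ∀ x ∈ A, ∀ y ∈ B, (1 - θ) • x + θ • y ∈ C) :
    (mu V).real A ^ (1 - θ) * (mu V).real B ^ θ ≤ (mu V).real C := by
  haveI := finite_mu hn
  have := ENNReal.toReal_mono (measure_ne_top _ _) (mu_logConcave h0 h1 hA hB hC h)
  rwa [ENNReal.toReal_mul, ← ENNReal.toReal_rpow, ← ENNReal.toReal_rpow] at this

omit [FiniteDimensional ℝ V] [MeasurableSpace V] [BorelSpace V] in
lemma norm_add_ge (x v : V) : ‖x‖ + ⟪x, v⟫ / ‖x‖ ≤ ‖x + v‖ := by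
  by_cases hx : x = 0
  · simp [hx]
  have hp : 0 < ‖x‖ := norm_pos_iff.2 hx
  have h1 : ⟪x, x + v⟫ ≤ ‖x‖ * ‖x + v‖ := real_inner_le_norm _ _
  rw [inner_add_right, real_inner_self_eq_norm_sq] at h1
  have : ⟪x, v⟫ / ‖x‖ ≤ ‖x + v‖ - ‖x‖ := by
    rw [div_le_iff₀ hp]; nlinarith
  linarith

omit [FiniteDimensional ℝ V] [MeasurableSpace V] [BorelSpace V] in
lemma abs_dir_le (x v : V) : |⟪x, v⟫ / ‖x‖| ≤ ‖v‖ := by
  by_cases hx : x = 0
  · simp [hx]
  have hp : 0 < ‖x‖ := norm_pos_iff.2 hx
  rw [abs_div, abs_of_pos hp, div_le_iff₀ hp, mul_comm]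
  exact abs_real_inner_le_norm _ _

omit [FiniteDimensional ℝ V] [MeasurableSpace V] [BorelSpace V] in
lemma exp_shift_le (x v : V) (hv : ‖v‖ ≤ 1) :
    Real.exp (-‖x + v‖) ≤ (1 - ⟪x, v⟫ / ‖x‖ + ‖v‖ ^ 2) * Real.exp (-‖x‖) := by
  have h1 := norm_add_ge x v
  have h2 := abs_dir_le x v
  set y := ⟪x, v⟫ / ‖x‖
  have h3 : |Real.exp (-y) - 1 - (-y)| ≤ (-y) ^ 2 :=
    Real.abs_exp_sub_one_sub_id_le (by rw [abs_neg]; linarith)
  have h4 : y ^ 2 ≤ ‖v‖ ^ 2 := by
    rw [← sq_abs]; exact pow_le_pow_left₀ (abs_nonneg _) h2 2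
  have h5 : Real.exp (-y) ≤ 1 - y + ‖v‖ ^ 2 := by
    have := (abs_le.1 h3).2
    nlinarith
  calc Real.exp (-‖x + v‖) ≤ Real.exp (-y + -‖x‖) := Real.exp_le_exp.2 (by linarith)
    _ = Real.exp (-y) * Real.exp (-‖x‖) := Real.exp_add _ _
    _ ≤ _ := mul_le_mul_of_nonneg_right h5 (Real.exp_pos _).le

/-- a log-concave function lies below its tangent exponential -/
lemma exp_bound {k : ℝ → ℝ} {a U : ℝ} (hk0 : 0 < k 0) (hk : ∀ t, 0 ≤ k t) (hU : 0 ≤ U)
    (hlc : ∀ t θ : ℝ, 0 < t → 0 < θ → θ < 1 → k 0 ^ (1 - θ) * k t ^ θ ≤ k (θ * t))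
    (hsm : ∀ h : ℝ, 0 < h → h * U ≤ 1 → k h ≤ k 0 * (1 - h * a + h ^ 2 * U ^ 2))
    {t : ℝ} (ht : 0 < t) : k t ≤ k 0 * Real.exp (-a * t) := by
  rcases (hk t).eq_or_lt with h0 | hpos
  · rw [← h0]; positivity
  have key : ∀ h : ℝ, 0 < h → h < t → h * U ≤ 1 →
      Real.log (k t) - Real.log (k 0) ≤ -a * t + t * h * U ^ 2 := by
    intro h hh hht hU1
    have hθ0 : 0 < h / t := by positivity
    have hθ1 : h / t < 1 := (div_lt_one ht).2 hht
    have h1 := hlc t (h / t) ht hθ0 hθ1
    rw [div_mul_cancel₀ _ ht.ne'] at h1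
    have h2 : k h ≤ k 0 * Real.exp (-(h * a) + h ^ 2 * U ^ 2) :=
      (hsm h hh hU1).trans (mul_le_mul_of_nonneg_left
        (by have := Real.add_one_le_exp (-(h * a) + h ^ 2 * U ^ 2); linarith) hk0.le)
    have h3 := Real.log_le_log (by positivity) (h1.trans h2)
    rw [Real.log_mul (by positivity) (by positivity), Real.log_mul hk0.ne' (by positivity),
      Real.log_rpow hk0, Real.log_rpow hpos, Real.log_exp] at h3
    have h4 : h / t * (Real.log (k t) - Real.log (k 0)) ≤ h / t * (-a * t + t * h * U ^ 2) := by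
      have : h / t * (-a * t + t * h * U ^ 2) = -(h * a) + h ^ 2 * U ^ 2 := by
        field_simp
      rw [this]; linarith
    exact le_of_mul_le_mul_left h4 hθ0
  have lim : Tendsto (fun h : ℝ => -a * t + t * h * U ^ 2) (𝓝[>] 0) (𝓝 (-a * t + t * 0 * U ^ 2)) :=
    (Continuous.tendsto (by fun_prop) 0).mono_left nhdsWithin_le_nhds
  have h5 : Real.log (k t) - Real.log (k 0) ≤ -a * t + t * 0 * U ^ 2 := by
    refine ge_of_tendsto lim ?_
    have e1 : ∀ᶠ h : ℝ in 𝓝[>] 0, h < t := nhdsWithin_le_nhds (Iio_mem_nhds ht)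
    have e2 : ∀ᶠ h : ℝ in 𝓝[>] 0, h * U ≤ 1 := by
      refine nhdsWithin_le_nhds ?_
      have : Tendsto (fun h : ℝ => h * U) (𝓝 0) (𝓝 (0 * U)) :=
        (Continuous.tendsto (by fun_prop) 0)
      exact this.eventually (Iic_mem_nhds (by simp))
    filter_upwards [e1, e2, self_mem_nhdsWithin] with h h1 h2 h3
    exact key h h3 h1 h2
  rw [← Real.exp_log hpos, ← Real.exp_log hk0, ← Real.exp_add]
  exact Real.exp_le_exp.2 (by linarith)

end ExpA

open ExpA in
theorem T1core' (hn : 1 ≤ finrank ℝ V) (Φ : V → ℝ) (hc : Continuous Φ)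
    (hconc : ConcaveOn ℝ univ Φ) (hh : Homog 1 Φ) (u : V)
    (hu : ∀ (x : V) (t : ℝ), Φ (x + t • u) = Φ x + t) (s : ℝ) (hs : 0 < s)
    (hs' : ∫ x in {x | 0 ≤ Φ x}, ⟪x, u⟫ ∂stdGaussian V = s) :
    ∫ x, max (Φ x) 0 ∂stdGaussian V ≤
      aN (finrank ℝ V) ^ 2 / finrank ℝ V * (stdGaussian V).real {x | 0 ≤ Φ x} ^ 2 / s := by
  haveI := finite_mu hn
  set A : Set V := {x | 0 ≤ Φ x} with hAdef
  have hlev : ∀ t : ℝ, MeasurableSet {x | t ≤ Φ x} := fun t =>
    (isClosed_le continuous_const hc).measurableSet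
  have hA : MeasurableSet A := hlev 0
  have hAc : ∀ t : ℝ, 0 < t → ∀ x, t • x ∈ A ↔ x ∈ A := by
    intro t ht x
    simp only [hAdef, mem_setOf_eq, hh t ht x, pow_one]
    exact mul_nonneg_iff_of_pos_left ht
  set k : ℝ → ℝ := fun t => (mu V).real {x | t ≤ Φ x} with hk
  set p := (stdGaussian V).real A with hp
  have hNV := NV_pos hn
  have haN := aN_pos (finrank ℝ V)
  have hn' : (0 : ℝ) < finrank ℝ V := by exact_mod_cast hn
  -- `k 0`
  have hk0 : k 0 = NV V * p := by
    have h1 := exp_hom0 hn (f := A.indicator fun _ => (1 : ℝ)) (measurable_const.indicator hA)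
      (C := 1) (fun x _ => by by_cases hx : x ∈ A <;> simp [hx])
      (fun t ht x => by
        by_cases hx : x ∈ A
        · simp [hx, (hAc t ht x).2 hx]
        · simp [hx, mt (hAc t ht x).1 hx])
    rw [← integral_mu, integral_indicator hA, integral_indicator hA] at h1
    simpa using h1
  -- the drift
  set g : V → ℝ := A.indicator fun x => ⟪x, u⟫ / ‖x‖ with hg
  have hgm : Measurable g := Measurable.indicator (by fun_prop) hA
  have hgb : ∀ x, |g x| ≤ ‖u‖ := fun x => by
    by_cases hx : x ∈ A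
    · simpa only [hg, indicator_of_mem hx] using abs_dir_le x u
    · simp [hg, hx]
  have hgh : Homog 0 g := fun t ht x => by
    by_cases hx : x ∈ A
    · rw [hg, indicator_of_mem hx, indicator_of_mem ((hAc t ht x).2 hx), real_inner_smul_left,
        norm_smul, Real.norm_of_nonneg ht.le, mul_div_mul_left _ _ ht.ne', pow_zero, one_mul]
    · simp [hg, hx, mt (hAc t ht x).1 hx]
  set S := ∫ x, g x ∂mu V with hS
  have hSval : S = NV V * s / aN (finrank ℝ V) := by
    have h1 := exp_hom0 hn hgm (fun x _ => hgb x) hgh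
    have h2 := gauss_norm_mul hn hgm (fun x _ => hgb x) hgh
    have h3 : ∫ x, ‖x‖ * g x ∂stdGaussian V = s := by
      rw [← hs', ← integral_indicator hA]
      refine integral_congr_ae (Eventually.of_forall fun x => ?_)
      by_cases hx : x ∈ A
      · simp only [hg, indicator_of_mem hx]
        by_cases h0 : x = 0
        · simp [h0]
        · field_simp [norm_ne_zero_iff.2 h0]
      · simp [hg, hx]
    rw [hS, integral_mu, h1, ← h3, h2]
    field_simp
  have hSpos : 0 < S := by rw [hSval]; positivity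
  have hgint : Integrable g (mu V) :=
    Integrable.of_bound hgm.aestronglyMeasurable ‖u‖ (Eventually.of_forall hgb)
  have hk0pos : 0 < k 0 := by
    rcases (show 0 ≤ k 0 from measureReal_nonneg).eq_or_lt with h0 | h0
    · exfalso
      have h1 : mu V A = 0 := (measureReal_eq_zero_iff (measure_ne_top _ _)).1 h0.symm
      have : S = 0 := by
        rw [hS, hg, integral_indicator hA, Measure.restrict_eq_zero.2 h1, integral_zero_measure]
      exact hSpos.ne' this
    · exact h0
  -- small shifts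
  have hsm : ∀ h : ℝ, 0 < h → h * ‖u‖ ≤ 1 →
      k h ≤ k 0 * (1 - h * (S / k 0) + h ^ 2 * ‖u‖ ^ 2) := by
    intro h hh0 hh1
    have e1 : k h = ∫ x, A.indicator (fun x => Real.exp (-‖x + h • u‖)) x := by
      have : k h = ∫ x, {x | h ≤ Φ x}.indicator (fun _ => (1 : ℝ)) x ∂mu V := by
        rw [integral_indicator (hlev h)]; simp [hk]
      rw [this, integral_mu, ← integral_add_right_eq_self _ (h • u)]
      refine integral_congr_ae (Eventually.of_forall fun x => ?_)
      by_cases hx : x ∈ A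
      · have : x + h • u ∈ {x | h ≤ Φ x} := by
          simp only [mem_setOf_eq, hu]; have : 0 ≤ Φ x := hx; linarith
        simp [hx, this]
      · have : x + h • u ∉ {x | h ≤ Φ x} := by
          simp only [mem_setOf_eq, hu]; intro h'; exact hx (by show 0 ≤ Φ x; linarith)
        simp [hx, this]
    have hI : Integrable (fun x => A.indicator (fun _ => (1 : ℝ)) x) (mu V) :=
      (integrable_const (1 : ℝ)).indicator hA
    have e2 : ∫ x, ((1 + h ^ 2 * ‖u‖ ^ 2) * A.indicator (fun _ => (1 : ℝ)) x - h * g x) ∂mu V =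
        k 0 * (1 - h * (S / k 0) + h ^ 2 * ‖u‖ ^ 2) := by
      rw [integral_sub (hI.const_mul _) (hgint.const_mul _), integral_const_mul,
        integral_const_mul, integral_indicator hA, ← hS]
      have : ∫ _ in A, (1 : ℝ) ∂mu V = k 0 := by simp [hk, hAdef]
      rw [this]
      field_simp
      ring
    rw [← e2, e1, integral_mu]
    refine integral_mono_of_nonneg (Eventually.of_forall fun x => ?_) ?_
      (Eventually.of_forall fun x => ?_)
    · exact indicator_nonneg (fun _ _ => (Real.exp_pos _).le) x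
    · exact (integrable_mu _).1 ((hI.const_mul _).sub (hgint.const_mul _))
    · by_cases hx : x ∈ A
      · simp only [hg, indicator_of_mem hx]
        have hn1 : ‖h • u‖ = h * ‖u‖ := by rw [norm_smul, Real.norm_of_nonneg hh0.le]
        have := exp_shift_le x (h • u) (by rw [hn1]; exact hh1)
        rw [hn1, real_inner_smul_right] at this
        refine this.trans (le_of_eq ?_)
        ring
      · simp [hg, hx]
  have hlc : ∀ t θ : ℝ, 0 < t → 0 < θ → θ < 1 → k 0 ^ (1 - θ) * k t ^ θ ≤ k (θ * t) := by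
    intro t θ ht h0 h1
    refine mu_real_logConcave hn h0 h1 (hlev 0) (hlev t) (hlev _) fun x hx y hy => ?_
    have := hconc.2 (mem_univ x) (mem_univ y) (show 0 ≤ 1 - θ by linarith) h0.le (by ring)
    have hx' : 0 ≤ Φ x := hx
    have hy' : t ≤ Φ y := hy
    simp only [smul_eq_mul] at this
    show θ * t ≤ _
    nlinarith
  have hb : ∀ t, 0 < t → k t ≤ k 0 * Real.exp (-(S / k 0) * t) := fun t ht =>
    exp_bound hk0pos (fun _ => measureReal_nonneg) (norm_nonneg u) hlc hsm ht
  -- layer cake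
  have hPm : Measurable fun x => max (Φ x) 0 := (hc.max continuous_const).measurable
  have hPh : Homog 1 fun x => max (Φ x) 0 := fun t ht x => by
    simp only [hh t ht x, pow_one]
    rw [mul_max_of_nonneg _ _ ht.le, mul_zero]
  obtain ⟨C, hC⟩ := (isCompact_sphere (0 : V) 1).exists_bound_of_continuousOn
    (hc.max (continuous_const (y := (0 : ℝ)))).continuousOn
  have hC' : ∀ x : V, ‖x‖ = 1 → |max (Φ x) 0| ≤ C := fun x hx => hC x (by simpa using hx)
  have hPi : Integrable (fun x => max (Φ x) 0) (mu V) :=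
    (integrable_mu _).2 (Homog.integrable_exp hn hPm hPh hC')
  have hneg : -(S / k 0) < 0 := by have := div_pos hSpos hk0pos; linarith
  have hlay : ∫ x, max (Φ x) 0 ∂mu V ≤ k 0 ^ 2 / S := by
    rw [hPi.integral_eq_integral_meas_le (Eventually.of_forall fun x => le_max_right _ _)]
    have e : ∫ t in Ioi (0 : ℝ), k 0 * Real.exp (-(S / k 0) * t) = k 0 ^ 2 / S := by
      rw [integral_const_mul, integral_exp_mul_Ioi hneg]
      simp only [mul_zero, Real.exp_zero]
      field_simp
    rw [← e]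
    refine integral_mono_of_nonneg (Eventually.of_forall fun t => measureReal_nonneg)
      ((integrableOn_exp_mul_Ioi hneg 0).const_mul _) ?_
    filter_upwards [ae_restrict_mem measurableSet_Ioi] with t ht
    have : {a | t ≤ max (Φ a) 0} = {a | t ≤ Φ a} := by
      ext a
      simp only [mem_setOf_eq, le_max_iff]
      exact ⟨fun h => h.resolve_right (not_le.2 ht), Or.inl⟩
    rw [this]
    exact hb t ht
  have h1 := exp_hom1 hn hPm hC' hPh
  rw [← integral_mu] at h1
  have h2 : ∫ x, max (Φ x) 0 ∂stdGaussian V =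
      aN (finrank ℝ V) / (finrank ℝ V * NV V) * ∫ x, max (Φ x) 0 ∂mu V := by
    field_simp
    linarith
  rw [h2]
  refine (mul_le_mul_of_nonneg_left hlay (by positivity)).trans (le_of_eq ?_)
  rw [hk0, hSval]
  field_simp

end Crest.Agent.R215
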