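import Crest.Agent.R215.Polar

/-! Row 215: the variance bound `varY`. -/

set_option autoImplicit false

open MeasureTheory ProbabilityTheory Set Module
open scoped RealInnerProductSpace ENNReal

namespace Crest.Agent.R215

/-- a submultiplicative survival function gives `μ(univ) E Y² / 2 ≤ (E Y)²` -/
theorem vb_second_moment_le {X : Type*} [MeasurableSpace X] (μ : Measure X) [SFinite μ] {Y : X → ℝ}
    (hY : Measurable Y) (h0 : 0 ≤ᵐ[μ] Y)
    (hS : ∀ s t : ℝ, 0 < s → 0 < t →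
      μ univ * μ {x | s + t ≤ Y x} ≤ μ {x | s ≤ Y x} * μ {x | t ≤ Y x}) :
    μ univ * ∫⁻ x, ENNReal.ofReal (Y x ^ 2 / 2) ∂μ ≤
      (∫⁻ x, ENNReal.ofReal (Y x) ∂μ) * ∫⁻ x, ENNReal.ofReal (Y x) ∂μ := by
  have hm : ∀ s : ℝ, Measurable fun t : ℝ => μ {x | s + t ≤ Y x} := fun s =>
    Antitone.measurable fun t t' h => measure_mono fun x hx => by
      simp only [mem_ofPred_eq] at hx ⊢; linarith
  have hm0 : Measurable fun t : ℝ => μ {x | t ≤ Y x} := by simpa using hm 0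
  have h1 := lintegral_eq_lintegral_meas_le μ h0 hY.aemeasurable
  have h2 : ∀ s : ℝ, ∫⁻ x, ENNReal.ofReal (max (Y x - s) 0) ∂μ =
      ∫⁻ t in Ioi (0 : ℝ), μ {x | s + t ≤ Y x} := fun s => by
    rw [lintegral_eq_lintegral_meas_le μ (f := fun x => max (Y x - s) 0)
      (Filter.Eventually.of_forall fun x => le_max_right _ _) (by fun_prop)]
    refine setLIntegral_congr_fun measurableSet_Ioi fun t ht => ?_
    have ht' : 0 < t := ht
    congr 1
    ext x
    simp only [mem_ofPred_eq, le_max_iff]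
    constructor
    · rintro (h | h) <;> linarith
    · intro h; left; linarith
  have h3 : ∀ s ∈ Ioi (0 : ℝ), μ univ * ∫⁻ x, ENNReal.ofReal (max (Y x - s) 0) ∂μ ≤
      μ {x | s ≤ Y x} * ∫⁻ x, ENNReal.ofReal (Y x) ∂μ := fun s hs => by
    rw [h2, h1, ← lintegral_const_mul _ (hm s), ← lintegral_const_mul _ hm0]
    exact setLIntegral_mono' measurableSet_Ioi fun t ht => hS s t hs ht
  have h4 : ∫⁻ x, ENNReal.ofReal (Y x ^ 2 / 2) ∂μ ≤
      ∫⁻ s in Ioi (0 : ℝ), ∫⁻ x, ENNReal.ofReal (max (Y x - s) 0) ∂μ := by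
    rw [lintegral_lintegral_swap (by fun_prop)]
    refine lintegral_mono_ae ?_
    filter_upwards [h0] with x hx
    have hx' : 0 ≤ Y x := hx
    have h5 : ∫ s in (0 : ℝ)..Y x, (Y x - s) = Y x ^ 2 / 2 := by
      rw [intervalIntegral.integral_sub (by simp) (by simp), integral_id]
      simp; ring
    rw [← h5, intervalIntegral.integral_of_le hx', ofReal_integral_eq_lintegral_ofReal
      (Continuous.integrableOn_Ioc (by fun_prop))
      ((ae_restrict_iff' measurableSet_Ioc).2 (Filter.Eventually.of_forall fun s hs =>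
        sub_nonneg.2 hs.2))]
    refine (lintegral_mono_set Ioc_subset_Ioi_self).trans (lintegral_mono fun s => ?_)
    exact ENNReal.ofReal_le_ofReal (le_max_left _ _)
  have hm2 : Measurable fun s : ℝ => ∫⁻ x, ENNReal.ofReal (max (Y x - s) 0) ∂μ :=
    Measurable.lintegral_prod_right (f := fun s x => ENNReal.ofReal (max (Y x - s) 0))
      (by fun_prop)
  calc μ univ * ∫⁻ x, ENNReal.ofReal (Y x ^ 2 / 2) ∂μ
      ≤ μ univ * ∫⁻ s in Ioi (0 : ℝ), ∫⁻ x, ENNReal.ofReal (max (Y x - s) 0) ∂μ := by gcongr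
    _ = ∫⁻ s in Ioi (0 : ℝ), μ univ * ∫⁻ x, ENNReal.ofReal (max (Y x - s) 0) ∂μ :=
        (lintegral_const_mul _ hm2).symm
    _ ≤ ∫⁻ s in Ioi (0 : ℝ), μ {x | s ≤ Y x} * ∫⁻ x, ENNReal.ofReal (Y x) ∂μ :=
        setLIntegral_mono' measurableSet_Ioi h3
    _ = _ := by rw [lintegral_mul_const _ hm0, ← h1]

variable {V : Type*} [NormedAddCommGroup V] [InnerProductSpace ℝ V] [FiniteDimensional ℝ V]
  [MeasurableSpace V] [BorelSpace V]

/-- the measure `1_A e^{-‖x‖} dx` -/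
noncomputable def vbMu (A : Set V) : Measure V :=
  (volume.withDensity fun x : V => ENNReal.ofReal (Real.exp (-‖x‖))).restrict A

instance (A : Set V) : SFinite (vbMu A) := by unfold vbMu; infer_instance

theorem vbMu_apply {A B : Set V} (hA : MeasurableSet A) (hB : MeasurableSet B) :
    vbMu A B = ∫⁻ x, (B ∩ A).indicator (fun x => ENNReal.ofReal (Real.exp (-‖x‖))) x := by
  rw [vbMu, Measure.restrict_apply hB, withDensity_apply _ (hB.inter hA),
    lintegral_indicator (hB.inter hA)]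

theorem vbMu_logConcave {A : Set V} (hA : MeasurableSet A) (hconv : Convex ℝ A) (y : V)
    {θ : ℝ} (h0 : 0 < θ) (h1 : θ < 1) (a b : ℝ) :
    vbMu A {x | a ≤ ⟪x, y⟫} ^ (1 - θ) * vbMu A {x | b ≤ ⟪x, y⟫} ^ θ ≤
      vbMu A {x | (1 - θ) * a + θ * b ≤ ⟪x, y⟫} := by
  have hB : ∀ c : ℝ, MeasurableSet {x : V | c ≤ ⟪x, y⟫} := fun c =>
    measurableSet_le measurable_const (by fun_prop)
  have hw : Measurable fun x : V => ENNReal.ofReal (Real.exp (-‖x‖)) := by fun_prop
  have h1' : 0 < 1 - θ := by linarith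
  rw [vbMu_apply hA (hB _), vbMu_apply hA (hB _), vbMu_apply hA (hB _)]
  refine hasPL_volume h0 h1 _ _ _ (hw.indicator ((hB _).inter hA)) (hw.indicator ((hB _).inter hA))
    (hw.indicator ((hB _).inter hA)) fun x x' => ?_
  by_cases hx : x ∈ {x : V | a ≤ ⟪x, y⟫} ∩ A
  swap
  · rw [indicator_of_notMem hx, ENNReal.zero_rpow_of_pos h1', zero_mul]; exact zero_le
  by_cases hx' : x' ∈ {x : V | b ≤ ⟪x, y⟫} ∩ A
  swap
  · rw [indicator_of_notMem hx', ENNReal.zero_rpow_of_pos h0, mul_zero]; exact zero_le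
  have hmem : (1 - θ) • x + θ • x' ∈ {x : V | (1 - θ) * a + θ * b ≤ ⟪x, y⟫} ∩ A := by
    refine ⟨?_, hconv hx.2 hx'.2 h1'.le h0.le (by ring)⟩
    have ha : a ≤ ⟪x, y⟫ := hx.1
    have hb : b ≤ ⟪x', y⟫ := hx'.1
    simp only [mem_ofPred_eq, inner_add_left, real_inner_smul_left]
    gcongr
  rw [indicator_of_mem hx, indicator_of_mem hx', indicator_of_mem hmem,
    ENNReal.ofReal_rpow_of_pos (Real.exp_pos _), ENNReal.ofReal_rpow_of_pos (Real.exp_pos _),
    ← ENNReal.ofReal_mul (by positivity), ← Real.exp_mul, ← Real.exp_mul, ← Real.exp_add]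
  refine ENNReal.ofReal_le_ofReal (Real.exp_le_exp.2 ?_)
  have := norm_add_le ((1 - θ) • x) (θ • x')
  rw [norm_smul, norm_smul, Real.norm_of_nonneg h1'.le, Real.norm_of_nonneg h0.le] at this
  linarith

theorem vbMu_submul {A : Set V} (hA : MeasurableSet A) (hconv : Convex ℝ A) (y : V)
    (hy : ∀ x ∈ A, 0 ≤ ⟪x, y⟫) (s t : ℝ) (hs : 0 < s) (ht : 0 < t) :
    vbMu A univ * vbMu A {x | s + t ≤ ⟪x, y⟫} ≤ vbMu A {x | s ≤ ⟪x, y⟫} * vbMu A {x | t ≤ ⟪x, y⟫} := by
  have hst : 0 < s + t := by linarith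
  have h0 : 0 < s / (s + t) := by positivity
  have h1 : s / (s + t) < 1 := by rw [div_lt_one hst]; linarith
  have ha := vbMu_logConcave hA hconv y h0 h1 0 (s + t)
  have hb := vbMu_logConcave hA hconv y (θ := 1 - s / (s + t)) (by linarith) (by linarith) 0 (s + t)
  rw [show (1 - s / (s + t)) * 0 + s / (s + t) * (s + t) = s by field_simp; ring] at ha
  rw [show (1 - (1 - s / (s + t))) * 0 + (1 - s / (s + t)) * (s + t) = t by field_simp; ring,
    sub_sub_cancel] at hb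
  have hu : vbMu A univ = vbMu A {x | 0 ≤ ⟪x, y⟫} := by
    rw [vbMu, Measure.restrict_apply' hA, Measure.restrict_apply' hA, univ_inter,
      (inter_eq_right (s := {x : V | 0 ≤ ⟪x, y⟫})).2 fun x hx => hy x hx]
  refine le_trans (le_of_eq ?_) (mul_le_mul' ha hb)
  rw [mul_mul_mul_comm, ← ENNReal.rpow_add_of_nonneg _ _ (by linarith) h0.le,
    ← ENNReal.rpow_add_of_nonneg _ _ h0.le (by linarith), hu]
  simp

theorem lintegral_vbMu {A : Set V} (hA : MeasurableSet A) {F : V → ℝ} (hF : Measurable F)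
    (h0 : ∀ x ∈ A, 0 ≤ F x) (hi : Integrable fun x => A.indicator F x * Real.exp (-‖x‖)) :
    ∫⁻ x, ENNReal.ofReal (F x) ∂vbMu A =
      ENNReal.ofReal (∫ x, A.indicator F x * Real.exp (-‖x‖)) := by
  rw [ofReal_integral_eq_lintegral_ofReal hi (Filter.Eventually.of_forall fun x =>
    mul_nonneg (indicator_nonneg h0 x) (Real.exp_pos _).le), vbMu,
    setLIntegral_withDensity_eq_setLIntegral_mul _ (by fun_prop) (by fun_prop) hA,
    ← lintegral_indicator hA]
  refine lintegral_congr fun x => ?_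
  by_cases hx : x ∈ A
  · rw [indicator_of_mem hx, indicator_of_mem hx, Pi.mul_apply,
      ← ENNReal.ofReal_mul (Real.exp_pos _).le, mul_comm]
  · simp [indicator_of_notMem hx]

omit [FiniteDimensional ℝ V] [MeasurableSpace V] [BorelSpace V] in
theorem vb_homog_indicator {A : Set V} (hcone : IsCone A) (y : V) (j : ℕ) :
    Homog j (A.indicator fun x => ⟪x, y⟫ ^ j) := fun t ht x => by
  by_cases hx : x ∈ A
  · rw [indicator_of_mem hx, indicator_of_mem (hcone t ht x hx), real_inner_smul_left, mul_pow]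
  · have : t • x ∉ A := fun h => hx (by
      simpa [smul_smul, inv_mul_cancel₀ ht.ne'] using hcone t⁻¹ (inv_pos.2 ht) _ h)
    rw [indicator_of_notMem hx, indicator_of_notMem this, mul_zero]

theorem varY' (hn : 1 ≤ finrank ℝ V) {A : Set V} (hA : MeasurableSet A) (hconv : Convex ℝ A)
    (hcone : IsCone A) (y : V) (hy : ∀ x ∈ A, 0 ≤ ⟪x, y⟫) :
    (finrank ℝ V + 1) * aN (finrank ℝ V) ^ 2 *
        ((stdGaussian V).real A * ∫ x in A, ⟪x, y⟫ ^ 2 ∂stdGaussian V) ≤
      2 * (finrank ℝ V : ℝ) ^ 2 * (∫ x in A, ⟪x, y⟫ ∂stdGaussian V) ^ 2 := by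
  have hm : ∀ j : ℕ, Measurable fun x : V => ⟪x, y⟫ ^ j := fun j => by fun_prop
  have hb : ∀ (j : ℕ) (x : V), ‖x‖ = 1 → |A.indicator (fun x => ⟪x, y⟫ ^ j) x| ≤ ‖y‖ ^ j :=
    fun j x hx => by
      by_cases h : x ∈ A
      · rw [indicator_of_mem h, abs_pow]
        refine pow_le_pow_left₀ (abs_nonneg _) ((abs_real_inner_le_norm _ _).trans ?_) j
        rw [hx, one_mul]
      · rw [indicator_of_notMem h, abs_zero]; positivity
  set E : ℕ → ℝ := fun j => ∫ x, A.indicator (fun x => ⟪x, y⟫ ^ j) x * Real.exp (-‖x‖) with hE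
  have hE0 : ∀ j, 0 ≤ E j := fun j => integral_nonneg fun x =>
    mul_nonneg (indicator_nonneg (fun x hx => pow_nonneg (hy x hx) j) x) (Real.exp_pos _).le
  have hL : ∀ j : ℕ, ∫⁻ x, ENNReal.ofReal (⟪x, y⟫ ^ j) ∂vbMu A = ENNReal.ofReal (E j) := fun j =>
    lintegral_vbMu hA (hm j) (fun x hx => pow_nonneg (hy x hx) j)
      (Homog.integrable_exp hn ((hm j).indicator hA) (vb_homog_indicator hcone y j) (hb j))
  have key := vb_second_moment_le (vbMu A) (Y := fun x => ⟪x, y⟫) (by fun_prop)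
    ((ae_restrict_iff' hA).2 (Filter.Eventually.of_forall hy)) (vbMu_submul hA hconv y hy)
  have h0 : vbMu A univ = ENNReal.ofReal (E 0) := by rw [← hL 0]; simp
  have h1 : ∫⁻ x, ENNReal.ofReal ⟪x, y⟫ ∂vbMu A = ENNReal.ofReal (E 1) := by
    rw [← hL 1]; simp
  have h2 : ∫⁻ x, ENNReal.ofReal (⟪x, y⟫ ^ 2 / 2) ∂vbMu A = ENNReal.ofReal (E 2 / 2) := by
    simp only [fun r : ℝ => ENNReal.ofReal_div_of_pos (x := r) (two_pos : (0 : ℝ) < 2)]
    simp only [div_eq_mul_inv]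
    rw [lintegral_mul_const _ (by fun_prop), hL 2]
  rw [h0, h1, h2, ← ENNReal.ofReal_mul (hE0 0), ← ENNReal.ofReal_mul (hE0 1),
    ENNReal.ofReal_le_ofReal_iff (mul_nonneg (hE0 1) (hE0 1))] at key
  have e0 := exp_hom0 hn ((hm 0).indicator hA) (hb 0) (vb_homog_indicator hcone y 0)
  have e1 := exp_hom1 hn ((hm 1).indicator hA) (hb 1) (vb_homog_indicator hcone y 1)
  have e2 := exp_hom2 hn ((hm 2).indicator hA) (hb 2) (vb_homog_indicator hcone y 2)
  rw [integral_indicator hA] at e0 e1 e2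
  change E 0 = _ at e0
  change _ * E 1 = _ at e1
  change E 2 = _ at e2
  simp only [pow_zero, pow_one, integral_const, smul_eq_mul, mul_one,
    measureReal_restrict_apply_univ] at e0 e1
  have hN := NV_pos hn
  refine le_of_mul_le_mul_left ?_ (pow_pos hN 2)
  calc NV V ^ 2 * ((finrank ℝ V + 1) * aN (finrank ℝ V) ^ 2 *
        ((stdGaussian V).real A * ∫ x in A, ⟪x, y⟫ ^ 2 ∂stdGaussian V))
      = 2 * aN (finrank ℝ V) ^ 2 * (E 0 * (E 2 / 2)) := by rw [e0, e2]; ring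
    _ ≤ 2 * aN (finrank ℝ V) ^ 2 * (E 1 * E 1) := by gcongr
    _ = 2 * (aN (finrank ℝ V) * E 1) ^ 2 := by ring
    _ = _ := by rw [e1]; ring

end Crest.Agent.R215
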