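import Crest.Agent.R215.Polar
import Crest.Agent.R215.ExpA
import Crest.Agent.R215.ExpB

/-! Row 215: two consequences of Prékopa–Leindler for the measure `μ = e^{-‖x‖} dx`. -/

set_option autoImplicit false

open MeasureTheory ProbabilityTheory Set Module
open scoped RealInnerProductSpace

namespace Crest.Agent.R215

variable {V : Type*} [NormedAddCommGroup V] [InnerProductSpace ℝ V] [FiniteDimensional ℝ V]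
  [MeasurableSpace V] [BorelSpace V]

/-- Proof.  Put `A = {Φ ≥ 0}`, `k t = ∫ 1_{Φ ≥ t} e^{-‖x‖} dx`.
* `hasPL_volume` with `f = 1_{Φ≥0} e^{-‖·‖}`, `g = 1_{Φ≥t} e^{-‖·‖}`, `h = 1_{Φ≥θt} e^{-‖·‖}` gives
  `k(0)^{1-θ} k(t)^θ ≤ k(θ t)` for `0<θ<1`, `t>0`.
* Translate by `h u`: `k h = ∫_A e^{-‖x + h u‖} ≤ ∫_A e^{-‖x‖} exp(-h ⟪x/‖x‖, u⟫)`
  (`‖x + h u‖ ≥ ⟪x/‖x‖, x + h u⟫`, also fine at `x = 0`), and `e^{-y} ≤ 1 - y + y²` for `|y| ≤ 1`, so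
  `k h ≤ k 0 (1 - h s' + h²‖u‖²) ≤ k 0 exp(-h s' + h²‖u‖²)`, `s' = ∫_A ⟪x/‖x‖,u⟫ e^{-‖x‖} / k 0`.
* With `θ = h/t`, `h → 0`: `k t ≤ k 0 e^{-t s'}`; layer cake: `∫ Φ₊ e^{-‖x‖} = ∫_0^∞ k ≤ k 0 / s'`.
* Convert: `k 0 = NV p` (`exp_hom0`), `∫_A ⟪x/‖x‖,u⟫ e^{-‖x‖} = NV s / aN n` (`exp_hom0`,
  `gauss_norm_mul`), `aN n ∫ Φ₊ e^{-‖x‖} = n NV ∫ Φ₊ dγ` (`exp_hom1`).
  (`p > 0` because `s > 0`.) -/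
theorem T1core (hn : 1 ≤ finrank ℝ V) (Φ : V → ℝ) (hc : Continuous Φ)
    (hconc : ConcaveOn ℝ univ Φ) (hh : Homog 1 Φ) (u : V)
    (hu : ∀ (x : V) (t : ℝ), Φ (x + t • u) = Φ x + t) (s : ℝ) (hs : 0 < s)
    (hs' : ∫ x in {x | 0 ≤ Φ x}, ⟪x, u⟫ ∂stdGaussian V = s) :
    ∫ x, max (Φ x) 0 ∂stdGaussian V ≤
      aN (finrank ℝ V) ^ 2 / finrank ℝ V * (stdGaussian V).real {x | 0 ≤ Φ x} ^ 2 / s :=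
  T1core' hn Φ hc hconc hh u hu s hs hs'

/-- Proof.  `S t = ∫ 1_{A ∩ {⟪x,y⟫ ≥ t}} e^{-‖x‖} dx`, `S 0 = ∫_A e^{-‖x‖}`.  Prékopa–Leindler gives
`S(0)^{1-θ} S(s+t)^θ ≤ S(s)` for `θ = s/(s+t)` and `S(0)^θ S(s+t)^{1-θ} ≤ S(t)`; multiply:
`S(0) S(s+t) ≤ S(s) S(t)`.  Integrate over `s, t > 0` (Tonelli: `∫∫ 1_{s+t ≤ Y} = Y²/2`,
`∫ 1_{s ≤ Y} = Y`): `S(0) ∫_A Y² e^{-‖x‖} / 2 ≤ (∫_A Y e^{-‖x‖})²`.  Convert with `exp_hom0/1/2`. -/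
theorem varY (hn : 1 ≤ finrank ℝ V) {A : Set V} (hA : MeasurableSet A) (hconv : Convex ℝ A)
    (hcone : IsCone A) (y : V) (hy : ∀ x ∈ A, 0 ≤ ⟪x, y⟫) :
    (finrank ℝ V + 1) * aN (finrank ℝ V) ^ 2 *
        ((stdGaussian V).real A * ∫ x in A, ⟪x, y⟫ ^ 2 ∂stdGaussian V) ≤
      2 * (finrank ℝ V : ℝ) ^ 2 * (∫ x in A, ⟪x, y⟫ ∂stdGaussian V) ^ 2 :=
  varY' hn hA hconv hcone y hy

end Crest.Agent.R215
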