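import Crest.Agent.R215.Defs

/-! Row 215: linear algebra of vectors with sum zero and negative inner products. -/

set_option autoImplicit false
set_option linter.unusedSectionVars false

open Module
open scoped RealInnerProductSpace

namespace Crest.Agent.R215

variable {V : Type*} [NormedAddCommGroup V] [InnerProductSpace ℝ V] [FiniteDimensional ℝ V]
  {ι : Type*} [Fintype ι]

namespace LinAux

theorem rel_const {z : ι → V} (h0 : ∑ i, z i = 0) (hneg : ∀ i j, i ≠ j → ⟪z i, z j⟫ < 0)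
    {a : ι → ℝ} (ha : ∑ j, a j • z j = 0) (i j : ι) : a i = a j := by
  have : Nonempty ι := ⟨i⟩
  obtain ⟨k, hk⟩ := Finite.exists_max a
  have h1 : ∑ l, (a l - a k) * ⟪z k, z l⟫ = 0 := by
    have h2 := congrArg (fun x => ⟪z k, x⟫) ha
    have h3 := congrArg (fun x => ⟪z k, x⟫) h0
    simp only [inner_sum, inner_smul_right, inner_zero_right] at h2 h3
    simp only [sub_mul, Finset.sum_sub_distrib, ← Finset.mul_sum, h2, h3, mul_zero, sub_zero]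
  have h4 : ∀ l, a l = a k := by
    intro l
    by_cases hl : k = l
    · rw [hl]
    · have h5 := (Finset.sum_eq_zero_iff_of_nonneg fun r _ => ?_).1 h1 l (Finset.mem_univ l)
      · exact sub_eq_zero.1 ((mul_eq_zero.1 h5).resolve_right (hneg k l hl).ne)
      · by_cases hr : k = r
        · rw [hr, sub_self, zero_mul]
        · exact mul_nonneg_of_nonpos_of_nonpos (sub_nonpos.2 (hk r)) (hneg k r hr).le
  rw [h4 i, h4 j]

theorem sum_le_two (f : ι → ℝ) {i l : ι} (hil : i ≠ l) (hf : ∀ r, r ≠ i → r ≠ l → f r ≤ 0) :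
    ∑ r, f r ≤ f i + f l := by
  classical
  rw [← Finset.sum_add_sum_compl {i, l}, Finset.sum_pair hil]
  refine add_le_of_nonpos_right (Finset.sum_nonpos fun r hr => ?_)
  simp only [Finset.mem_compl, Finset.mem_insert, Finset.mem_singleton, not_or] at hr
  exact hf r hr.1 hr.2

theorem norm_sum_sq_le {ω : ι → V} (hneg : ∀ j l, j ≠ l → ⟪ω j, ω l⟫ ≤ 0) (s : Finset ι) :
    ‖∑ r ∈ s, ω r‖ ^ 2 ≤ ∑ r ∈ s, ‖ω r‖ ^ 2 := by
  classical
  rw [← real_inner_self_eq_norm_sq, sum_inner]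
  refine Finset.sum_le_sum fun r hr => ?_
  rw [inner_sum, ← Finset.add_sum_erase _ _ hr, real_inner_self_eq_norm_sq]
  exact add_le_of_nonpos_right (Finset.sum_nonpos fun t ht =>
    hneg r t (Finset.ne_of_mem_erase ht).symm)

theorem inner_le {ω : ι → V} (h0 : ∑ j, ω j = 0) (hneg : ∀ j l, j ≠ l → ⟪ω j, ω l⟫ ≤ 0)
    {i l : ι} (hil : i ≠ l) :
    ⟪ω i, ω l⟫ ≤ (∑ j, ‖ω j‖ ^ 2) / 2 - ‖ω i‖ ^ 2 - ‖ω l‖ ^ 2 := by
  classical
  have h1 := norm_sum_sq_le hneg ({i, l}ᶜ)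
  rw [← Finset.sum_add_sum_compl {i, l}, Finset.sum_pair hil] at h0
  rw [← Finset.sum_add_sum_compl {i, l}, Finset.sum_pair hil]
  rw [← neg_eq_of_add_eq_zero_right h0, norm_neg, norm_add_sq_real] at h1
  linarith

theorem one_le_sum_min (s : Finset ι) (x : ι → ℝ) (hx : ∀ k, 0 ≤ x k) (h : 1 ≤ ∑ k ∈ s, x k) :
    1 ≤ ∑ k ∈ s, min 1 (x k) := by
  by_cases h1 : ∃ k ∈ s, 1 ≤ x k
  · obtain ⟨k, hk, hk1⟩ := h1
    refine le_trans (min_eq_left hk1).ge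
      (Finset.single_le_sum (f := fun k => min 1 (x k)) (fun k _ => le_min zero_le_one (hx k)) hk)
  · push Not at h1
    rwa [Finset.sum_congr rfl fun k hk => min_eq_right (h1 k hk).le]

theorem two_le_sum_min (e : ι → ℝ) {es : ℝ} (hes : 0 < es) (he : ∀ k, 0 ≤ e k)
    (h1 : ∀ k, e k ≤ ∑ l, e l - es) (h2 : 2 * es ≤ ∑ l, e l) : 2 ≤ ∑ k, min 1 (e k / es) := by
  classical
  by_cases h : ∃ k, 1 ≤ e k / es
  · obtain ⟨k, hk⟩ := h
    rw [← Finset.add_sum_erase _ _ (Finset.mem_univ k), min_eq_left hk]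
    have := one_le_sum_min (Finset.univ.erase k) (fun l => e l / es)
      (fun l => div_nonneg (he l) hes.le) (by
        rw [← Finset.sum_div, le_div_iff₀ hes]
        have h3 := h1 k
        rw [← Finset.add_sum_erase _ _ (Finset.mem_univ k)] at h3
        linarith)
    linarith
  · push Not at h
    rw [Finset.sum_congr rfl fun k _ => min_eq_right (h k).le, ← Finset.sum_div, le_div_iff₀ hes]
    exact h2

end LinAux

open LinAux

/-- `‖Σ a_i z_i‖² = ½ Σ_{i,j} (-⟪z i, z j⟫)(a_i - a_j)²` when `Σ z = 0`, so the only relations are the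
constant ones and rank–nullity applies. -/
theorem finrank_span_eq {z : ι → V} (h0 : ∑ i, z i = 0) (hneg : ∀ i j, i ≠ j → ⟪z i, z j⟫ < 0)
    {n : ℕ} (hc : Fintype.card ι = n + 1) :
    finrank ℝ (Submodule.span ℝ (Set.range z)) = n := by
  have hne : Nonempty ι := Fintype.card_pos_iff.1 (by omega)
  obtain ⟨i⟩ := hne
  have h1 := LinearMap.finrank_range_add_finrank_ker (Fintype.linearCombination ℝ z)
  have h2 : LinearMap.ker (Fintype.linearCombination ℝ z) = ℝ ∙ (fun _ => (1 : ℝ)) := by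
    ext a
    rw [LinearMap.mem_ker, Fintype.linearCombination_apply, Submodule.mem_span_singleton]
    constructor
    · intro ha
      exact ⟨a i, funext fun j => by simpa using rel_const h0 hneg ha i j⟩
    · rintro ⟨c, rfl⟩
      simp [← Finset.smul_sum, h0]
  rw [Fintype.range_linearCombination, h2,
    finrank_span_singleton fun h => one_ne_zero (congrFun h i), finrank_fintype_fun_eq_card] at h1
  omega

/-- The vectors `z i - z j`, `j ≠ i`, are linearly independent (same argument), so a dual vector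
exists. -/
theorem exists_dual {z : ι → V} (h0 : ∑ i, z i = 0) (hneg : ∀ i j, i ≠ j → ⟪z i, z j⟫ < 0)
    (i : ι) : ∃ u : V, ∀ j, j ≠ i → ⟪u, z i - z j⟫ = 1 := by
  classical
  have := FiniteDimensional.complete ℝ V
  let L := Fintype.linearCombination ℝ fun j : {j // j ≠ i} => z i - z j
  have hL : LinearMap.ker L = ⊥ := by
    rw [LinearMap.ker_eq_bot']
    intro c hc
    rw [Fintype.linearCombination_apply] at hc
    have h1 : ∑ j, (if h : j = i then ∑ l, c l else -c ⟨j, h⟩) • z j = 0 := by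
      rw [Fintype.sum_eq_add_sum_subtype_ne _ i, dif_pos rfl, ← hc, Finset.sum_smul,
        ← Finset.sum_add_distrib]
      refine Finset.sum_congr rfl fun j _ => ?_
      rw [dif_neg j.2, smul_sub, neg_smul, sub_eq_add_neg]
    have h2 : ∀ j : {j // j ≠ i}, c j = -∑ l, c l := fun j => by
      have := rel_const h0 hneg h1 i j
      simp only [dif_pos, dif_neg j.2] at this
      rw [this, neg_neg]
    have h3 : ∑ l, c l = 0 := by
      have h4 := Finset.sum_congr (rfl : (Finset.univ : Finset {j // j ≠ i}) = _) fun j _ => h2 j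
      rw [Finset.sum_const, nsmul_eq_mul] at h4
      have h5 : (1 + ((Finset.univ : Finset {j // j ≠ i}).card : ℝ)) * ∑ l, c l = 0 := by
        linarith
      exact (mul_eq_zero.1 h5).resolve_left (add_pos_of_pos_of_nonneg one_pos (Nat.cast_nonneg _)).ne'
    funext j
    rw [h2, h3, neg_zero, Pi.zero_apply]
  obtain ⟨g, hg⟩ := L.exists_leftInverse_of_injective hL
  let f : V →ₗ[ℝ] ℝ := (Fintype.linearCombination ℝ fun _ => (1 : ℝ)) ∘ₗ g
  refine ⟨(InnerProductSpace.toDual ℝ V).symm (LinearMap.toContinuousLinearMap f), fun j hj => ?_⟩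
  rw [InnerProductSpace.toDual_symm_apply]
  have h1 : z i - z j = L (Pi.single ⟨j, hj⟩ 1) := by
    rw [Fintype.linearCombination_apply_single, one_smul]
  have h2 := LinearMap.congr_fun hg (Pi.single ⟨j, hj⟩ 1)
  rw [LinearMap.comp_apply, LinearMap.id_apply] at h2
  simp [f, h1, h2]

/-- The norm of the oblique projection `v ↦ v - π Σ v`.  Write `v = a 1 + v'`, `π = 1/N + π'` with
`Σ v' = Σ π' = 0`; the left side is `|v' - N a π'|² ≤ (|v'|² + N a²)(1 + N |π'|²)`. -/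
theorem oblique_le (v q : ι → ℝ) (hq : ∑ j, q j = 1) :
    ∑ j, (v j - q j * ∑ l, v l) ^ 2 ≤ Fintype.card ι * (∑ j, q j ^ 2) * ∑ j, v j ^ 2 := by
  have hne : Nonempty ι := by
    by_contra h
    rw [not_nonempty_iff] at h
    simp at hq
  have hN : (0 : ℝ) < Fintype.card ι := by exact_mod_cast Fintype.card_pos
  set N : ℝ := (Fintype.card ι : ℝ) with hNdef
  set s := ∑ l, v l with hs
  have h1 := Finset.sum_mul_sq_le_sq_mul_sq Finset.univ (fun j => v j - s / N)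
    (fun j => q j - 1 / N)
  have e1 : ∑ j, (v j - s / N) ^ 2 = ∑ j, v j ^ 2 - s ^ 2 / N := by
    simp only [sub_sq, Finset.sum_add_distrib, Finset.sum_sub_distrib, ← Finset.sum_mul,
      ← Finset.mul_sum, Finset.sum_const, Finset.card_univ, nsmul_eq_mul, ← hs, ← hNdef]
    field_simp
    ring
  have e2 : ∑ j, (q j - 1 / N) ^ 2 = ∑ j, q j ^ 2 - 1 / N := by
    simp only [sub_sq, Finset.sum_add_distrib, Finset.sum_sub_distrib, ← Finset.sum_mul,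
      ← Finset.mul_sum, Finset.sum_const, Finset.card_univ, nsmul_eq_mul, hq, ← hNdef]
    field_simp
    ring
  have e3 : ∑ j, (v j - s / N) * (q j - 1 / N) = ∑ j, v j * q j - s / N := by
    simp only [sub_mul, mul_sub, Finset.sum_sub_distrib, ← Finset.sum_mul,
      ← Finset.mul_sum, Finset.sum_const, Finset.card_univ, nsmul_eq_mul, hq, ← hs, ← hNdef]
    field_simp
    ring
  have e4 : ∑ j, (v j - q j * s) ^ 2 =
      ∑ j, v j ^ 2 - 2 * s * ∑ j, v j * q j + s ^ 2 * ∑ j, q j ^ 2 := by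
    simp only [Finset.mul_sum, ← Finset.sum_add_distrib, ← Finset.sum_sub_distrib]
    exact Finset.sum_congr rfl fun j _ => by ring
  rw [e1, e2, e3] at h1
  rw [e4]
  generalize ∑ j, v j ^ 2 = A at h1 ⊢
  generalize ∑ j, q j ^ 2 = B at h1 ⊢
  generalize ∑ j, v j * q j = C at h1 ⊢
  have h2 := mul_le_mul_of_nonneg_left h1 hN.le
  have e5 : N * (C - s / N) ^ 2 = N * C ^ 2 - 2 * s * C + s ^ 2 / N := by field_simp; ring
  have e6 : N * ((A - s ^ 2 / N) * (B - 1 / N)) = N * B * A - A - s ^ 2 * B + s ^ 2 / N := by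
    field_simp; ring
  rw [e5, e6] at h2
  nlinarith [mul_nonneg hN.le (sq_nonneg C)]

/-- Rayleigh-type bound for an eigenvector.  `a j = ⟪v, ω j⟫` satisfies `Σ_l ⟪ω j, ω l⟫ a l = e a j`,
`Σ a = 0`.  If `e > 0`, `a ≠ 0`; take `i`, `j` with `a i` maximal and `a j` minimal, `g = -⟪ω ·, ω ·⟫`,
`δ l = ‖ω l‖² = Σ_{r ≠ l} g l r`.  Then
`e (a i - a j) = Σ_l g i l (a i - a l) + Σ_l g j l (a l - a j)`, so
`e ≤ δ i + δ j - Σ_{l ≠ i,j} min (g i l) (g j l)`.  Pick `l ∈ {j₁,j₂,j₃} \ {i,j}`; from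
`‖ω i + ω l‖² = ‖Σ_{r ≠ i,l} ω r‖² ≤ Σ_{r ≠ i,l} δ r` one gets `g i l ≥ δ i + δ l - τ/2`, and the same
for `j`; so `e ≤ max (δ i) (δ j) - δ l + τ/2`.  (If `e ≤ 0` note `0 ≤ τ/2 + M - m`.) -/
theorem eigen_le {ω : ι → V} (h0 : ∑ j, ω j = 0) (hneg : ∀ j l, j ≠ l → ⟪ω j, ω l⟫ ≤ 0)
    {j₁ j₂ j₃ : ι} (h12 : j₁ ≠ j₂) (h13 : j₁ ≠ j₃) (h23 : j₂ ≠ j₃) {M m : ℝ}
    (hM : ∀ j, ‖ω j‖ ^ 2 ≤ M) (hm₁ : m ≤ ‖ω j₁‖ ^ 2) (hm₂ : m ≤ ‖ω j₂‖ ^ 2) (hm₃ : m ≤ ‖ω j₃‖ ^ 2)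
    {v : V} (hv : ‖v‖ = 1) {e : ℝ} (he : ∑ j, ⟪v, ω j⟫ • ω j = e • v) :
    e ≤ (∑ j, ‖ω j‖ ^ 2) / 2 + M - m := by
  have hτ : 0 ≤ ∑ j, ‖ω j‖ ^ 2 := Finset.sum_nonneg fun _ _ => by positivity
  rcases le_or_gt e 0 with he0 | he0
  · linarith [hM j₁]
  have : Nonempty ι := ⟨j₁⟩
  obtain ⟨i, hi⟩ := Finite.exists_max fun l => ⟪v, ω l⟫
  obtain ⟨j, hj⟩ := Finite.exists_min fun l => ⟪v, ω l⟫
  have hD : ⟪v, ω j⟫ < ⟪v, ω i⟫ := by
    by_contra h
    have h1 : ∀ l, ⟪v, ω l⟫ = ⟪v, ω i⟫ := fun l => le_antisymm (hi l) ((not_lt.1 h).trans (hj l))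
    simp only [h1, ← Finset.smul_sum, h0, smul_zero] at he
    have h2 := congrArg norm he
    rw [norm_zero, norm_smul, hv, Real.norm_eq_abs, abs_of_pos he0] at h2
    linarith
  have hij : i ≠ j := fun h => by rw [h] at hD; exact lt_irrefl _ hD
  obtain ⟨l, hli, hlj, hl⟩ : ∃ l, i ≠ l ∧ j ≠ l ∧ m ≤ ‖ω l‖ ^ 2 := by
    by_cases a1 : i ≠ j₁ ∧ j ≠ j₁
    · exact ⟨j₁, a1.1, a1.2, hm₁⟩
    by_cases a2 : i ≠ j₂ ∧ j ≠ j₂
    · exact ⟨j₂, a2.1, a2.2, hm₂⟩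
    refine ⟨j₃, ?_, ?_, hm₃⟩ <;> grind
  have hev : ∀ k (c : ℝ), ∑ r, (⟪v, ω r⟫ - c) * ⟪ω k, ω r⟫ = e * ⟪v, ω k⟫ := by
    intro k c
    have h2 := congrArg (fun x => ⟪ω k, x⟫) he
    have h3 := congrArg (fun x => ⟪ω k, x⟫) h0
    simp only [inner_sum, inner_smul_right, inner_zero_right] at h2 h3
    simp only [sub_mul, Finset.sum_sub_distrib, ← Finset.mul_sum, h2, h3, mul_zero, sub_zero,
      real_inner_comm]
  have s1 := sum_le_two (fun r => (⟪v, ω r⟫ - ⟪v, ω j⟫) * ⟪ω i, ω r⟫) hli fun r hr _ =>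
    mul_nonpos_of_nonneg_of_nonpos (sub_nonneg.2 (hj r)) (hneg i r hr.symm)
  have s2 := sum_le_two (fun r => -((⟪v, ω r⟫ - ⟪v, ω i⟫) * ⟪ω j, ω r⟫)) hlj fun r hr _ =>
    neg_nonpos.2 (mul_nonneg_of_nonpos_of_nonpos (sub_nonpos.2 (hi r)) (hneg j r hr.symm))
  rw [Finset.sum_neg_distrib] at s2
  rw [hev, real_inner_self_eq_norm_sq] at s1 s2
  have t1 := mul_le_mul_of_nonneg_left (inner_le h0 hneg hli) (sub_nonneg.2 (hj l))
  have t2 := mul_le_mul_of_nonneg_left (inner_le h0 hneg hlj) (sub_nonneg.2 (hi l))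
  have t3 := mul_le_mul_of_nonneg_left (hM i) (sub_nonneg.2 (hi l))
  have t4 := mul_le_mul_of_nonneg_left (hM j) (sub_nonneg.2 (hj l))
  have t5 := mul_le_mul_of_nonneg_left hl (sub_nonneg.2 hD.le)
  refine le_of_mul_le_mul_left ?_ (sub_pos.2 hD)
  linarith

/-- Diagonalise `x ↦ Σ ⟪x, ω j⟫ ω j` on `(ℝ ∙ w)ᗮ` (`LinearMap.IsSymmetric.eigenvectorBasis`).
The last clause: `Σ e = τ = Σ ‖ω j‖²`, each `e i ≤ τ - es` by `eigen_le`, and `es ≤ τ/2`; if two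
`e i` are `≥ es` done, if one use `1 + (τ - e i)/es`, if none use `τ/es`. -/
theorem exists_eigen {w : V} (hw : ‖w‖ = 1) {ω : ι → V} (hperp : ∀ j, ⟪ω j, w⟫ = 0)
    (h0 : ∑ j, ω j = 0) (hneg : ∀ j l, j ≠ l → ⟪ω j, ω l⟫ ≤ 0)
    {j₁ j₂ j₃ : ι} (h12 : j₁ ≠ j₂) (h13 : j₁ ≠ j₃) (h23 : j₂ ≠ j₃) {M m es : ℝ}
    (hM : ∀ j, ‖ω j‖ ^ 2 ≤ M) (hm₁ : m ≤ ‖ω j₁‖ ^ 2) (hm₂ : m ≤ ‖ω j₂‖ ^ 2) (hm₃ : m ≤ ‖ω j₃‖ ^ 2)
    (hes : 0 < es) (hes' : es ≤ (∑ j, ‖ω j‖ ^ 2) / 2 - M + m) :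
    ∃ (d : ℕ) (b : Fin d → V) (e : Fin d → ℝ), d + 1 = finrank ℝ V ∧ (∀ i, ‖b i‖ = 1) ∧
      (∀ i, ⟪w, b i⟫ = 0) ∧ (∀ i, 0 ≤ e i) ∧
      (∀ x, ‖x‖ ^ 2 = ⟪x, w⟫ ^ 2 + ∑ i, ⟪x, b i⟫ ^ 2) ∧
      (∀ x, ∑ j, ⟪x, ω j⟫ ^ 2 = ∑ i, e i * ⟪x, b i⟫ ^ 2) ∧
      2 ≤ ∑ i, min 1 (e i / es) := by
  have hw0 : w ≠ 0 := fun h => by simp [h] at hw
  have hmem : ∀ x, x ∈ (ℝ ∙ w)ᗮ ↔ ⟪w, x⟫ = 0 := fun x =>
    Submodule.mem_orthogonal_singleton_iff_inner_right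
  let ω' : ι → (ℝ ∙ w)ᗮ := fun j => ⟨ω j, (hmem _).2 (by rw [real_inner_comm, hperp])⟩
  let T : (ℝ ∙ w)ᗮ →ₗ[ℝ] (ℝ ∙ w)ᗮ := ∑ j, (innerₗ _ (ω' j)).smulRight (ω' j)
  have hTa : ∀ x, T x = ∑ j, ⟪ω' j, x⟫ • ω' j := fun x => by simp [T]
  have hT : T.IsSymmetric := fun x y => by
    simp only [hTa, sum_inner, inner_sum, inner_smul_left, inner_smul_right, conj_trivial]
    exact Finset.sum_congr rfl fun j _ => by rw [mul_comm, real_inner_comm x]
  let b := hT.eigenvectorBasis rfl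
  let e := hT.eigenvalues rfl
  have hb : ∀ i, T (b i) = e i • b i := fun i => hT.apply_eigenvectorBasis rfl i
  have hb1 : ∀ i, ‖(b i : V)‖ = 1 := fun i => b.orthonormal.1 i
  have hbw : ∀ i, ⟪w, (b i : V)⟫ = 0 := fun i => (hmem _).1 (b i).2
  have hww : ⟪w, w⟫ = (1 : ℝ) := by rw [real_inner_self_eq_norm_sq, hw, one_pow]
  have hdec : ∀ x : V, ∃ y : (ℝ ∙ w)ᗮ, x = ⟪x, w⟫ • w + y := fun x =>
    ⟨⟨x - ⟪x, w⟫ • w, (hmem _).2 (by
      rw [inner_sub_right, inner_smul_right, hww, real_inner_comm]; ring)⟩, by simp⟩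
  have hin : ∀ (x : V) (y u : (ℝ ∙ w)ᗮ), x = ⟪x, w⟫ • w + y → ⟪x, (u : V)⟫ = ⟪y, u⟫ := by
    intro x y u h
    rw [h, inner_add_left, inner_smul_left, (hmem _).1 u.2, mul_zero, zero_add]
    rfl
  have hquad : ∀ y : (ℝ ∙ w)ᗮ, ∑ j, ⟪y, ω' j⟫ ^ 2 = ∑ i, e i * ⟪y, b i⟫ ^ 2 := by
    intro y
    have h1 : ⟪y, T y⟫ = ∑ j, ⟪y, ω' j⟫ ^ 2 := by
      simp only [hTa, inner_sum, inner_smul_right]
      exact Finset.sum_congr rfl fun j _ => by rw [real_inner_comm y, sq]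
    rw [← h1, ← b.sum_inner_mul_inner y (T y)]
    refine Finset.sum_congr rfl fun i _ => ?_
    rw [← hT, hb, inner_smul_left, real_inner_comm y, conj_trivial]
    ring
  have hei : ∀ i, e i = ∑ j, ⟪b i, ω' j⟫ ^ 2 := by
    intro i
    have h1 : ⟪b i, T (b i)⟫ = ∑ j, ⟪b i, ω' j⟫ ^ 2 := by
      simp only [hTa, inner_sum, inner_smul_right]
      exact Finset.sum_congr rfl fun j _ => by rw [real_inner_comm (b i), sq]
    rw [← h1, hb, inner_smul_right, real_inner_self_eq_norm_sq, b.orthonormal.1 i]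
    ring
  have he0 : ∀ i, 0 ≤ e i := fun i => by
    rw [hei]; exact Finset.sum_nonneg fun _ _ => sq_nonneg _
  have hsum : ∑ i, e i = ∑ j, ‖ω j‖ ^ 2 := by
    simp only [hei]
    rw [Finset.sum_comm]
    exact Finset.sum_congr rfl fun j _ => b.sum_sq_inner_right (ω' j)
  have hle : ∀ i, e i ≤ (∑ j, ‖ω j‖ ^ 2) / 2 + M - m := by
    intro i
    refine eigen_le h0 hneg h12 h13 h23 hM hm₁ hm₂ hm₃ (hb1 i) ?_
    have h1 := congrArg Subtype.val ((hTa (b i)).symm.trans (hb i))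
    rw [Submodule.coe_sum, Submodule.coe_smul] at h1
    rw [← h1]
    exact Finset.sum_congr rfl fun j _ => by rw [real_inner_comm]; rfl
  refine ⟨finrank ℝ (ℝ ∙ w)ᗮ, fun i => b i, e, ?_, hb1, hbw, he0, fun x => ?_, fun x => ?_, ?_⟩
  · have h1 := (ℝ ∙ w).finrank_add_finrank_orthogonal
    rw [finrank_span_singleton hw0] at h1
    omega
  · obtain ⟨y, hy⟩ := hdec x
    simp only [hin x y _ hy]
    rw [b.sum_sq_inner_left y]
    conv_lhs => rw [hy, norm_add_sq_real, inner_smul_left, (hmem _).1 y.2, norm_smul, hw]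
    simp
  · obtain ⟨y, hy⟩ := hdec x
    simp only [hin x y _ hy]
    rw [← hquad]
    exact Finset.sum_congr rfl fun j _ => by rw [← hin x y _ hy]
  · refine two_le_sum_min e hes he0 (fun k => ?_) ?_
    · rw [hsum]; linarith [hle k]
    · rw [hsum]; linarith [hM j₁]

end Crest.Agent.R215
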