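import Crest.Agent.R215.GW
import Crest.Agent.R215.Lin
import Crest.Agent.R215.Exp
import Crest.Agent.R215.Cap

/-! Row 215: critical configurations, the inequalities `T1` and `T2`. -/

set_option autoImplicit false

open MeasureTheory ProbabilityTheory Set Module
open scoped RealInnerProductSpace

namespace Crest.Agent.R215

universe u

private lemma le_of_le_sqrt_mul {a S : ℝ} (ha : 0 ≤ a) (h : S ≤ √a * √S) : S ≤ a := by
  by_contra hlt
  rw [not_le] at hlt
  have hS : 0 < S := ha.trans_lt hlt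
  have h₁ : √a < √S := Real.sqrt_lt_sqrt ha hlt
  have h₂ : 0 < √S := Real.sqrt_pos.2 hS
  have h₃ : √S * √S = S := Real.mul_self_sqrt hS.le
  nlinarith

section

variable {V : Type*} [NormedAddCommGroup V] [InnerProductSpace ℝ V] [FiniteDimensional ℝ V]
  [MeasurableSpace V] [BorelSpace V] {ι : Type*} [Fintype ι] {z : ι → V}

theorem Crit.nonempty (h : Crit z) : Nonempty ι := by
  by_contra hne
  rw [not_nonempty_iff] at hne
  have := h.big
  simp only [Finset.univ_eq_empty, Finset.sum_empty] at this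
  have : 0 < 9 / (8 * Real.pi) := by positivity
  linarith

theorem Crit.sum_zero (h : Crit z) : ∑ i, z i = 0 := by
  have := h.nonempty
  simpa [h.mom] using sum_mom_cell h.inj

theorem Crit.gw_eq (h : Crit z) : gw z = ∑ i, ‖z i‖ ^ 2 := by
  have := h.nonempty
  rw [gw_eq_sum_cell h.inj]
  simp [h.mom]

theorem Crit.sum_p (h : Crit z) : ∑ i, (stdGaussian V).real (cell z i) = 1 := by
  have := h.nonempty
  exact sum_real_cell h.inj

/-- On its cell `⟪x, z i⟫` is at least the average of the `⟪x, z j⟫`, which is `0`. -/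
theorem Crit.inner_nonneg (h : Crit z) (i : ι) {x : V} (hx : x ∈ cell z i) : 0 ≤ ⟪x, z i⟫ := by
  by_contra hneg
  rw [not_le] at hneg
  have h0 : ∑ j, ⟪x, z j⟫ = 0 := by rw [← inner_sum, h.sum_zero, inner_zero_right]
  have : ∑ j, ⟪x, z j⟫ < ∑ _j : ι, (0 : ℝ) :=
    Finset.sum_lt_sum (fun j _ => (hx j).trans hneg.le) ⟨i, Finset.mem_univ i, hneg⟩
  simp only [Finset.sum_const_zero] at this
  linarith

end

variable {V : Type u} [NormedAddCommGroup V] [InnerProductSpace ℝ V] [FiniteDimensional ℝ V]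
  [MeasurableSpace V] [BorelSpace V] {ι : Type} [Fintype ι] {z : ι → V} {n : ℕ}

/-- Merge `j` into `i`: `ι' = {l // l ≠ j}`, `φ : ι → ι'` sends `j` to `i`, `z' l = z l + [l = i] z j`.
`sum_le_gw` for the cells and `y = z' ∘ φ` gives `S' = Σ‖z'‖² = Σ_l ⟪z l, z' (φ l)⟫ ≤ gw z'`, so
`S' ≤ 9/(8π)` by `Bound n`, while `S' = Σ‖z‖² + 2⟪z i, z j⟫`. -/
theorem Crit.inner_neg (hB : Bound.{u} n) (hc : Fintype.card ι = n + 1) (h : Crit z) {i j : ι}
    (hij : i ≠ j) : ⟪z i, z j⟫ < 0 := by
  classical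
  have := h.nonempty
  by_contra hpos
  rw [not_lt] at hpos
  set y : ι → V := fun l => if l = i ∨ l = j then z i + z j else z l with hy
  set φ : ι → {l // l ≠ j} := fun l => if hl : l = j then ⟨i, hij⟩ else ⟨l, hl⟩ with hφ
  have hyφ : y = (fun l : {l // l ≠ j} => y l) ∘ φ := by
    ext l
    by_cases hl : l = j
    · simp [hy, hφ, hl]
    · simp [hφ, hl]
  have h₁ := sum_le_gw (measurableSet_cell z) (aedisjoint_cell h.inj) (iUnion_cell z) y
  have h₂ : gw y ≤ gw fun l : {l // l ≠ j} => y l := by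
    conv_lhs => rw [hyφ]
    exact gw_comp_le _ φ
  have h₃ := hB V {l // l ≠ j} (by simp [hc]) fun l => y l
  have h₄ : ∑ l, ⟪∫ x in cell z l, x ∂stdGaussian V, y l⟫ = ∑ l, ‖z l‖ ^ 2 + 2 * ⟪z i, z j⟫ := by
    have : ∀ l, ⟪∫ x in cell z l, x ∂stdGaussian V, y l⟫ = ‖z l‖ ^ 2 +
        ((if l = i then ⟪z i, z j⟫ else 0) + if l = j then ⟪z i, z j⟫ else 0) := by
      intro l
      rw [h.mom]
      by_cases hl : l = i
      · subst hl
        simp [hy, hij, inner_add_right]
      · by_cases hl' : l = j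
        · subst hl'
          simp [hy, hl, inner_add_right, real_inner_comm, add_comm]
        · simp [hy, hl, hl']
    simp only [this, Finset.sum_add_distrib, Finset.sum_ite_eq', Finset.mem_univ, if_true]
    ring
  have h₅ : ∑ l : {l // l ≠ j}, ‖y l‖ ^ 2 = ∑ l, ‖z l‖ ^ 2 + 2 * ⟪z i, z j⟫ := by
    have e₁ := Fintype.sum_eq_add_sum_subtype_ne (fun l => ‖z l‖ ^ 2 +
      (if l = i then 2 * ⟪z i, z j⟫ + ‖z j‖ ^ 2 else 0)) j
    simp only [Finset.sum_add_distrib, Finset.sum_ite_eq', Finset.mem_univ, if_true,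
      hij.symm, if_false] at e₁
    have e₂ : ∑ l : {l // l ≠ j}, ‖y l‖ ^ 2 = ∑ l : {l // l ≠ j}, (‖z l‖ ^ 2 +
        (if l.1 = i then 2 * ⟪z i, z j⟫ + ‖z j‖ ^ 2 else 0)) := by
      refine Finset.sum_congr rfl fun l _ => ?_
      by_cases hl : l.1 = i
      · simp only [hy, hl, true_or, if_true, norm_add_sq_real]
        ring
      · simp [hy, hl, l.2]
    rw [e₂, Finset.sum_add_distrib]
    linarith
  rw [h₅] at h₃
  rw [h₄] at h₁
  have h₆ := le_of_le_sqrt_mul (by positivity) ((h₁.trans h₂).trans h₃)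
  linarith [h.big]

theorem Crit.ne_zero (hB : Bound.{u} n) (hc : Fintype.card ι = n + 1) (hn : 1 ≤ n) (h : Crit z)
    (i : ι) : z i ≠ 0 := by
  obtain ⟨j, hj⟩ := Fintype.exists_ne_of_one_lt_card (by omega) i
  intro h0
  have := h.inner_neg hB hc hj
  simp [h0] at this

theorem Crit.p_pos (hB : Bound.{u} n) (hc : Fintype.card ι = n + 1) (hn : 1 ≤ n) (h : Crit z)
    (i : ι) : 0 < (stdGaussian V).real (cell z i) := by
  refine lt_of_le_of_ne measureReal_nonneg fun h0 => h.ne_zero hB hc hn i ?_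
  rw [← h.mom i]
  exact setIntegral_measure_zero _ ((measureReal_eq_zero_iff (measure_ne_top _ _)).1 h0.symm)

theorem Crit.p_le_half (hB : Bound.{u} n) (hc : Fintype.card ι = n + 1) (hn : 1 ≤ n) (h : Crit z)
    (i : ι) : (stdGaussian V).real (cell z i) ≤ 1 / 2 := by
  rw [← half_space (h.ne_zero hB hc hn i)]
  exact measureReal_mono (fun x hx => h.inner_nonneg i hx) (measure_ne_top _ _)

/-- Remove the point `i`.  `Φ x = ⟪x, z i⟫ - ⨆_{j ≠ i} ⟪x, z j⟫`, `D = ∫ Φ₊`, `λ = Σ‖z‖²`,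
`ρ = ‖z i‖²`, `κ = (n+1)/n`.  Then `λ = gw z = gw (z|_{j≠i}) + D`, and translating the remaining
points by `z i / n` gives `λ - D ≤ c √(λ - κρ)` from `Bound n`.  If `D ≤ λ/2`,
`c²κρ ≤ c²λ - (λ-D)² ≤ 2c²D` because `(λ - c²)(λ - 2D) ≥ 0`; otherwise `κρ ≤ λ < 2D`.  So `κρ ≤ 2D`.
`T1core` with `u` from `exists_dual`, `{Φ ≥ 0} = cell z i`, `s = ⟪z i, u⟫ = n/(n+1)` bounds `D`. -/
theorem Crit.T1 (hB : Bound.{u} n) (hc : Fintype.card ι = n + 1) (hV : finrank ℝ V = n)
    (hn : 1 ≤ n) (h : Crit z) (i : ι) :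
    ‖z i‖ ^ 2 ≤ 2 * (aN n ^ 2 / n) * (stdGaussian V).real (cell z i) ^ 2 := by
  classical
  have hcard : Fintype.card {j // j ≠ i} = n := by simp [hc]
  have hne : Nonempty {j // j ≠ i} := Fintype.card_pos_iff.1 (by omega)
  have hne' := h.nonempty
  have hn' : (0 : ℝ) < n := by exact_mod_cast hn
  set M : V → ℝ := fun x => ⨆ j : {j // j ≠ i}, ⟪x, z j⟫ with hM
  have hMle : ∀ x j, j ≠ i → ⟪x, z j⟫ ≤ M x := fun x j hj =>
    le_ciSup (f := fun j : {j // j ≠ i} => ⟪x, z j⟫) (Finite.bddAbove_range _) ⟨j, hj⟩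
  set Φ : V → ℝ := fun x => ⟪x, z i⟫ - M x with hΦ
  have hsup : ∀ x, max (Φ x) 0 = (⨆ l, ⟪x, z l⟫) - M x := by
    intro x
    have hle : ∀ l, ⟪x, z l⟫ ≤ ⨆ l, ⟪x, z l⟫ := fun l =>
      le_ciSup (f := fun l => ⟪x, z l⟫) (Finite.bddAbove_range _) l
    refine le_antisymm (max_le ?_ ?_) ?_
    · simpa [hΦ] using hle i
    · rw [sub_nonneg]
      exact ciSup_le fun j => hle j
    · rw [sub_le_iff_le_add]
      refine ciSup_le fun l => ?_
      by_cases hl : l = i
      · have := le_max_left (Φ x) 0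
        rw [hl]
        simp only [hΦ] at this ⊢
        linarith
      · linarith [le_max_right (Φ x) 0, hMle x l hl]
  set D : ℝ := ∫ x, max (Φ x) 0 ∂stdGaussian V with hD
  set lam : ℝ := ∑ l, ‖z l‖ ^ 2 with hlam
  have hDeq : D = lam - gw fun j : {j // j ≠ i} => z j := by
    rw [hD, hlam, ← h.gw_eq]
    simp only [hsup]
    exact integral_sub (integrable_iSup_inner z)
      (integrable_iSup_inner fun j : {j // j ≠ i} => z j)
  have hsum : ∑ j : {j // j ≠ i}, z j = -z i := by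
    have := Fintype.sum_eq_add_sum_subtype_ne z i
    rw [h.sum_zero] at this
    exact eq_neg_of_add_eq_zero_right this.symm
  have hsq : ∑ j : {j // j ≠ i}, ‖z j + (n : ℝ)⁻¹ • z i‖ ^ 2 = lam - (n + 1) / n * ‖z i‖ ^ 2 := by
    have e₁ := Fintype.sum_eq_add_sum_subtype_ne (fun l => ‖z l‖ ^ 2) i
    simp only [norm_add_sq_real, Finset.sum_add_distrib, ← Finset.mul_sum, ← sum_inner, hsum,
      Finset.sum_const, Finset.card_univ, hcard, nsmul_eq_mul, inner_neg_left, inner_smul_right,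
      real_inner_self_eq_norm_sq, norm_smul, Real.norm_eq_abs, mul_pow, sq_abs]
    rw [hlam, e₁]
    field_simp
    ring
  have hsq0 : 0 ≤ lam - (n + 1) / n * ‖z i‖ ^ 2 := by
    rw [← hsq]
    positivity
  have hgw := hB V {j // j ≠ i} hcard.le fun j => z j + (n : ℝ)⁻¹ • z i
  rw [gw_add_const (fun j : {j // j ≠ i} => z j), hsq] at hgw
  have hgw0 := gw_nonneg fun j : {j // j ≠ i} => z j
  have hc0 : 0 < 9 / (8 * Real.pi) := by positivity
  have hbig : 9 / (8 * Real.pi) < lam := h.big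
  have hgw2 : (lam - D) ^ 2 ≤ 9 / (8 * Real.pi) * (lam - (n + 1) / n * ‖z i‖ ^ 2) := by
    rw [← Real.sqrt_mul hc0.le] at hgw
    rw [hDeq, sub_sub_cancel]
    exact (Real.le_sqrt hgw0 (by positivity)).1 hgw
  have hκ : (n + 1) / n * ‖z i‖ ^ 2 ≤ 2 * D := by
    by_cases hD2 : D ≤ lam / 2
    · refine le_of_mul_le_mul_left ?_ hc0
      nlinarith [mul_nonneg (sub_nonneg.2 hbig.le) (sub_nonneg.2 hD2), sq_nonneg D]
    · linarith
  obtain ⟨u, hu⟩ := exists_dual h.sum_zero (fun a b hab => h.inner_neg hB hc hab) i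
  have hu' : ∀ j, j ≠ i → ⟪u, z j⟫ = ⟪u, z i⟫ - 1 := by
    intro j hj
    have := hu j hj
    rw [inner_sub_right] at this
    linarith
  have hs : ⟪u, z i⟫ = n / (n + 1) := by
    have e₁ : ∑ j : {j // j ≠ i}, ⟪u, z j⟫ = -⟪u, z i⟫ := by
      rw [← inner_sum, hsum, inner_neg_right]
    rw [Finset.sum_congr rfl fun j _ => hu' j.1 j.2] at e₁
    simp only [Finset.sum_const, Finset.card_univ, hcard, nsmul_eq_mul] at e₁
    field_simp
    linarith
  have hcell : {x | 0 ≤ Φ x} = cell z i := by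
    ext x
    simp only [hΦ, mem_ofPred_eq, sub_nonneg, cell]
    constructor
    · intro hx j
      by_cases hj : j = i
      · rw [hj]
      · exact (hMle x j hj).trans hx
    · intro hx
      exact ciSup_le fun j => hx j
  have hcore := T1core (V := V) (by omega) Φ
    ((continuous_id.inner continuous_const).sub
      (continuous_iSup_inner fun j : {j // j ≠ i} => z j))
    ⟨convex_univ, fun x _ y _ a b ha hb _ => by
      have : M (a • x + b • y) ≤ a * M x + b * M y := by
        refine ciSup_le fun j => ?_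
        rw [inner_add_left, real_inner_smul_left, real_inner_smul_left]
        exact add_le_add (mul_le_mul_of_nonneg_left (hMle x j j.2) ha)
          (mul_le_mul_of_nonneg_left (hMle y j j.2) hb)
      simp only [hΦ, inner_add_left, real_inner_smul_left, smul_eq_mul]
      linarith⟩
    (fun t ht x => by
      have : M (t • x) = t * M x := by
        simp only [hM, real_inner_smul_left]
        exact (Real.mul_iSup_of_nonneg ht.le _).symm
      simp only [hΦ, this, real_inner_smul_left]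
      ring)
    u (fun x t => by
      have : M (x + t • u) = M x + t * (⟪u, z i⟫ - 1) := by
        simp only [hM]
        rw [ciSup_add (Finite.bddAbove_range _)]
        refine iSup_congr fun j => ?_
        rw [inner_add_left, real_inner_smul_left, hu' j.1 j.2]
      simp only [hΦ, this, inner_add_left, real_inner_smul_left]
      ring)
    (n / (n + 1)) (by positivity)
    (by rw [hcell, setIntegral_inner, h.mom, real_inner_comm, hs])
  rw [hcell, hV, ← hD] at hcore
  have e : aN n ^ 2 / n * (stdGaussian V).real (cell z i) ^ 2 / (n / (n + 1)) =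
      (n + 1) / n * (aN n ^ 2 / n * (stdGaussian V).real (cell z i) ^ 2) := by
    field_simp
  rw [e] at hcore
  refine le_of_mul_le_mul_left ?_ (show (0 : ℝ) < (n + 1) / n by positivity)
  linarith

/-- `cap` with `w = z i / ‖z i‖`. -/
theorem Crit.T2 (hB : Bound.{u} n) (hc : Fintype.card ι = n + 1) (hV : finrank ℝ V = n)
    (hn : 3 ≤ n) (h : Crit z) (i : ι) :
    √(2 * Real.pi) * ‖z i‖ ≤
      1 - Real.pi * (aN n ^ 2 / ((n : ℝ) - 1)) * (1 / 2 - (stdGaussian V).real (cell z i)) ^ 2 := by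
  have hz := h.ne_zero hB hc (by omega) i
  have hz' : ‖z i‖ ≠ 0 := norm_ne_zero_iff.2 hz
  have := cap (V := V) (by omega) (measurableSet_cell z i) (isCone_cell z i) (‖z i‖⁻¹ • z i)
    (by rw [norm_smul, norm_inv, norm_norm, inv_mul_cancel₀ hz'])
    (h.p_pos hB hc (by omega) i) (h.p_le_half hB hc (by omega) i)
  rw [setIntegral_inner, h.mom, hV, real_inner_smul_right, real_inner_self_eq_norm_sq] at this
  convert this using 2
  field_simp

end Crest.Agent.R215
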