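import Mathlib
import Crest.Agent.Lib.PrekopaLeindler.Basic

/-! Row 215 (the propeller bound `9/(8π)`): definitions.

Plan of the proof.  `gw z = E max_i ⟪x, z i⟫`.  `Bound k` says `gw z ≤ c √(Σ‖z i‖²)` for at most `k`
points, `c² = 9/(8π)`.  Induction on `k`; a counterexample with `k = n+1 ≥ 4` points gives a
critical configuration `Crit z` in dimension `n`.  Three inequalities (`Crit.T1`, `Crit.T2`,
`Crit.T4`) between the masses `p i` of the cells and `r i = ‖z i‖` are then contradictory
(`num_false`). -/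

set_option autoImplicit false

open MeasureTheory ProbabilityTheory Set
open scoped RealInnerProductSpace

namespace Crest.Agent.R215

universe u

/-- Radial Gaussian moments `∫_0^∞ r^j e^{-r²/2} dr`. -/
noncomputable def Mo (j : ℕ) : ℝ := ∫ r in Ioi (0 : ℝ), r ^ j * Real.exp (-r ^ 2 / 2)

/-- `aN n = E‖x‖` for the standard Gaussian in dimension `n ≥ 1`. -/
noncomputable def aN (n : ℕ) : ℝ := Mo n / Mo (n - 1)

/-- A set stable under positive dilations. -/
def IsCone {V : Type*} [AddCommGroup V] [Module ℝ V] (A : Set V) : Prop :=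
  ∀ t : ℝ, 0 < t → ∀ x ∈ A, t • x ∈ A

/-- Positively homogeneous of degree `j`. -/
def Homog {V : Type*} [AddCommGroup V] [Module ℝ V] (j : ℕ) (f : V → ℝ) : Prop :=
  ∀ t : ℝ, 0 < t → ∀ x, f (t • x) = t ^ j * f x

section

variable {V : Type*} [NormedAddCommGroup V] [InnerProductSpace ℝ V] {ι : Type*}

/-- The closed cell where `⟪x, z i⟫` is the largest. -/
def cell (z : ι → V) (i : ι) : Set V := {x | ∀ j, ⟪x, z j⟫ ≤ ⟪x, z i⟫}

variable [FiniteDimensional ℝ V] [MeasurableSpace V]

/-- Gaussian mean of the maximum. -/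
noncomputable def gw (z : ι → V) : ℝ := ∫ x, ⨆ i, ⟪x, z i⟫ ∂stdGaussian V

/-- A critical configuration whose value exceeds `9/(8π)`. -/
structure Crit [Fintype ι] (z : ι → V) : Prop where
  inj : Function.Injective z
  mom : ∀ i, ∫ x in cell z i, x ∂stdGaussian V = z i
  big : 9 / (8 * Real.pi) < ∑ i, ‖z i‖ ^ 2

end

/-- The propeller bound for at most `k` points. -/
def Bound (k : ℕ) : Prop :=
  ∀ (V : Type u) [NormedAddCommGroup V] [InnerProductSpace ℝ V] [FiniteDimensional ℝ V]
    [MeasurableSpace V] [BorelSpace V] (ι : Type) [Fintype ι], Fintype.card ι ≤ k →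
    ∀ z : ι → V, gw z ≤ √(9 / (8 * Real.pi)) * √(∑ i, ‖z i‖ ^ 2)

/-- No critical configuration of `n+1` points in dimension `n`. -/
def NoCrit (n : ℕ) : Prop :=
  ∀ (V : Type u) [NormedAddCommGroup V] [InnerProductSpace ℝ V] [FiniteDimensional ℝ V]
    [MeasurableSpace V] [BorelSpace V] (ι : Type) [Fintype ι], Fintype.card ι = n + 1 →
    Module.finrank ℝ V = n → ∀ z : ι → V, ¬ Crit z

end Crest.Agent.R215
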