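import Crest.Agent.R215.NumData

/-! Row 215: the three inequalities are contradictory. -/

set_option autoImplicit false

namespace Crest.Agent.R215

open Finset

lemma exists_red {ι : Type} [Fintype ι] (n : ℕ) (hn : 3 ≤ n) (hc : Fintype.card ι = n + 1)
    (b e C : ℝ) (p R : ι → ℝ) (hp0 : ∀ i, 0 < p i) (hp1 : ∀ i, p i ≤ 1 / 2)
    (hsum : ∑ i, p i = 1) (hR0 : ∀ i, 0 ≤ R i) (hbig : 9 / 4 < ∑ i, R i)
    (T1 : ∀ i, R i ≤ b * p i ^ 2) (T2 : ∀ i, R i ≤ (1 - e * (1 / 2 - p i) ^ 2) ^ 2)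
    (T4 : ∀ i₀ j₁ j₂ j₃ : ι, j₁ ≠ i₀ → j₂ ≠ i₀ → j₃ ≠ i₀ → j₁ ≠ j₂ → j₁ ≠ j₃ → j₂ ≠ j₃ →
      (∀ j, j ≠ i₀ → R j ≤ R j₁) → R j₃ ≤ R j₂ →
      R j₃ ≤ R j₁ - 9 / 8 + C * (((n : ℝ) - 1) * p i₀) ^ 2) :
    ∃ a t p₁ ρ₁ : ℝ, 0 ≤ t ∧ t ≤ 1 ∧ Red n b e C a t p₁ ρ₁ := by
  classical
  have hu : (univ : Finset ι).card = n + 1 := by rw [card_univ, hc]
  obtain ⟨i₀, -, hi₀⟩ := exists_min_image univ p (card_pos.1 (by omega))
  have c1 : (univ.erase i₀).card = n := by rw [card_erase_of_mem (mem_univ _), hu]; rfl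
  obtain ⟨j₁, hj₁, hm₁⟩ := exists_max_image (univ.erase i₀) R (card_pos.1 (by omega))
  have c2 : ((univ.erase i₀).erase j₁).card = n - 1 := by rw [card_erase_of_mem hj₁, c1]
  obtain ⟨j₂, hj₂, hm₂⟩ := exists_max_image ((univ.erase i₀).erase j₁) R (card_pos.1 (by omega))
  have c3 : (((univ.erase i₀).erase j₁).erase j₂).card = n - 2 := by
    rw [card_erase_of_mem hj₂, c2]; omega
  have hadm : ∀ i, Adm b e (p i₀) (p i) (R i) := fun i =>
    ⟨hi₀ i (mem_univ _), hp1 i, T1 i, T2 i⟩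
  have hsplit : ∀ θ : ℝ, ∑ i, R i = θ + ∑ i, (R i - θ * p i) := fun θ => by
    rw [sum_sub_distrib, ← mul_sum, hsum]; ring
  have hrest : ∀ j ∈ ((univ.erase i₀).erase j₁).erase j₂,
      R j ≤ R j₁ ∧ R j ≤ R j₁ - 9 / 8 + C * (((n : ℝ) - 1) * p i₀) ^ 2 := fun j hj => by
    have h1 := mem_erase.1 hj
    have h2 := mem_erase.1 h1.2
    have h3 := mem_erase.1 h2.2
    have h4 := mem_erase.1 hj₂
    refine ⟨hm₁ j h2.2, T4 i₀ j₁ j₂ j (mem_erase.1 hj₁).1 (mem_erase.1 h4.2).1 h3.1 h4.1.symm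
      h2.1.symm h1.1.symm (fun l hl => hm₁ l (mem_erase.2 ⟨hl, mem_univ _⟩)) (hm₂ j h1.2)⟩
  have hn' : (3 : ℝ) ≤ n := by exact_mod_cast hn
  refine ⟨p i₀, ((n : ℝ) - 1) * p i₀, p j₁, R j₁, mul_nonneg (by linarith) (hp0 _).le, ?_,
    hp0 _, rfl, hadm j₁, fun θ s hs => ?_, fun θ s hs => ?_, ?_, fun θ s₂ s₃ h₂ h₃ => ?_⟩
  · have := card_nsmul_le_sum univ p (p i₀) hi₀
    rw [hu, hsum, nsmul_eq_mul] at this
    push_cast at this
    linarith [hp0 i₀]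
  · have := sum_le_card_nsmul univ (fun i => R i - θ * p i) s fun i _ => hs _ _ (hadm i)
    rw [hu, nsmul_eq_mul] at this
    push_cast at this
    linarith [hsplit θ]
  · have := sum_le_card_nsmul (univ.erase i₀) (fun i => R i - θ * p i) s
      fun i _ => hs _ _ (hadm i)
    rw [c1, nsmul_eq_mul] at this
    have h1 := add_sum_erase univ (fun i => R i - θ * p i) (mem_univ i₀)
    linarith [hsplit θ, T1 i₀]
  · obtain ⟨j, hj⟩ := card_pos.1 (show 0 < (((univ.erase i₀).erase j₁).erase j₂).card by omega)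
    exact (hR0 j).trans (hrest j hj).2
  · have := sum_le_card_nsmul (((univ.erase i₀).erase j₁).erase j₂) (fun i => R i - θ * p i) s₃
      fun i hi => h₃ _ _ (hadm i) (hrest i hi).1 (hrest i hi).2
    rw [c3, nsmul_eq_mul, Nat.cast_sub (by omega)] at this
    push_cast at this
    have h1 := add_sum_erase univ (fun i => R i - θ * p i) (mem_univ i₀)
    have h2 := add_sum_erase _ (fun i => R i - θ * p i) hj₁
    have h3 := add_sum_erase _ (fun i => R i - θ * p i) hj₂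
    have h4 := h₂ _ _ (hadm j₂) (hm₁ j₂ (mem_erase.1 hj₂).2)
    linarith [hsplit θ, T1 i₀]

lemma scaled_red (n : ℕ) (hn : 3 ≤ n) {ι : Type} [Fintype ι] (hc : Fintype.card ι = n + 1)
    (A : ℝ) (p r : ι → ℝ) (hp0 : ∀ i, 0 < p i) (hp1 : ∀ i, p i ≤ 1 / 2) (hsum : ∑ i, p i = 1)
    (hr : ∀ i, 0 ≤ r i) (hbig : 9 / (8 * Real.pi) < ∑ i, r i ^ 2)
    (T1 : ∀ i, r i ^ 2 ≤ 2 * (A / n) * p i ^ 2)
    (T2 : ∀ i, √(2 * Real.pi) * r i ≤ 1 - Real.pi * (A / ((n : ℝ) - 1)) * (1 / 2 - p i) ^ 2)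
    (T4 : ∀ i₀ j₁ j₂ j₃ : ι, j₁ ≠ i₀ → j₂ ≠ i₀ → j₃ ≠ i₀ → j₁ ≠ j₂ → j₁ ≠ j₃ → j₂ ≠ j₃ →
      ∀ M m : ℝ, (∀ j, j ≠ i₀ → r j ^ 2 ≤ M) → m ≤ r j₁ ^ 2 → m ≤ r j₂ ^ 2 → m ≤ r j₃ ^ 2 →
      0 < (∑ i, r i ^ 2) / 2 - 2 * r i₀ ^ 2 - M + m →
      ((∑ i, r i ^ 2) / 2 - 2 * r i₀ ^ 2 - M + m) * (2 - 2 * (A / n) * (1 - 1 / (2 * (n : ℝ)))) ≤
        4 * (n : ℝ) ^ 3 * (n + 3) ^ 2 / (n + 1) ^ 4 * p i₀ ^ 2)
    (b e C σ K : ℝ) (hb : 4 * Real.pi * (A / n) ≤ b) (he : e ≤ Real.pi * (A / ((n : ℝ) - 1)))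
    (hσ0 : 0 < σ) (hσ : σ ≤ 2 - 2 * (A / n) * (1 - 1 / (2 * (n : ℝ))))
    (hK : 4 * (n : ℝ) ^ 3 * (n + 3) ^ 2 / (n + 1) ^ 4 ≤ K)
    (hC : 2 * b + 2 * 3.1416 * (K / σ) ≤ C * ((n : ℝ) - 1) ^ 2) :
    ∃ a t p₁ ρ₁ : ℝ, 0 ≤ t ∧ t ≤ 1 ∧ Red n b e C a t p₁ ρ₁ := by
  have hpi := Real.pi_pos
  have h2pi : 0 < 2 * Real.pi := by positivity
  have hT1 : ∀ i, 2 * Real.pi * r i ^ 2 ≤ b * p i ^ 2 := fun i => by
    have h1 := mul_le_mul_of_nonneg_left (T1 i) h2pi.le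
    have h2 := mul_le_mul_of_nonneg_right hb (sq_nonneg (p i))
    linarith
  have hbig' : 9 / 4 < ∑ i, 2 * Real.pi * r i ^ 2 := by
    rw [← mul_sum]
    rw [div_lt_iff₀ (by positivity)] at hbig
    linarith
  refine exists_red n hn hc b e C p (fun i => 2 * Real.pi * r i ^ 2) hp0 hp1 hsum
    (fun i => by positivity) hbig' hT1 (fun i => ?_) ?_
  · have h0 : 0 ≤ √(2 * Real.pi) * r i := mul_nonneg (Real.sqrt_nonneg _) (hr i)
    have h1 : √(2 * Real.pi) * r i ≤ 1 - e * (1 / 2 - p i) ^ 2 :=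
      (T2 i).trans (by nlinarith [mul_le_mul_of_nonneg_right he (sq_nonneg (1 / 2 - p i))])
    have h2 := pow_le_pow_left₀ h0 h1 2
    rwa [mul_pow, Real.sq_sqrt h2pi.le] at h2
  · intro i₀ j₁ j₂ j₃ h1 h2 h3 h12 h13 h23 hM h32
    have hM' : ∀ j, j ≠ i₀ → r j ^ 2 ≤ r j₁ ^ 2 := fun j hj =>
      le_of_mul_le_mul_left (hM j hj) h2pi
    have hn' : (3 : ℝ) ≤ n := by exact_mod_cast hn
    have hK0 : 0 ≤ K := le_trans (by positivity) hK
    have hE : (∑ i, r i ^ 2) / 2 - 2 * r i₀ ^ 2 - r j₁ ^ 2 + r j₃ ^ 2 ≤ K / σ * p i₀ ^ 2 := by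
      rcases le_or_gt ((∑ i, r i ^ 2) / 2 - 2 * r i₀ ^ 2 - r j₁ ^ 2 + r j₃ ^ 2) 0 with h | h
      · exact h.trans (by positivity)
      · have h4 := T4 i₀ j₁ j₂ j₃ h1 h2 h3 h12 h13 h23 _ _ hM' (hM' j₃ h3)
          (le_of_mul_le_mul_left h32 h2pi) le_rfl h
        rw [div_mul_eq_mul_div, le_div_iff₀ hσ0]
        exact (mul_le_mul_of_nonneg_left hσ h.le).trans
          (h4.trans (mul_le_mul_of_nonneg_right hK (sq_nonneg _)))
    have h5 := mul_le_mul_of_nonneg_left hE h2pi.le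
    have h6 := mul_le_mul_of_nonneg_right hC (sq_nonneg (p i₀))
    have h7 : 0 ≤ K / σ * p i₀ ^ 2 := by positivity
    have h8 := mul_le_mul_of_nonneg_right Real.pi_lt_d4.le h7
    have h9 := hT1 i₀
    rw [← mul_sum] at hbig'
    rw [mul_pow]
    nlinarith

lemma red_false {ex : Bool} {N b e C : ℚ} {tr : Tr}
    (h : check ex N b e C tr 0 1 0 (1 / 2) = true) (hN : 1 ≤ N) (hb : 0 ≤ b) (he0 : 0 ≤ e)
    (he4 : e ≤ 4) (hC : 0 ≤ C) {n : ℝ} (hn : (N : ℝ) ≤ n - 1) (hex : ex = true → n - 1 = N)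
    (R : ∃ a t p₁ ρ₁ : ℝ, 0 ≤ t ∧ t ≤ 1 ∧ Red n b e C a t p₁ ρ₁) : False := by
  obtain ⟨a, t, p₁, ρ₁, h0, h1, R⟩ := R
  have h2 := R.adm.hi
  have h3 := R.adm.lo
  have h4 := R.a_pos
  refine check_sound hN hb he0 he4 hC hn hex R tr 0 1 0 (1 / 2) h (by simpa using h0)
    (by simpa using h1) (by push_cast; linarith) (by push_cast; linarith)

theorem num_false (n : ℕ) (hn : 3 ≤ n) {ι : Type} [Fintype ι] (hc : Fintype.card ι = n + 1)
    (A : ℝ) (hA1 : (n : ℝ) - 1 / 2 ≤ A) (hA2 : A ≤ (n : ℝ) ^ 2 / (n + 1 / 2))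
    (hA3 : n = 3 → A = 8 / Real.pi) (hA4 : n = 4 → A = 9 * Real.pi / 8)
    (p r : ι → ℝ) (hp0 : ∀ i, 0 < p i) (hp1 : ∀ i, p i ≤ 1 / 2) (hsum : ∑ i, p i = 1)
    (hr : ∀ i, 0 ≤ r i) (hbig : 9 / (8 * Real.pi) < ∑ i, r i ^ 2)
    (T1 : ∀ i, r i ^ 2 ≤ 2 * (A / n) * p i ^ 2)
    (T2 : ∀ i, √(2 * Real.pi) * r i ≤ 1 - Real.pi * (A / ((n : ℝ) - 1)) * (1 / 2 - p i) ^ 2)
    (T4 : ∀ i₀ j₁ j₂ j₃ : ι, j₁ ≠ i₀ → j₂ ≠ i₀ → j₃ ≠ i₀ → j₁ ≠ j₂ → j₁ ≠ j₃ → j₂ ≠ j₃ →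
      ∀ M m : ℝ, (∀ j, j ≠ i₀ → r j ^ 2 ≤ M) → m ≤ r j₁ ^ 2 → m ≤ r j₂ ^ 2 → m ≤ r j₃ ^ 2 →
      0 < (∑ i, r i ^ 2) / 2 - 2 * r i₀ ^ 2 - M + m →
      ((∑ i, r i ^ 2) / 2 - 2 * r i₀ ^ 2 - M + m) * (2 - 2 * (A / n) * (1 - 1 / (2 * (n : ℝ)))) ≤
        4 * (n : ℝ) ^ 3 * (n + 3) ^ 2 / (n + 1) ^ 4 * p i₀ ^ 2) :
    False := by
  have key := scaled_red n hn hc A p r hp0 hp1 hsum hr hbig T1 T2 T4
  clear T1 T2 T4 hbig hsum hc
  have hpi := Real.pi_pos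
  have hlo := Real.pi_gt_d4
  have hhi := Real.pi_lt_d4
  have hn' : (3 : ℝ) ≤ n := by exact_mod_cast hn
  have hA0 : 0 ≤ A := by linarith
  have hβ : A / n ≤ 2 * n / (2 * n + 1) := by
    rw [div_le_div_iff₀ (by linarith) (by linarith)]
    rw [le_div_iff₀ (by linarith)] at hA2
    nlinarith
  have hη : (2 * n - 1) / (2 * n - 2) ≤ A / ((n : ℝ) - 1) := by
    rw [div_le_div_iff₀ (by linarith) (by linarith)]
    nlinarith
  have hσ : 4 / (2 * (n : ℝ) + 1) ≤ 2 - 2 * (A / n) * (1 - 1 / (2 * (n : ℝ))) := by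
    have h1 : 0 ≤ 1 - 1 / (2 * (n : ℝ)) := by
      rw [sub_nonneg, div_le_one (by linarith)]; linarith
    have h2 := mul_le_mul_of_nonneg_right hβ h1
    have h3 : 2 * (n : ℝ) / (2 * n + 1) * (1 - 1 / (2 * (n : ℝ))) = 1 - 2 / (2 * n + 1) := by
      field_simp; ring
    have h4 : 4 / (2 * (n : ℝ) + 1) = 2 * (2 / (2 * n + 1)) := by ring
    linarith
  have hb : 4 * Real.pi * (A / n) ≤ 4 * 3.1416 * (2 * n / (2 * n + 1)) :=
    mul_le_mul (by linarith) hβ (by positivity) (by norm_num)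
  have he : 3.1415 * ((2 * n - 1) / (2 * n - 2)) ≤ Real.pi * (A / ((n : ℝ) - 1)) :=
    mul_le_mul hlo.le hη (div_nonneg (by linarith) (by linarith)) hpi.le
  rcases le_or_gt 10 n with h10 | h10
  · have h10' : (10 : ℝ) ≤ n := by exact_mod_cast h10
    refine red_false check10 (by norm_num) (by norm_num) (by norm_num) (by norm_num) (by norm_num)
      (by push_cast; linarith) (by simp) (key _ _ _ _ (4 * (n + 2)) (hb.trans ?_) (le_trans ?_ he)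
        (by positivity) hσ ?_ ?_)
    · have : 2 * (n : ℝ) / (2 * n + 1) ≤ 1 := by rw [div_le_one (by linarith)]; linarith
      push_cast; linarith
    · have : 1 ≤ (2 * (n : ℝ) - 1) / (2 * n - 2) := by rw [one_le_div (by linarith)]; linarith
      push_cast; linarith
    · rw [div_le_iff₀ (by positivity)]
      have h0 : (0 : ℝ) ≤ n := by linarith
      nlinarith [pow_nonneg h0 3, pow_nonneg h0 2]
    · have : 4 * ((n : ℝ) + 2) / (4 / (2 * n + 1)) = (n + 2) * (2 * n + 1) := by field_simp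
      rw [this]
      push_cast
      nlinarith [mul_nonneg (sub_nonneg.2 h10') (sub_nonneg.2 h10')]
  interval_cases n
  · obtain rfl := hA3 rfl
    refine red_false check3 (by norm_num) (by norm_num) (by norm_num) (by norm_num) (by norm_num)
      (by norm_num) (by norm_num) (key _ _ _ (2 - 40 / 9 / 3.1415) _ (le_of_eq ?_) (le_of_eq ?_)
        (by norm_num) ?_ le_rfl (by norm_num))
    · push_cast; field_simp; norm_num
    · push_cast; field_simp; norm_num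
    · have : 1 / Real.pi ≤ 1 / 3.1415 := one_div_le_one_div_of_le (by norm_num) hlo.le
      have h2 : 8 / Real.pi = 8 * (1 / Real.pi) := by ring
      rw [h2]; push_cast; norm_num at this ⊢; linarith
  · obtain rfl := hA4 rfl
    refine red_false check4 (by norm_num) (by norm_num) (by norm_num) (by norm_num) (by norm_num)
      (by norm_num) (by norm_num) (key _ _ _ (2 - 63 / 128 * 3.1416) _ ?_ ?_
        (by norm_num) ?_ le_rfl (by norm_num))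
    · push_cast; nlinarith
    · push_cast; nlinarith
    · push_cast; linarith
  · exact red_false check5 (by norm_num) (by norm_num) (by norm_num) (by norm_num) (by norm_num)
      (by norm_num) (by norm_num) (key _ _ _ _ _ (hb.trans (by norm_num))
        (le_trans (by norm_num) he) (by norm_num) hσ le_rfl (by norm_num))
  · exact red_false check6 (by norm_num) (by norm_num) (by norm_num) (by norm_num) (by norm_num)
      (by norm_num) (by norm_num) (key _ _ _ _ _ (hb.trans (by norm_num))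
        (le_trans (by norm_num) he) (by norm_num) hσ le_rfl (by norm_num))
  · exact red_false check7 (by norm_num) (by norm_num) (by norm_num) (by norm_num) (by norm_num)
      (by norm_num) (by norm_num) (key _ _ _ _ _ (hb.trans (by norm_num))
        (le_trans (by norm_num) he) (by norm_num) hσ le_rfl (by norm_num))
  · exact red_false check8 (by norm_num) (by norm_num) (by norm_num) (by norm_num) (by norm_num)
      (by norm_num) (by norm_num) (key _ _ _ _ _ (hb.trans (by norm_num))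
        (le_trans (by norm_num) he) (by norm_num) hσ le_rfl (by norm_num))
  · exact red_false check9 (by norm_num) (by norm_num) (by norm_num) (by norm_num) (by norm_num)
      (by norm_num) (by norm_num) (key _ _ _ _ _ (hb.trans (by norm_num))
        (le_trans (by norm_num) he) (by norm_num) hσ le_rfl (by norm_num))

end Crest.Agent.R215
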