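import Crest.Agent.R215.Crit

/-! Row 215: the induction step. -/

set_option autoImplicit false

open MeasureTheory ProbabilityTheory Set Module
open scoped RealInnerProductSpace

namespace Crest.Agent.R215

universe u

/-- The orthogonal projection maps the standard Gaussian to the standard Gaussian
(`Measure.ext_of_charFun`, `charFun_stdGaussian`). -/
theorem map_orthogonalProjection {V : Type*} [NormedAddCommGroup V] [InnerProductSpace ℝ V]
    [FiniteDimensional ℝ V] [MeasurableSpace V] [BorelSpace V] (W : Submodule ℝ V) :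
    (stdGaussian V).map W.orthogonalProjectionOnto = stdGaussian W := by
  have hm : Measurable W.orthogonalProjectionOnto := W.orthogonalProjectionOnto.continuous.measurable
  have := Measure.isProbabilityMeasure_map (μ := stdGaussian V) hm.aemeasurable
  apply Measure.ext_of_charFun
  ext t
  rw [charFun_stdGaussian, Submodule.coe_norm, ← charFun_stdGaussian, charFun_apply, charFun_apply,
    integral_map hm.aemeasurable (Continuous.aestronglyMeasurable (by fun_prop))]
  simp only [Submodule.inner_orthogonalProjectionOnto_eq_of_mem_right]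

/-- A critical configuration is critical in any subspace that contains it: the cells are the
preimages of the cells under the orthogonal projection. -/
theorem Crit.restrict {V : Type*} [NormedAddCommGroup V] [InnerProductSpace ℝ V]
    [FiniteDimensional ℝ V] [MeasurableSpace V] [BorelSpace V] {ι : Type*} [Fintype ι]
    {z : ι → V} (h : Crit z) (W : Submodule ℝ V) (hW : ∀ i, z i ∈ W) :
    Crit (fun i => (⟨z i, hW i⟩ : W)) := by
  have hm : Measurable W.orthogonalProjectionOnto := W.orthogonalProjectionOnto.continuous.measurable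
  refine ⟨fun i j hij => h.inj (congrArg Subtype.val hij), fun i => ?_, h.big⟩
  have hcell : W.orthogonalProjectionOnto ⁻¹' cell (fun i => (⟨z i, hW i⟩ : W)) i = cell z i := by
    ext x
    simp only [cell, mem_preimage, mem_ofPred_eq,
      Submodule.inner_orthogonalProjectionOnto_eq_of_mem_right]
  rw [← map_orthogonalProjection W, setIntegral_map (measurableSet_cell _ _)
    (Continuous.aestronglyMeasurable (by fun_prop)) hm.aemeasurable, hcell,
    ContinuousLinearMap.integral_comp_comm _ IsGaussian.integrable_fun_id.integrableOn, h.mom]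
  exact Submodule.orthogonalProjectionOnto_mem_subspace_eq_self (⟨z i, hW i⟩ : W)

/-- If the bound fails for `n+1` points, maximise `gw` on the compact set `Σ‖z i‖² = 1`
(`continuous_gw`, `gw_smul`); the maximum `Λ` exceeds `c`, and `gw y ≤ Λ √(Σ‖y‖²)` for all `y`.
The maximiser `z` is injective (else drop a repeated point: `gw_comp_le`, `Bound n`).  For
`y i = ∫_{cell z i} x`: `Λ = gw z = Σ⟪y i, z i⟫` and `Σ‖y‖² ≤ gw y ≤ Λ√(Σ‖y‖²)`, so
`Σ‖y i - Λ z i‖² ≤ 0`, `y = Λ z`, the cells of `y` are those of `z`, and `y` is critical. -/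
theorem exists_crit {V : Type u} [NormedAddCommGroup V] [InnerProductSpace ℝ V]
    [FiniteDimensional ℝ V] [MeasurableSpace V] [BorelSpace V] {ι : Type} [Fintype ι] {n : ℕ}
    (hB : Bound.{u} n) (hc : Fintype.card ι = n + 1) (z : ι → V)
    (hz : √(9 / (8 * Real.pi)) * √(∑ i, ‖z i‖ ^ 2) < gw z) : ∃ y : ι → V, Crit y := by
  classical
  have : Nonempty ι := Fintype.card_pos_iff.1 (by omega)
  set c := √(9 / (8 * Real.pi)) with hcdef
  have hc0 : 0 ≤ c := Real.sqrt_nonneg _
  let K : Set (ι → V) := {y | ∑ i, ‖y i‖ ^ 2 = 1}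
  have hK : IsCompact K := by
    refine Metric.isCompact_of_isClosed_isBounded (isClosed_eq (by fun_prop) continuous_const)
      ((Metric.isBounded_closedBall (x := 0) (r := 1)).subset fun y hy => ?_)
    rw [mem_closedBall_zero_iff, pi_norm_le_iff_of_nonneg zero_le_one]
    intro i
    have := Finset.single_le_sum (f := fun i => ‖y i‖ ^ 2) (fun _ _ => sq_nonneg _)
      (Finset.mem_univ i)
    rw [show ∑ i, ‖y i‖ ^ 2 = 1 from hy] at this
    nlinarith [norm_nonneg (y i)]
  have hscale : ∀ y : ι → V, gw y = 0 ∧ √(∑ i, ‖y i‖ ^ 2) = 0 ∨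
      0 < √(∑ i, ‖y i‖ ^ 2) ∧ ∃ w ∈ K, gw y = √(∑ i, ‖y i‖ ^ 2) * gw w := fun y => by
    have h0 : 0 ≤ ∑ i, ‖y i‖ ^ 2 := Finset.sum_nonneg fun _ _ => sq_nonneg _
    rcases h0.eq_or_lt with h | h
    · left
      have h1 : y = fun i => (0 : ℝ) • y i := funext fun i => by
        have := (Finset.sum_eq_zero_iff_of_nonneg fun _ _ => sq_nonneg _).1 h.symm i
          (Finset.mem_univ i)
        simpa using this
      exact ⟨by rw [h1, gw_smul _ le_rfl, zero_mul], by rw [← h, Real.sqrt_zero]⟩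
    · right
      have hs := Real.sqrt_pos.2 h
      refine ⟨hs, fun i => (√(∑ i, ‖y i‖ ^ 2))⁻¹ • y i, ?_, ?_⟩
      · simp only [K, mem_ofPred_eq, norm_smul, mul_pow, ← Finset.mul_sum, Real.norm_eq_abs, sq_abs,
          inv_pow, Real.sq_sqrt h0]
        exact inv_mul_cancel₀ h.ne'
      · rw [gw_smul _ (inv_nonneg.2 hs.le), ← mul_assoc, mul_inv_cancel₀ hs.ne', one_mul]
  obtain ⟨w₀, hw₀, hlt⟩ : ∃ w₀ ∈ K, c < gw w₀ := by
    rcases hscale z with ⟨h1, h2⟩ | ⟨h1, w, hw, h2⟩
    · rw [h1, h2, mul_zero] at hz; exact absurd hz (lt_irrefl _)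
    · rw [h2, mul_comm] at hz
      exact ⟨w, hw, lt_of_mul_lt_mul_left hz h1.le⟩
  obtain ⟨w, hw, hmax⟩ := hK.exists_isMaxOn ⟨w₀, hw₀⟩ continuous_gw.continuousOn
  have hw1 : ∑ i, ‖w i‖ ^ 2 = 1 := hw
  set Λ := gw w with hΛ
  have hcΛ : c < Λ := hlt.trans_le (hmax hw₀)
  have hΛ0 : 0 < Λ := hc0.trans_lt hcΛ
  have hall : ∀ y : ι → V, gw y ≤ √(∑ i, ‖y i‖ ^ 2) * Λ := fun y => by
    rcases hscale y with ⟨h1, h2⟩ | ⟨h1, w', hw', h2⟩
    · rw [h1, h2, zero_mul]
    · rw [h2]; exact mul_le_mul_of_nonneg_left (hmax hw') h1.le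
  have hinj : Function.Injective w := fun i j hij => by
    by_contra hne
    let φ : ι → {l // l ≠ j} := fun l => if h : l = j then ⟨i, hne⟩ else ⟨l, h⟩
    have h1 : w = (fun l : {l // l ≠ j} => w l) ∘ φ := funext fun l => by
      by_cases h : l = j
      · simp [φ, h, hij]
      · simp [φ, h]
    have h2 := gw_comp_le (fun l : {l // l ≠ j} => w l) φ
    rw [← h1] at h2
    have h3 := hB V {l // l ≠ j} (by simp [hc]) fun l => w l
    have h4 : ∑ l : {l // l ≠ j}, ‖w l‖ ^ 2 ≤ 1 := by
      rw [← hw1, Fintype.sum_eq_add_sum_subtype_ne _ j]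
      exact le_add_of_nonneg_left (sq_nonneg _)
    have h5 := mul_le_mul_of_nonneg_left (Real.sqrt_le_one.2 h4) hc0
    linarith
  set y : ι → V := fun i => ∫ x in cell w i, x ∂stdGaussian V with hy
  have h1 : Λ = ∑ i, ⟪y i, w i⟫ := gw_eq_sum_cell hinj
  have h2 : ∑ i, ‖y i‖ ^ 2 ≤ gw y := by
    refine le_of_eq_of_le (Finset.sum_congr rfl fun i _ => (real_inner_self_eq_norm_sq _).symm)
      (sum_le_gw (measurableSet_cell w) (aedisjoint_cell hinj) (iUnion_cell w) y)
  have hT0 : 0 ≤ ∑ i, ‖y i‖ ^ 2 := Finset.sum_nonneg fun _ _ => sq_nonneg _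
  have h3 : ∑ i, ‖y i‖ ^ 2 ≤ Λ ^ 2 := by
    have h4 := h2.trans (hall y)
    have h5 := Real.sq_sqrt hT0
    nlinarith [sq_nonneg (√(∑ i, ‖y i‖ ^ 2) - Λ)]
  have h4 : ∑ i, ‖y i - Λ • w i‖ ^ 2 = ∑ i, ‖y i‖ ^ 2 - Λ ^ 2 := by
    simp only [norm_sub_sq_real, real_inner_smul_right, norm_smul, mul_pow, Real.norm_eq_abs, sq_abs,
      Finset.sum_add_distrib, Finset.sum_sub_distrib, ← Finset.mul_sum, ← h1, hw1]
    ring
  have h5 : ∀ i, y i = Λ • w i := fun i => by
    have := (Finset.sum_eq_zero_iff_of_nonneg fun _ _ => sq_nonneg _).1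
      (le_antisymm (h4.trans_le (sub_nonpos.2 h3)) (Finset.sum_nonneg fun _ _ => sq_nonneg _)) i
      (Finset.mem_univ i)
    simpa [sub_eq_zero] using this
  refine ⟨y, fun i j hij => hinj ?_, fun i => ?_, ?_⟩
  · rw [h5, h5] at hij
    exact smul_right_injective V hΛ0.ne' hij
  · have : cell y i = cell w i := by
      ext x
      simp only [cell, mem_ofPred_eq, h5, real_inner_smul_right, mul_le_mul_iff_right₀ hΛ0]
    rw [this]
  · simp only [h5, norm_smul, mul_pow, Real.norm_eq_abs, sq_abs, ← Finset.mul_sum, hw1, mul_one]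
    rw [← Real.sq_sqrt (by positivity : (0 : ℝ) ≤ 9 / (8 * Real.pi))]
    exact pow_lt_pow_left₀ hcΛ hc0 two_ne_zero

/-- `exists_crit`, `Crit.restrict` to the span, `finrank_span_eq`. -/
theorem bound_succ {n : ℕ} (hB : Bound.{u} n) (hnc : NoCrit.{u} n) : Bound.{u} (n + 1) := by
  intro V _ _ _ _ _ ι _ hc z
  rcases hc.eq_or_lt with hc | hc
  · by_contra hz
    obtain ⟨y, hy⟩ := exists_crit hB hc z (not_le.1 hz)
    exact hnc (Submodule.span ℝ (range y)) ι hc
      (finrank_span_eq hy.sum_zero (fun i j hij => hy.inner_neg hB hc hij) hc) _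
      (hy.restrict _ fun i => Submodule.subset_span (mem_range_self i))
  · exact hB V ι (by omega) z

end Crest.Agent.R215
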