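import Crest.Agent.R215.T4
import Crest.Agent.R215.Step
import Crest.Agent.R215.Num

/-! Row 215: assembly. -/

set_option autoImplicit false

open MeasureTheory ProbabilityTheory Set Module
open scoped RealInnerProductSpace

namespace Crest.Agent.R215

universe u

theorem noCrit {n : ℕ} (hn : 3 ≤ n) (hB : Bound.{u} n) : NoCrit.{u} n := by
  intro V _ _ _ _ _ ι _ hc hV z h
  have hn1 : 1 ≤ n := by omega
  refine num_false n hn hc (aN n ^ 2) (aN_sq_ge hn1) (aN_sq_le hn1) ?_ ?_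
    (fun i => (stdGaussian V).real (cell z i)) (fun i => ‖z i‖)
    (h.p_pos hB hc hn1) (h.p_le_half hB hc hn1) h.sum_p (fun i => norm_nonneg _) h.big
    (h.T1 hB hc hV hn1) (h.T2 hB hc hV hn) ?_
  · rintro rfl; exact aN_three_sq
  · rintro rfl; exact aN_four_sq
  · intro i₀ j₁ j₂ j₃ h1 h2 h3 h12 h13 h23 M m hM hm₁ hm₂ hm₃ hpos
    exact h.T4 hB hc hV hn i₀ j₁ j₂ j₃ h1 h2 h3 h12 h13 h23 M m hM hm₁ hm₂ hm₃ hpos

theorem bound_all (k : ℕ) : Bound.{u} (k + 3) := by
  induction k with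
  | zero => exact bound_three
  | succ k ih => exact bound_succ ih (noCrit (by omega) ih)

theorem propeller (E : Type u) [NormedAddCommGroup E] [InnerProductSpace ℝ E]
    [FiniteDimensional ℝ E] [MeasurableSpace E] [BorelSpace E]
    (ι : Type) [Fintype ι] (A : ι → Set E) (hA : ∀ i, MeasurableSet (A i))
    (hdisj : Pairwise fun i j => Disjoint (A i) (A j)) (hcov : ⋃ i, A i = Set.univ) :
    ∑ i, ‖∫ x in A i, x ∂stdGaussian E‖ ^ 2 ≤ 9 / (8 * Real.pi) := by
  set y : ι → E := fun i => ∫ x in A i, x ∂stdGaussian E with hy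
  set S : ℝ := ∑ i, ‖y i‖ ^ 2 with hS
  have hS0 : 0 ≤ S := Finset.sum_nonneg fun i _ => by positivity
  have h1 : S ≤ gw y := by
    have := sum_le_gw hA (fun i j hij => (hdisj hij).aedisjoint) hcov y
    refine le_of_eq_of_le (Finset.sum_congr rfl fun i _ => ?_) this
    exact (real_inner_self_eq_norm_sq (y i)).symm
  have h2 := bound_all.{u} (Fintype.card ι) E ι (by omega) y
  rw [← hS] at h2
  have hc0 : (0 : ℝ) ≤ 9 / (8 * Real.pi) := by positivity
  have h3 : √S * √S ≤ √(9 / (8 * Real.pi)) * √S := by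
    rw [Real.mul_self_sqrt hS0]; exact h1.trans h2
  by_cases h0 : S = 0
  · rw [h0]; exact hc0
  have hpos : 0 < √S := Real.sqrt_pos.2 (lt_of_le_of_ne hS0 (Ne.symm h0))
  have h4 := le_of_mul_le_mul_right h3 hpos
  exact (Real.sqrt_le_sqrt_iff hc0).1 h4

end Crest.Agent.R215
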