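import Crest.Agent.R215.NumTree

/-! Row 215: the certificates. -/

set_option autoImplicit false

namespace Crest.Agent.R215

def tr3 : Tr :=
  (.st (7/25)
   (.st (7/50)
    (.st (7/100)
     (.B 0 ⟨(73/250),0,1⟩ ⟨(403/1000),0,1⟩)
     (.st (21/200)
      (.sd (1/4)
       (.sd (1/8)
        (.sd (1/16)
         (.B (58/25) ⟨(69/250),(81/500),0⟩ ⟨(63/200),(11/40),(49/200)⟩)
         (.sd (3/32)
          (.B (93/50) ⟨(73/250),(31/250),(1/1000)⟩ ⟨(159/500),0,1⟩)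
          (.B (93/100) ⟨(57/250),(47/500),(359/1000)⟩ ⟨(329/1000),0,1⟩)))
        (.B 0 ⟨(73/250),0,1⟩ ⟨(43/125),0,1⟩))
       .N)
      (.st (49/400)
       (.sd (1/4)
        (.sd (1/8)
         (.sd (1/16)
          (.B (27/10) ⟨(3/10),(201/1000),0⟩ ⟨(3/10),(249/1000),(99/1000)⟩)
          (.sd (3/32)
           (.B (67/25) ⟨(3/10),(199/1000),0⟩ ⟨(77/250),(259/1000),(29/250)⟩)
           (.sd (7/64)
            (.B (49/20) ⟨(71/250),(87/500),0⟩ ⟨(3/10),(271/1000),(1/5)⟩)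
            (.B (54/25) ⟨(73/250),(37/250),0⟩ ⟨(3/10),(141/500),(149/500)⟩))))
         (.B 0 ⟨(73/250),0,1⟩ ⟨(3/10),0,1⟩))
        (.B 0 ⟨(73/250),0,1⟩ ⟨(39/100),0,1⟩))
       (.st (21/160)
        (.sd (1/4)
         (.sd (1/8)
          (.sd (1/16)
           (.B (279/100) ⟨(3/10),(213/1000),0⟩ ⟨(3/10),(213/1000),0⟩)
           (.sd (3/32)
            (.B (279/100) ⟨(3/10),(213/1000),0⟩ ⟨(3/10),(28/125),(13/500)⟩)
            (.sd (7/64)
             (.B (69/25) ⟨(3/10),(209/1000),0⟩ ⟨(3/10),(119/500),(63/1000)⟩)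
             (.sd (15/128)
              (.B (67/25) ⟨(3/10),(199/1000),0⟩ ⟨(3/10),(123/500),(51/500)⟩)
              (.B (261/100) ⟨(73/250),(191/1000),0⟩ ⟨(3/10),(1/4),(13/100)⟩)))))
          (.sd (3/16)
           (.sd (5/32)
            (.sd (9/64)
             (.sd (17/128)
              (.B (247/100) ⟨(71/250),(22/125),0⟩ ⟨(3/10),(127/500),(181/1000)⟩)
              (.B (58/25) ⟨(69/250),(81/500),0⟩ ⟨(3/10),(259/1000),(47/200)⟩))
             (.sd (19/128)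
              (.B (217/100) ⟨(73/250),(149/1000),(1/1000)⟩ ⟨(3/10),(33/125),(36/125)⟩)
              (.B 0 ⟨(73/250),0,1⟩ ⟨(73/250),0,1⟩)))
            (.B 0 ⟨(73/250),0,1⟩ ⟨(73/250),0,1⟩))
           (.B 0 ⟨(73/250),0,1⟩ ⟨(77/250),0,1⟩)))
         (.B 0 ⟨(73/250),0,1⟩ ⟨(353/1000),0,1⟩))
        (.sd (1/4)
         (.sd (1/8)
          (.sd (1/16)
           (.B (141/50) ⟨(77/250),(217/1000),0⟩ ⟨(77/250),(217/1000),0⟩)
           (.sd (3/32)
            (.B (141/50) ⟨(77/250),(217/1000),0⟩ ⟨(77/250),(217/1000),0⟩)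
            (.sd (7/64)
             (.B (141/50) ⟨(77/250),(217/1000),0⟩ ⟨(77/250),(109/500),(1/500)⟩)
             (.sd (15/128)
              (.B (141/50) ⟨(77/250),(217/1000),0⟩ ⟨(77/250),(109/500),(1/500)⟩)
              (.B (141/50) ⟨(77/250),(217/1000),0⟩ ⟨(77/250),(109/500),(1/500)⟩)))))
          (.sd (3/16)
           (.sd (5/32)
            (.sd (9/64)
             (.sd (17/128)
              (.B (279/100) ⟨(3/10),(213/1000),0⟩ ⟨(3/10),(217/1000),(1/100)⟩)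
              (.sd (35/256)
               (.B (273/100) ⟨(3/10),(41/200),0⟩ ⟨(3/10),(223/1000),(9/200)⟩)
               (.B (67/25) ⟨(3/10),(199/1000),0⟩ ⟨(3/10),(113/500),(69/1000)⟩)))
             (.sd (19/128)
              (.sd (37/256)
               (.B (261/100) ⟨(73/250),(191/1000),0⟩ ⟨(3/10),(57/250),(97/1000)⟩)
               (.B (261/100) ⟨(73/250),(191/1000),0⟩ ⟨(3/10),(29/125),(13/125)⟩))
              (.sd (39/256)
               (.B (62/25) ⟨(71/250),(89/500),(3/1000)⟩ ⟨(73/250),(117/500),(19/125)⟩)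
               (.B (243/100) ⟨(71/250),(173/1000),(3/1000)⟩ ⟨(73/250),(59/250),(43/250)⟩))))
            (.sd (11/64)
             (.sd (21/128)
              (.sd (41/256)
               (.B (47/20) ⟨(73/250),(33/200),(1/1000)⟩ ⟨(73/250),(6/25),(41/200)⟩)
               (.B (29/20) ⟨(63/250),(161/1000),(93/250)⟩ ⟨(69/250),(121/500),(511/1000)⟩))
              (.B 0 ⟨(73/250),0,1⟩ ⟨(73/250),0,1⟩))
             (.B 0 ⟨(73/250),0,1⟩ ⟨(73/250),0,1⟩)))
           (.B 0 ⟨(73/250),0,1⟩ ⟨(73/250),0,1⟩)))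
         (.B 0 ⟨(73/250),0,1⟩ ⟨(161/500),0,1⟩))))))
    (.A (261/100) ⟨(73/250),(191/1000),0⟩))
   (.U 3 ⟨(9/25),(1/4),0⟩))

theorem check3 : check true 2 (32/3) 4 (461/10) tr3 0 1 0 (1/2) = true := by decide +kernel

def tr4 : Tr :=
  (.st (1/2)
   (.st (1/4)
    (.st (1/8)
     (.st (1/16)
      (.B 0 ⟨(73/250),0,1⟩ ⟨(239/500),0,1⟩)
      (.sd (1/4)
       (.sd (1/8)
        (.sd (1/16)
         (.B (233/100) ⟨(71/250),(89/500),0⟩ ⟨(311/1000),0,1⟩)
         (.sd (3/32)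
          (.B (9/4) ⟨(69/250),(17/100),0⟩ ⟨(159/500),0,1⟩)
          (.B (43/20) ⟨(69/250),(161/1000),(1/500)⟩ ⟨(327/1000),0,1⟩)))
        (.sd (3/16)
         (.sd (5/32)
          (.B 2 ⟨(67/250),(147/1000),(1/1000)⟩ ⟨(17/50),0,1⟩)
          (.B 0 ⟨(73/250),0,1⟩ ⟨(179/500),0,1⟩))
         (.B 0 ⟨(73/250),0,1⟩ ⟨(383/1000),0,1⟩)))
       .N))
     (.st (3/16)
      (.st (5/32)
       (.st (9/64)
        (.sd (1/4)
         (.sd (1/8)
          (.sd (1/16)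
           (.B (273/100) ⟨(299/1000),(57/250),0⟩ ⟨(299/1000),(269/1000),(8/125)⟩)
           (.sd (3/32)
            (.B (68/25) ⟨(299/1000),(227/1000),0⟩ ⟨(299/1000),(279/1000),(3/40)⟩)
            (.sd (7/64)
             (.B (27/10) ⟨(299/1000),(28/125),0⟩ ⟨(299/1000),(73/250),(11/125)⟩)
             (.B (269/100) ⟨(73/250),(111/500),0⟩ ⟨(3/10),(3/10),(23/250)⟩))))
          (.sd (3/16)
           (.sd (5/32)
            (.sd (9/64)
             (.B (263/100) ⟨(73/250),(107/500),0⟩ ⟨(61/200),0,1⟩)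
             (.B (64/25) ⟨(73/250),(41/200),(1/1000)⟩ ⟨(39/125),0,1⟩))
            (.sd (11/64)
             (.B (247/100) ⟨(71/250),(97/500),(1/1000)⟩ ⟨(319/1000),0,1⟩)
             (.B (237/100) ⟨(73/250),(183/1000),(1/1000)⟩ ⟨(41/125),0,1⟩)))
           (.B 0 ⟨(73/250),0,1⟩ ⟨(169/500),0,1⟩)))
         (.B 0 ⟨(73/250),0,1⟩ ⟨(197/500),0,1⟩))
        (.sd (1/4)
         (.sd (1/8)
          (.sd (1/16)
           (.B (279/100) ⟨(299/1000),(239/1000),0⟩ ⟨(299/1000),(239/1000),0⟩)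
           (.sd (3/32)
            (.B (279/100) ⟨(299/1000),(239/1000),0⟩ ⟨(299/1000),(239/1000),0⟩)
            (.sd (7/64)
             (.B (279/100) ⟨(299/1000),(239/1000),0⟩ ⟨(299/1000),(239/1000),0⟩)
             (.B (279/100) ⟨(299/1000),(239/1000),0⟩ ⟨(299/1000),(49/200),(11/1000)⟩))))
          (.sd (3/16)
           (.sd (5/32)
            (.sd (9/64)
             (.B (279/100) ⟨(299/1000),(239/1000),0⟩ ⟨(299/1000),(51/200),(27/1000)⟩)
             (.sd (19/128)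
              (.B (139/50) ⟨(299/1000),(237/1000),0⟩ ⟨(299/1000),(53/200),(43/1000)⟩)
              (.B (139/50) ⟨(299/1000),(237/1000),0⟩ ⟨(299/1000),(27/100),(6/125)⟩)))
            (.sd (11/64)
             (.sd (21/128)
              (.sd (41/256)
               (.B (277/100) ⟨(299/1000),(47/200),0⟩ ⟨(299/1000),(11/40),(11/200)⟩)
               (.B (277/100) ⟨(299/1000),(47/200),0⟩ ⟨(299/1000),(279/1000),(29/500)⟩))
              (.sd (43/256)
               (.B (277/100) ⟨(299/1000),(47/200),0⟩ ⟨(299/1000),(141/500),(3/50)⟩)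
               (.B (69/25) ⟨(299/1000),(117/500),(1/1000)⟩ ⟨(299/1000),(57/200),(13/200)⟩)))
             (.sd (23/128)
              (.sd (45/256)
               (.B (69/25) ⟨(299/1000),(117/500),(1/1000)⟩ ⟨(299/1000),(36/125),(33/500)⟩)
               (.B (11/4) ⟨(299/1000),(29/125),0⟩ ⟨(299/1000),(29/100),(7/100)⟩))
              (.sd (47/256)
               (.B (11/4) ⟨(299/1000),(29/125),0⟩ ⟨(299/1000),(147/500),(71/1000)⟩)
               (.B (11/4) ⟨(299/1000),(29/125),0⟩ ⟨(3/10),(3/10),(9/125)⟩)))))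
           (.sd (7/32)
            (.sd (13/64)
             (.sd (25/128)
              (.sd (49/256)
               (.B (137/50) ⟨(299/1000),(23/100),0⟩ ⟨(3/10),(3/10),(3/40)⟩)
               (.B (68/25) ⟨(299/1000),(227/1000),0⟩ ⟨(151/500),0,1⟩))
              (.B (27/10) ⟨(299/1000),(28/125),0⟩ ⟨(38/125),0,1⟩))
             (.sd (27/128)
              (.B (53/20) ⟨(73/250),(217/1000),(1/1000)⟩ ⟨(77/250),0,1⟩)
              (.B 0 ⟨(73/250),0,1⟩ ⟨(157/500),0,1⟩)))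
            (.B 0 ⟨(73/250),0,1⟩ ⟨(319/1000),0,1⟩))))
         (.B 0 ⟨(73/250),0,1⟩ ⟨(171/500),0,1⟩)))
       (.A (283/100) ⟨(299/1000),(247/1000),0⟩))
      (.A (29/10) ⟨(299/1000),(33/125),0⟩)))
    (.A (291/100) ⟨(299/1000),(267/1000),0⟩))
   (.st (3/4)
    (.st (5/8)
     (.A (104/25) ⟨(299/1000),(3/10),0⟩)
     (.A 8 ⟨(53/250),(341/1000),0⟩))
    (.A 8 ⟨(53/250),(341/1000),0⟩)))

theorem check4 : check true 3 (1388/125) (37/10) (667/20) tr4 0 1 0 (1/2) = true := by decide +kernel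

def tr5 : Tr :=
  (.st (1/2)
   (.st (1/4)
    (.st (1/8)
     (.sd (1/4)
      (.sd (1/8)
       (.sd (1/16)
        (.sd (1/32)
         (.B (19/10) ⟨(271/1000),(29/200),0⟩ ⟨(167/500),0,1⟩)
         (.B (47/25) ⟨(147/500),(18/125),(3/1000)⟩ ⟨(42/125),0,1⟩))
        (.sd (3/32)
         (.sd (5/64)
          (.B (91/50) ⟨(263/1000),(69/500),0⟩ ⟨(341/1000),0,1⟩)
          (.B (44/25) ⟨(147/500),(133/1000),(1/1000)⟩ ⟨(173/500),0,1⟩))
         (.sd (7/64)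
          (.B (17/10) ⟨(263/1000),(16/125),(3/1000)⟩ ⟨(351/1000),0,1⟩)
          (.B (163/100) ⟨(147/500),(61/500),(1/500)⟩ ⟨(179/500),0,1⟩))))
       (.sd (3/16)
        (.sd (5/32)
         (.B (77/50) ⟨(51/200),(31/250),(71/1000)⟩ ⟨(73/200),0,1⟩)
         (.B (9/25) ⟨(51/200),(157/1000),(411/500)⟩ ⟨(193/500),0,1⟩))
        (.B 0 ⟨(51/200),0,1⟩ ⟨(52/125),0,1⟩)))
      .N)
     (.st (3/16)
      (.st (5/32)
       (.sd (1/4)
        (.sd (1/8)
         (.sd (1/16)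
          (.B (68/25) ⟨(147/500),(243/1000),0⟩ ⟨(147/500),(267/1000),(37/1000)⟩)
          (.sd (3/32)
           (.B (271/100) ⟨(147/500),(241/1000),0⟩ ⟨(147/500),(69/250),(1/20)⟩)
           (.sd (7/64)
            (.B (27/10) ⟨(147/500),(239/1000),0⟩ ⟨(59/200),(36/125),(31/500)⟩)
            (.B (27/10) ⟨(147/500),(239/1000),0⟩ ⟨(37/125),(59/200),(13/200)⟩))))
         (.sd (3/16)
          (.sd (5/32)
           (.sd (9/64)
            (.B (66/25) ⟨(147/500),(229/1000),0⟩ ⟨(301/1000),0,1⟩)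
            (.B (257/100) ⟨(147/500),(219/1000),0⟩ ⟨(307/1000),0,1⟩))
           (.sd (11/64)
            (.B (249/100) ⟨(147/500),(26/125),0⟩ ⟨(157/500),0,1⟩)
            (.B (12/5) ⟨(147/500),(197/1000),(1/1000)⟩ ⟨(161/500),0,1⟩)))
          (.sd (7/32)
           (.B (23/10) ⟨(147/500),(47/250),(11/1000)⟩ ⟨(33/100),0,1⟩)
           (.B (41/20) ⟨(279/1000),(219/1000),(203/1000)⟩ ⟨(44/125),0,1⟩))))
        (.B 0 ⟨(147/500),0,1⟩ ⟨(379/1000),0,1⟩))
       (.A (279/100) ⟨(59/200),(129/500),0⟩))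
      (.A (287/100) ⟨(37/125),(283/1000),0⟩)))
    (.A (61/20) ⟨(37/125),(39/125),0⟩))
   (.A (429/100) ⟨(59/200),(313/1000),0⟩))

theorem check5 : check true 4 (1428/125) (1767/500) (281/10) tr5 0 1 0 (1/2) = true := by decide +kernel

def tr6 : Tr :=
  (.st (1/2)
   (.st (1/4)
    (.st (1/8)
     (.sd (1/4)
      (.sd (1/8)
       (.sd (1/16)
        (.B (7/4) ⟨(27/100),(27/200),0⟩ ⟨(7/20),0,1⟩)
        (.sd (3/32)
         (.B (83/50) ⟨(131/500),(127/1000),0⟩ ⟨(179/500),0,1⟩)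
         (.B (153/100) ⟨(131/500),(29/250),0⟩ ⟨(46/125),0,1⟩)))
       (.sd (3/16)
        (.B (27/20) ⟨(293/1000),(31/250),(21/125)⟩ ⟨(48/125),0,1⟩)
        (.B 0 ⟨(293/1000),0,1⟩ ⟨(447/1000),0,1⟩)))
      .N)
     (.st (3/16)
      (.st (5/32)
       (.sd (1/4)
        (.sd (1/8)
         (.sd (1/16)
          (.B (133/50) ⟨(293/1000),(6/25),0⟩ ⟨(297/1000),0,1⟩)
          (.sd (3/32)
           (.B (259/100) ⟨(293/1000),(229/1000),0⟩ ⟨(151/500),0,1⟩)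
           (.B (5/2) ⟨(293/1000),(43/200),0⟩ ⟨(31/100),0,1⟩)))
         (.sd (3/16)
          (.sd (5/32)
           (.B (119/50) ⟨(143/500),(1/5),(1/1000)⟩ ⟨(8/25),0,1⟩)
           (.B (111/50) ⟨(143/500),(181/1000),0⟩ ⟨(167/500),0,1⟩))
          (.B 2 ⟨(139/500),(187/1000),(3/25)⟩ ⟨(353/1000),0,1⟩)))
        (.B 0 ⟨(293/1000),0,1⟩ ⟨(41/100),0,1⟩))
       (.A (69/25) ⟨(147/500),(261/1000),0⟩))
      (.A (141/50) ⟨(59/200),(279/1000),0⟩)))
    (.A (297/100) ⟨(59/200),(159/500),0⟩))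
   (.A (71/20) ⟨(147/500),(159/500),0⟩))

theorem check6 : check true 5 (58/5) (691/200) (1237/50) tr6 0 1 0 (1/2) = true := by decide +kernel

def tr7 : Tr :=
  (.st (1/2)
   (.st (1/4)
    (.st (1/8)
     (.sd (1/4)
      (.sd (1/8)
       (.sd (1/16)
        (.B (41/25) ⟨(293/1000),(16/125),(3/1000)⟩ ⟨(361/1000),0,1⟩)
        (.sd (3/32)
         (.B (77/50) ⟨(293/1000),(119/1000),(1/1000)⟩ ⟨(369/1000),0,1⟩)
         (.B (141/100) ⟨(293/1000),(27/250),(1/1000)⟩ ⟨(19/50),0,1⟩)))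
       (.B (121/100) ⟨(127/500),(1/8),(249/1000)⟩ ⟨(397/1000),0,1⟩))
      .N)
     (.st (3/16)
      (.st (5/32)
       (.sd (1/4)
        (.sd (1/8)
         (.sd (1/16)
          (.B (249/100) ⟨(293/1000),(109/500),0⟩ ⟨(309/1000),0,1⟩)
          (.B (121/50) ⟨(143/500),(209/1000),(1/1000)⟩ ⟨(63/200),0,1⟩))
         (.sd (3/16)
          (.sd (5/32)
           (.B (219/100) ⟨(143/500),(181/1000),0⟩ ⟨(167/500),0,1⟩)
           (.B (101/50) ⟨(139/500),(41/250),(1/250)⟩ ⟨(349/1000),0,1⟩))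
          (.B (89/50) ⟨(293/1000),(187/1000),(103/500)⟩ ⟨(369/1000),0,1⟩)))
        (.B 0 ⟨(293/1000),0,1⟩ ⟨(219/500),0,1⟩))
       (.A (273/100) ⟨(293/1000),(261/1000),0⟩))
      (.A (279/100) ⟨(147/500),(139/500),0⟩)))
    (.A (291/100) ⟨(147/500),(161/500),0⟩))
   (.A (17/5) ⟨(147/500),(161/500),0⟩))

theorem check7 : check true 6 (11729/1000) (3403/1000) (1129/50) tr7 0 1 0 (1/2) = true := by decide +kernel

def tr8 : Tr :=
  (.st (1/2)
   (.st (1/4)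
    (.st (1/8)
     (.sd (1/4)
      (.sd (1/8)
       (.sd (1/16)
        (.B (39/25) ⟨(131/500),(61/500),0⟩ ⟨(369/1000),0,1⟩)
        (.B (73/50) ⟨(131/500),(57/500),(1/200)⟩ ⟨(377/1000),0,1⟩))
       (.B (11/10) ⟨(123/500),(31/250),(61/200)⟩ ⟨(407/1000),0,1⟩))
      .N)
     (.st (3/16)
      (.sd (1/4)
       (.sd (1/8)
        (.sd (1/16)
         (.B (267/100) ⟨(293/1000),(63/250),0⟩ ⟨(293/1000),(253/1000),(1/1000)⟩)
         (.sd (3/32)
          (.B (267/100) ⟨(293/1000),(63/250),0⟩ ⟨(293/1000),(263/1000),(17/1000)⟩)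
          (.sd (7/64)
           (.B (267/100) ⟨(293/1000),(63/250),0⟩ ⟨(293/1000),(11/40),(33/1000)⟩)
           (.B (133/50) ⟨(293/1000),(1/4),0⟩ ⟨(293/1000),(281/1000),(43/1000)⟩))))
        (.sd (3/16)
         (.sd (5/32)
          (.sd (9/64)
           (.sd (17/128)
            (.B (133/50) ⟨(293/1000),(1/4),0⟩ ⟨(147/500),(29/100),(1/20)⟩)
            (.B (53/20) ⟨(293/1000),(31/125),0⟩ ⟨(147/500),0,1⟩))
           (.sd (19/128)
            (.B (131/50) ⟨(293/1000),(243/1000),0⟩ ⟨(297/1000),0,1⟩)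
            (.B (129/50) ⟨(293/1000),(47/200),0⟩ ⟨(3/10),0,1⟩)))
          (.sd (11/64)
           (.B (127/50) ⟨(293/1000),(229/1000),0⟩ ⟨(303/1000),0,1⟩)
           (.B (123/50) ⟨(293/1000),(217/1000),0⟩ ⟨(31/100),0,1⟩)))
         (.sd (7/32)
          (.sd (13/64)
           (.B (119/50) ⟨(143/500),(207/1000),(1/500)⟩ ⟨(159/500),0,1⟩)
           (.B (227/100) ⟨(143/500),(203/1000),(9/250)⟩ ⟨(163/500),0,1⟩))
          (.B (54/25) ⟨(143/500),(109/500),(31/250)⟩ ⟨(67/200),0,1⟩))))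
       (.sd (3/8)
        (.B (19/10) ⟨(143/500),(1/4),(57/200)⟩ ⟨(179/500),0,1⟩)
        .N))
      (.A (69/25) ⟨(147/500),(11/40),0⟩)))
    (.A (143/50) ⟨(147/500),(81/250),0⟩))
   (.A (329/100) ⟨(147/500),(81/250),0⟩))

theorem check8 : check true 7 (2957/250) (673/200) (2107/100) tr8 0 1 0 (1/2) = true := by decide +kernel

def tr9 : Tr :=
  (.st (1/2)
   (.st (1/4)
    (.st (1/8)
     (.sd (1/4)
      (.sd (1/8)
       (.sd (1/16)
        (.B (3/2) ⟨(73/250),(59/500),(1/1000)⟩ ⟨(3/8),0,1⟩)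
        (.B (139/100) ⟨(73/250),(109/1000),(1/200)⟩ ⟨(48/125),0,1⟩))
       (.B (101/100) ⟨(49/200),(31/250),(357/1000)⟩ ⟨(83/200),0,1⟩))
      .N)
     (.st (3/16)
      (.sd (1/4)
       (.sd (1/8)
        (.sd (1/16)
         (.B (133/50) ⟨(293/1000),(127/500),0⟩ ⟨(293/1000),(67/250),(11/500)⟩)
         (.sd (3/32)
          (.B (133/50) ⟨(293/1000),(127/500),0⟩ ⟨(293/1000),(277/1000),(33/1000)⟩)
          (.sd (7/64)
           (.B (53/20) ⟨(73/250),(251/1000),0⟩ ⟨(147/500),(289/1000),(6/125)⟩)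
           (.B (263/100) ⟨(73/250),(247/1000),0⟩ ⟨(59/200),0,1⟩))))
        (.sd (3/16)
         (.sd (5/32)
          (.sd (9/64)
           (.B (257/100) ⟨(73/250),(237/1000),0⟩ ⟨(3/10),0,1⟩)
           (.B (251/100) ⟨(73/250),(227/1000),0⟩ ⟨(153/500),0,1⟩))
          (.sd (11/64)
           (.B (243/100) ⟨(73/250),(43/200),0⟩ ⟨(39/125),0,1⟩)
           (.B (117/50) ⟨(73/250),(51/250),(1/500)⟩ ⟨(319/1000),0,1⟩)))
         (.sd (7/32)
          (.B (9/4) ⟨(57/200),(193/1000),(3/1000)⟩ ⟨(327/1000),0,1⟩)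
          (.B (203/100) ⟨(57/200),(109/500),(171/1000)⟩ ⟨(173/500),0,1⟩))))
       (.sd (3/8)
        (.B (87/50) ⟨(57/200),(249/1000),(17/50)⟩ ⟨(369/1000),0,1⟩)
        .N))
      (.A (137/50) ⟨(147/500),(273/1000),0⟩)))
    (.A (283/100) ⟨(147/500),(163/500),0⟩))
   (.A (321/100) ⟨(147/500),(163/500),0⟩))

theorem check9 : check true 8 (5953/500) (3337/1000) (499/25) tr9 0 1 0 (1/2) = true := by decide +kernel

def tr10 : Tr :=
  (.st (1/2)
   (.st (1/4)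
    (.st (1/8)
     (.sd (1/4)
      (.sd (1/8)
       (.sd (1/16)
        (.B (171/100) ⟨(279/1000),(73/500),(1/1000)⟩ ⟨(189/500),0,1⟩)
        (.sd (3/32)
         (.B (8/5) ⟨(271/1000),(27/200),0⟩ ⟨(387/1000),0,1⟩)
         (.B (73/50) ⟨(271/1000),(61/500),(1/1000)⟩ ⟨(199/500),0,1⟩)))
       (.sd (3/16)
        (.B (5/4) ⟨(263/1000),(1/8),(163/1000)⟩ ⟨(83/200),0,1⟩)
        .N))
      .N)
     (.st (3/16)
      (.st (5/32)
       (.sd (1/4)
        (.sd (1/8)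
         (.sd (1/16)
          (.B (47/20) ⟨(147/500),(221/1000),0⟩ ⟨(331/1000),0,1⟩)
          (.B (57/25) ⟨(147/500),(211/1000),0⟩ ⟨(337/1000),0,1⟩))
         (.sd (3/16)
          (.B (41/20) ⟨(287/1000),(91/500),0⟩ ⟨(71/200),0,1⟩)
          (.B (161/100) ⟨(147/500),(187/1000),(23/100)⟩ ⟨(39/100),0,1⟩)))
        (.B (1/2) ⟨(279/1000),(1/4),(401/500)⟩ ⟨(239/500),0,1⟩))
       (.sd (1/4)
        (.sd (1/8)
         (.sd (1/16)
          (.B (71/25) ⟨(59/200),(17/50),0⟩ ⟨(59/200),(17/50),0⟩)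
          (.sd (3/32)
           (.B (71/25) ⟨(59/200),(17/50),0⟩ ⟨(59/200),(36/125),0⟩)
           (.sd (7/64)
            (.B (141/50) ⟨(59/200),(17/50),0⟩ ⟨(297/1000),0,1⟩)
            (.B (139/50) ⟨(59/200),(17/50),0⟩ ⟨(301/1000),0,1⟩))))
         (.sd (3/16)
          (.sd (5/32)
           (.sd (9/64)
            (.B (68/25) ⟨(59/200),(31/100),0⟩ ⟨(61/200),0,1⟩)
            (.B (53/20) ⟨(59/200),(279/1000),0⟩ ⟨(31/100),0,1⟩))
           (.sd (11/64)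
            (.B (129/50) ⟨(59/200),(261/1000),0⟩ ⟨(79/250),0,1⟩)
            (.B (5/2) ⟨(147/500),(49/200),0⟩ ⟨(161/500),0,1⟩)))
          (.sd (7/32)
           (.B (121/50) ⟨(147/500),(29/125),(1/1000)⟩ ⟨(33/100),0,1⟩)
           (.B (11/5) ⟨(287/1000),(109/500),(7/125)⟩ ⟨(347/1000),0,1⟩))))
        (.sd (3/8)
         (.B (193/100) ⟨(287/1000),(249/1000),(117/500)⟩ ⟨(46/125),0,1⟩)
         .N)))
      (.st (7/32)
       (.st (13/64)
        (.sd (1/4)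
         (.sd (1/8)
          (.sd (1/16)
           (.B (143/50) ⟨(59/200),(17/50),0⟩ ⟨(59/200),(17/50),0⟩)
           (.B (143/50) ⟨(59/200),(17/50),0⟩ ⟨(59/200),(17/50),0⟩))
          (.sd (3/16)
           (.sd (5/32)
            (.B (143/50) ⟨(59/200),(17/50),0⟩ ⟨(59/200),(17/50),0⟩)
            (.sd (11/64)
             (.B (143/50) ⟨(59/200),(17/50),0⟩ ⟨(59/200),(36/125),0⟩)
             (.B (71/25) ⟨(59/200),(17/50),0⟩ ⟨(297/1000),0,1⟩)))
           (.sd (7/32)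
            (.sd (13/64)
             (.B (69/25) ⟨(37/125),(17/50),0⟩ ⟨(303/1000),0,1⟩)
             (.B (67/25) ⟨(37/125),(289/1000),0⟩ ⟨(31/100),0,1⟩))
            (.B (129/50) ⟨(59/200),(261/1000),0⟩ ⟨(159/500),0,1⟩))))
         (.sd (3/8)
          (.sd (5/16)
           (.B (59/25) ⟨(147/500),(1/4),(13/200)⟩ ⟨(67/200),0,1⟩)
           (.B (8/5) ⟨(313/1000),0,1⟩ ⟨(99/250),0,1⟩))
          .N))
        (.sd (1/4)
         (.sd (1/8)
          (.B (289/100) ⟨(59/200),(17/50),0⟩ ⟨(59/200),(17/50),0⟩)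
          (.sd (3/16)
           (.sd (5/32)
            (.B (289/100) ⟨(59/200),(17/50),0⟩ ⟨(59/200),(17/50),0⟩)
            (.sd (11/64)
             (.B (289/100) ⟨(59/200),(17/50),0⟩ ⟨(59/200),(17/50),0⟩)
             (.B (289/100) ⟨(59/200),(17/50),0⟩ ⟨(59/200),(17/50),0⟩)))
           (.sd (7/32)
            (.sd (13/64)
             (.B (289/100) ⟨(59/200),(17/50),0⟩ ⟨(59/200),(17/50),0⟩)
             (.B (289/100) ⟨(59/200),(17/50),0⟩ ⟨(59/200),(17/50),0⟩))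
            (.sd (15/64)
             (.sd (29/128)
              (.B (289/100) ⟨(59/200),(17/50),0⟩ ⟨(59/200),(36/125),0⟩)
              (.B (289/100) ⟨(59/200),(17/50),0⟩ ⟨(59/200),(17/50),0⟩))
             (.B (57/20) ⟨(59/200),(17/50),0⟩ ⟨(149/500),0,1⟩)))))
         (.sd (3/8)
          (.sd (5/16)
           (.sd (9/32)
            (.sd (17/64)
             (.B (11/4) ⟨(37/125),(17/50),0⟩ ⟨(153/500),0,1⟩)
             (.B (66/25) ⟨(59/200),(69/250),0⟩ ⟨(63/200),0,1⟩))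
            (.B (253/100) ⟨(59/200),(281/1000),(47/1000)⟩ ⟨(81/250),0,1⟩))
           (.B (43/20) ⟨(313/1000),0,1⟩ ⟨(177/500),0,1⟩))
          (.B (21/25) ⟨(3/8),0,1⟩ ⟨(229/500),0,1⟩))))
       (.sd (1/4)
        (.sd (1/8)
         (.B (293/100) ⟨(59/200),(17/50),0⟩ ⟨(59/200),(17/50),0⟩)
         (.sd (3/16)
          (.sd (5/32)
           (.B (293/100) ⟨(59/200),(17/50),0⟩ ⟨(59/200),(17/50),0⟩)
           (.B (293/100) ⟨(59/200),(17/50),0⟩ ⟨(59/200),(17/50),0⟩))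
          (.sd (7/32)
           (.sd (13/64)
            (.B (293/100) ⟨(59/200),(17/50),0⟩ ⟨(59/200),(17/50),0⟩)
            (.B (293/100) ⟨(59/200),(17/50),0⟩ ⟨(59/200),(17/50),0⟩))
           (.sd (15/64)
            (.B (293/100) ⟨(59/200),(17/50),0⟩ ⟨(59/200),(17/50),0⟩)
            (.B (293/100) ⟨(59/200),(17/50),0⟩ ⟨(59/200),(17/50),0⟩)))))
        (.sd (3/8)
         (.sd (5/16)
          (.sd (9/32)
           (.sd (17/64)
            (.sd (33/128)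
             (.B (293/100) ⟨(59/200),(17/50),0⟩ ⟨(59/200),(17/50),0⟩)
             (.B (293/100) ⟨(59/200),(17/50),0⟩ ⟨(59/200),(17/50),0⟩))
            (.sd (35/128)
             (.B (293/100) ⟨(59/200),(17/50),0⟩ ⟨(59/200),(17/50),0⟩)
             (.B (293/100) ⟨(59/200),(17/50),0⟩ ⟨(59/200),(17/50),0⟩)))
           (.sd (19/64)
            (.sd (37/128)
             (.B (293/100) ⟨(59/200),(17/50),0⟩ ⟨(59/200),(17/50),0⟩)
             (.B (293/100) ⟨(59/200),(289/1000),0⟩ ⟨(59/200),(289/1000),0⟩))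
            (.sd (39/128)
             (.B (291/100) ⟨(297/1000),0,1⟩ ⟨(297/1000),0,1⟩)
             (.B (281/100) ⟨(61/200),0,1⟩ ⟨(61/200),0,1⟩))))
          (.B (68/25) ⟨(39/125),0,1⟩ ⟨(39/125),0,1⟩))
         (.B (193/100) ⟨(3/8),0,1⟩ ⟨(3/8),0,1⟩))))))
    (.st (3/8)
     (.st (5/16)
      (.sd (1/4)
       (.sd (1/8)
        (.B (151/50) ⟨(59/200),(17/50),0⟩ ⟨(59/200),(17/50),0⟩)
        (.sd (3/16)
         (.B (151/50) ⟨(59/200),(17/50),0⟩ ⟨(59/200),(17/50),0⟩)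
         (.sd (7/32)
          (.B (151/50) ⟨(59/200),(17/50),0⟩ ⟨(59/200),(17/50),0⟩)
          (.sd (15/64)
           (.B (151/50) ⟨(59/200),(17/50),0⟩ ⟨(59/200),(17/50),0⟩)
           (.B (151/50) ⟨(59/200),(17/50),0⟩ ⟨(59/200),(17/50),0⟩)))))
       (.sd (3/8)
        (.sd (5/16)
         (.sd (9/32)
          (.sd (17/64)
           (.B (151/50) ⟨(59/200),(17/50),0⟩ ⟨(59/200),(17/50),0⟩)
           (.B (151/50) ⟨(59/200),(17/50),0⟩ ⟨(59/200),(17/50),0⟩))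
          (.sd (19/64)
           (.B (151/50) ⟨(59/200),(17/50),0⟩ ⟨(59/200),(17/50),0⟩)
           (.B 3 ⟨(297/1000),0,1⟩ ⟨(297/1000),0,1⟩)))
         (.B (14/5) ⟨(39/125),0,1⟩ ⟨(39/125),0,1⟩))
        (.B (201/100) ⟨(3/8),0,1⟩ ⟨(3/8),0,1⟩)))
      (.A (31/10) ⟨(59/200),(17/50),0⟩))
     (.A (82/25) ⟨(59/200),(17/50),0⟩)))
   (.A (199/50) ⟨(59/200),(17/50),0⟩))

theorem check10 : check false 9 (12567/1000) (3141/1000) (993/50) tr10 0 1 0 (1/2) = true := by decide +kernel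

end Crest.Agent.R215
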