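import Mathlib

/-! Row 215: a checker for the real-inequality step (branch and bound with rational
certificates) and its soundness. -/

set_option autoImplicit false

namespace Crest.Agent.R215

/-- Certificate for an upper bound of `ρ - θ p`. -/
structure Up where
  dc : ℚ
  ds : ℚ
  nu : ℚ

/-- Branch-and-bound tree. -/
inductive Tr where
  | N : Tr
  | U : ℚ → Up → Tr
  | A : ℚ → Up → Tr
  | B : ℚ → Up → Up → Tr
  | st : ℚ → Tr → Tr → Tr
  | sd : ℚ → Tr → Tr → Tr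

def hq (b th a : ℚ) : ℚ := b * a ^ 2 - th * a

def lin (e th X : ℚ) (c : Up) (d : ℚ) : ℚ :=
  c.nu * X + (1 - c.nu) * ((1 - e * c.ds ^ 2) ^ 2 - 4 * e * c.ds * (1 - e * c.ds ^ 2) * (d - c.ds))
    - th * (1 / 2 - d)

def upOnly (e th X : ℚ) (c : Up) : ℚ := max (lin e th X c 0) (lin e th X c c.dc)

def upVal (b e th X : ℚ) (c : Up) : ℚ := max (hq b th (1 / 2 - c.dc)) (upOnly e th X c)

def upOk (e : ℚ) (c : Up) : Bool :=
  decide (0 ≤ c.ds) && decide (0 ≤ c.nu) && decide (c.nu ≤ 1) &&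
    decide (e * (c.dc ^ 2 + 2 * c.dc * c.ds + 3 * c.ds ^ 2) ≤ 2)

def uOne (b e d0 : ℚ) : ℚ := min ((1 - e * d0 ^ 2) ^ 2) (b * (1 / 2 - d0) ^ 2)

def check (ex : Bool) (N b e C : ℚ) : Tr → ℚ → ℚ → ℚ → ℚ → Bool
  | .N, _, t1, d0, _ => decide (0 ≤ d0) && decide (uOne b e d0 - 9 / 8 + C * t1 ^ 2 < 0)
  | .U th c, t0, _, _, _ => ex && upOk e c && decide (1 / 2 - c.dc ≤ t0 / N) &&
      decide (th + (N + 2) * upOnly e th 1 c ≤ 9 / 4)
  | .A th c, t0, t1, _, _ => upOk e c &&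
      (if ex then
        decide (th + max (hq b th (t0 / N)) (hq b th (t1 / N)) +
          (N + 1) * max (max (hq b th (t0 / N)) (hq b th (t1 / N))) (upVal b e th 1 c) ≤ 9 / 4)
      else
        decide (upVal b e th 1 c ≤ hq b th (t1 / N)) && decide (2 * b * (t1 / N) ≤ th) &&
          decide (th + max (-t0 * th) (2 * hq b th (t1 / N) + t0 * (b * (t1 / N) - th)) ≤ 9 / 4))
  | .B th c2 c3, t0, t1, d0, d1 => decide (0 ≤ d0) && decide (0 ≤ th) && upOk e c2 && upOk e c3 &&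
      (if ex then
        decide (uOne b e d0 + th * (d1 + 1 / 2) + max (hq b th (t0 / N)) (hq b th (t1 / N)) +
          max (max (hq b th (t0 / N)) (hq b th (t1 / N))) (upVal b e th (uOne b e d0) c2) +
          (N - 1) * max (max (hq b th (t0 / N)) (hq b th (t1 / N)))
            (upVal b e th (min (uOne b e d0) (uOne b e d0 - 9 / 8 + C * t1 ^ 2)) c3) ≤ 9 / 4)
      else
        decide (upVal b e th (min (uOne b e d0) (uOne b e d0 - 9 / 8 + C * t1 ^ 2)) c3 ≤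
            hq b th (t1 / N)) && decide (2 * b * (t1 / N) ≤ th) &&
          decide (uOne b e d0 + th * (d1 + 1 / 2) + max (-t0 * th)
            (max (hq b th (t1 / N)) (upVal b e th (uOne b e d0) c2) +
              t0 * (b * (t1 / N) - th)) ≤ 9 / 4))
  | .st m l r, t0, t1, d0, d1 => check ex N b e C l t0 m d0 d1 && check ex N b e C r m t1 d0 d1
  | .sd m l r, t0, t1, d0, d1 => check ex N b e C l t0 t1 d0 m && check ex N b e C r t0 t1 m d1

/-- An admissible pair (mass, scaled squared moment). -/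
structure Adm (b e a p ρ : ℝ) : Prop where
  lo : a ≤ p
  hi : p ≤ 1 / 2
  hb : ρ ≤ b * p ^ 2
  hV : ρ ≤ (1 - e * (1 / 2 - p) ^ 2) ^ 2

/-- What the checker refutes. -/
structure Red (n b e C a t p₁ ρ₁ : ℝ) : Prop where
  a_pos : 0 < a
  ht : t = (n - 1) * a
  adm : Adm b e a p₁ ρ₁
  hU : ∀ θ s : ℝ, (∀ p ρ, Adm b e a p ρ → ρ - θ * p ≤ s) → 9 / 4 < θ + (n + 1) * s
  hA : ∀ θ s : ℝ, (∀ p ρ, Adm b e a p ρ → ρ - θ * p ≤ s) →
    9 / 4 < θ + (b * a ^ 2 - θ * a) + n * s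
  hN : 0 ≤ ρ₁ - 9 / 8 + C * t ^ 2
  hB : ∀ θ s₂ s₃ : ℝ, (∀ p ρ, Adm b e a p ρ → ρ ≤ ρ₁ → ρ - θ * p ≤ s₂) →
    (∀ p ρ, Adm b e a p ρ → ρ ≤ ρ₁ → ρ ≤ ρ₁ - 9 / 8 + C * t ^ 2 → ρ - θ * p ≤ s₃) →
    9 / 4 < ρ₁ + θ * (1 - p₁) + (b * a ^ 2 - θ * a) + s₂ + (n - 2) * s₃

lemma quad_le_max {b β x x0 x1 : ℝ} (hb : 0 ≤ b) (h0 : x0 ≤ x) (h1 : x ≤ x1) :
    b * x ^ 2 + β * x ≤ max (b * x0 ^ 2 + β * x0) (b * x1 ^ 2 + β * x1) := by
  by_cases h : b * (x + x0) + β ≤ 0
  · refine le_max_of_le_left ?_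
    nlinarith [mul_nonneg (sub_nonneg.2 h0) (neg_nonneg.2 h)]
  · refine le_max_of_le_right ?_
    push Not at h
    have h2 : 0 ≤ b * (x + x1) + β := by nlinarith [mul_nonneg hb (sub_nonneg.2 (h0.trans h1))]
    nlinarith [mul_nonneg (sub_nonneg.2 h1) h2]

lemma upOnly_sound {e th X : ℚ} {c : Up} (hc : upOk e c = true) (he : 0 ≤ e) {p ρ : ℝ}
    (hlo : (1 / 2 - c.dc : ℝ) ≤ p) (hi : p ≤ 1 / 2) (hV : ρ ≤ (1 - e * (1 / 2 - p) ^ 2) ^ 2)
    (hX : ρ ≤ X) : ρ - th * p ≤ (upOnly e th X c : ℝ) := by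
  simp only [upOk, Bool.and_eq_true, decide_eq_true_eq] at hc
  obtain ⟨⟨⟨h1, h2⟩, h3⟩, h4⟩ := hc
  have h1' : (0 : ℝ) ≤ c.ds := by exact_mod_cast h1
  have h2' : (0 : ℝ) ≤ c.nu := by exact_mod_cast h2
  have h3' : (c.nu : ℝ) ≤ 1 := by exact_mod_cast h3
  have h4' : (e : ℝ) * (c.dc ^ 2 + 2 * c.dc * c.ds + 3 * c.ds ^ 2) ≤ 2 := by exact_mod_cast h4
  have he' : (0 : ℝ) ≤ e := by exact_mod_cast he
  set d : ℝ := 1 / 2 - p with hd
  have hd0 : 0 ≤ d := by linarith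
  have hd1 : d ≤ c.dc := by linarith
  have hp : p = 1 / 2 - d := by linarith
  have h5 : (e : ℝ) * (d ^ 2 + 2 * d * c.ds + 3 * c.ds ^ 2) ≤ 2 := by
    refine le_trans (mul_le_mul_of_nonneg_left ?_ he') h4'
    nlinarith [mul_nonneg h1' (sub_nonneg.2 hd1)]
  have hT : (1 - e * d ^ 2) ^ 2 ≤
      (1 - e * (c.ds : ℝ) ^ 2) ^ 2 - 4 * e * c.ds * (1 - e * (c.ds : ℝ) ^ 2) * (d - c.ds) := by
    have : 0 ≤ (d - c.ds) ^ 2 * e * (2 - e * (d ^ 2 + 2 * d * c.ds + 3 * c.ds ^ 2)) :=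
      mul_nonneg (mul_nonneg (sq_nonneg _) he') (by linarith)
    nlinarith
  have hρ : ρ ≤ c.nu * X + (1 - c.nu) *
      ((1 - e * (c.ds : ℝ) ^ 2) ^ 2 - 4 * e * c.ds * (1 - e * (c.ds : ℝ) ^ 2) * (d - c.ds)) := by
    have := mul_le_mul_of_nonneg_left hX h2'
    have := mul_le_mul_of_nonneg_left (hV.trans hT) (sub_nonneg.2 h3')
    nlinarith
  have key := quad_le_max (b := 0)
    (β := th - (1 - c.nu) * (4 * e * c.ds * (1 - e * (c.ds : ℝ) ^ 2))) le_rfl hd0 hd1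
  simp only [upOnly, lin]
  push_cast
  rw [hp]
  rcases le_max_iff.1 key with h | h
  · refine le_max_of_le_left ?_
    nlinarith
  · refine le_max_of_le_right ?_
    nlinarith

lemma upVal_sound {b e th X : ℚ} {c : Up} (hc : upOk e c = true) (hb : 0 ≤ b) (he : 0 ≤ e)
    {a p ρ : ℝ} (h : Adm b e a p ρ) (hX : ρ ≤ X) :
    ρ - th * p ≤ max (b * a ^ 2 - th * a) (upVal b e th X c : ℝ) := by
  have hb' : (0 : ℝ) ≤ b := by exact_mod_cast hb
  simp only [upVal, hq]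
  push_cast
  rcases le_total p (1 / 2 - c.dc : ℝ) with hp | hp
  · have key := quad_le_max (β := -(th : ℝ)) hb' h.lo hp
    have := h.hb
    rcases le_max_iff.1 key with h' | h'
    · exact le_max_of_le_left (by linarith)
    · exact le_max_of_le_right (le_max_of_le_left (by linarith))
  · exact le_max_of_le_right (le_max_of_le_right (upOnly_sound hc he hp h.hi h.hV hX))

lemma Adm.le_one {b e a p ρ : ℝ} (h : Adm b e a p ρ) (ha : 0 < a) (he0 : 0 ≤ e) (he4 : e ≤ 4) :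
    ρ ≤ 1 := by
  have h1 := h.lo
  have h2 := h.hi
  have h3 : (1 / 2 - p) ^ 2 ≤ 1 / 4 := by nlinarith
  have h4 : 0 ≤ e * (1 / 2 - p) ^ 2 := mul_nonneg he0 (sq_nonneg _)
  have h5 : e * (1 / 2 - p) ^ 2 ≤ 1 := by nlinarith [sq_nonneg (1 / 2 - p)]
  exact h.hV.trans (by nlinarith)

lemma Adm.le_uOne {b e d0 : ℚ} {a p ρ : ℝ} (h : Adm b e a p ρ) (ha : 0 < a) (hb : 0 ≤ b)
    (he0 : 0 ≤ e) (he4 : e ≤ 4) (hd0 : 0 ≤ d0) (hd : (d0 : ℝ) ≤ 1 / 2 - p) :
    ρ ≤ (uOne b e d0 : ℝ) := by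
  have hb' : (0 : ℝ) ≤ b := by exact_mod_cast hb
  have he0' : (0 : ℝ) ≤ e := by exact_mod_cast he0
  have he4' : (e : ℝ) ≤ 4 := by exact_mod_cast he4
  have hd0' : (0 : ℝ) ≤ d0 := by exact_mod_cast hd0
  have h1 := h.lo
  have h2 := h.hi
  simp only [uOne]
  push_cast
  refine le_min (h.hV.trans ?_) (h.hb.trans (mul_le_mul_of_nonneg_left ?_ hb'))
  · have h3 : (1 / 2 - p) ^ 2 ≤ 1 / 4 := by nlinarith
    have h5 : e * (1 / 2 - p) ^ 2 ≤ (1 : ℝ) := by nlinarith [sq_nonneg (1 / 2 - p)]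
    have h6 : (e : ℝ) * d0 ^ 2 ≤ e * (1 / 2 - p) ^ 2 :=
      mul_le_mul_of_nonneg_left (by nlinarith) he0'
    exact pow_le_pow_left₀ (by linarith) (by linarith) 2
  · exact pow_le_pow_left₀ (by linarith) (by linarith) 2

theorem check_sound {ex : Bool} {N b e C : ℚ} (hN : 1 ≤ N) (hb : 0 ≤ b) (he0 : 0 ≤ e)
    (he4 : e ≤ 4) (hC : 0 ≤ C) {n a t p₁ ρ₁ : ℝ} (hn : (N : ℝ) ≤ n - 1)
    (hex : ex = true → n - 1 = N) (R : Red n b e C a t p₁ ρ₁) (tr : Tr) :
    ∀ t0 t1 d0 d1 : ℚ, check ex N b e C tr t0 t1 d0 d1 = true → (t0 : ℝ) ≤ t → t ≤ t1 →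
      (d0 : ℝ) ≤ 1 / 2 - p₁ → 1 / 2 - p₁ ≤ d1 → False := by
  have hN' : (1 : ℝ) ≤ N := by exact_mod_cast hN
  have hN0 : (0 : ℝ) < N := by linarith
  have hb' : (0 : ℝ) ≤ b := by exact_mod_cast hb
  have he0' : (0 : ℝ) ≤ e := by exact_mod_cast he0
  have he4' : (e : ℝ) ≤ 4 := by exact_mod_cast he4
  have hC' : (0 : ℝ) ≤ C := by exact_mod_cast hC
  have ha := R.a_pos
  have ht := R.ht
  have ht0 : 0 ≤ t := by rw [ht]; exact mul_nonneg (by linarith) ha.le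
  have ha1 : ∀ t1 : ℝ, t ≤ t1 → a ≤ t1 / N := fun t1 h => by
    rw [le_div_iff₀ hN0]; nlinarith
  have ha0 : ex = true → ∀ t0 : ℝ, t0 ≤ t → t0 / N ≤ a := fun hx t0 h => by
    rw [div_le_iff₀ hN0, ← hex hx]; linarith
  have hh : ex = true → ∀ (th t0 t1 : ℚ), (t0 : ℝ) ≤ t → t ≤ t1 → (b : ℝ) * a ^ 2 - th * a ≤
      max ((b : ℝ) * (t0 / N) ^ 2 - th * (t0 / N)) (b * (t1 / N) ^ 2 - th * (t1 / N)) :=
    fun hx th t0 t1 h0 h1 => by
      have := quad_le_max (β := -(th : ℝ)) hb' (ha0 hx _ h0) (ha1 _ h1)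
      simpa only [neg_mul, ← sub_eq_add_neg] using this
  have hdec : ∀ (th t1 : ℚ), t ≤ t1 → 2 * (b : ℝ) * (t1 / N) ≤ th →
      (b : ℝ) * (t1 / N) ^ 2 - th * (t1 / N) ≤ b * a ^ 2 - th * a := fun th t1 h1 h2 => by
    have h3 := ha1 _ h1
    have h4 : 0 ≤ (th : ℝ) - b * (t1 / N + a) := by nlinarith [mul_le_mul_of_nonneg_left h3 hb']
    nlinarith [mul_nonneg (sub_nonneg.2 h3) h4]
  have hsq : ∀ t1 : ℝ, t ≤ t1 → (C : ℝ) * t ^ 2 ≤ C * t1 ^ 2 := fun t1 h =>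
    mul_le_mul_of_nonneg_left (pow_le_pow_left₀ ht0 h 2) hC'
  induction tr with
  | N =>
    intro t0 t1 d0 d1 hc h0 h1 h2 h3
    simp only [check, Bool.and_eq_true, decide_eq_true_eq] at hc
    have hu := R.adm.le_uOne ha hb he0 he4 hc.1 h2
    have h4 := (Rat.cast_lt (K := ℝ)).2 hc.2
    push_cast at h4
    have := R.hN
    have := hsq _ h1
    linarith
  | U th c =>
    intro t0 t1 d0 d1 hc h0 h1 h2 h3
    simp only [check, Bool.and_eq_true, decide_eq_true_eq] at hc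
    obtain ⟨⟨⟨hx, hok⟩, h4⟩, h5⟩ := hc
    have h4' := (Rat.cast_le (K := ℝ)).2 h4
    have h5' := (Rat.cast_le (K := ℝ)).2 h5
    push_cast at h4' h5'
    have := R.hU th (upOnly e th 1 c : ℝ) fun p ρ h =>
      upOnly_sound hok he0 (h4'.trans ((ha0 hx _ h0).trans h.lo)) h.hi h.hV
        (by simpa using h.le_one ha he0' he4')
    have hn' : n + 1 = N + 2 := by linarith [hex hx]
    rw [hn'] at this
    linarith
  | A th c =>
    intro t0 t1 d0 d1 hc h0 h1 h2 h3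
    simp only [check, Bool.and_eq_true] at hc
    obtain ⟨hok, hc⟩ := hc
    have hs : ∀ p ρ, Adm b e a p ρ →
        ρ - th * p ≤ max (b * a ^ 2 - th * a) (upVal b e th 1 c : ℝ) := fun p ρ h =>
      upVal_sound hok hb he0 h (by simpa using h.le_one ha he0' he4')
    have key := R.hA th _ hs
    cases ex with
    | true =>
      simp only [if_true, decide_eq_true_eq, hq] at hc
      have hc' := (Rat.cast_le (K := ℝ)).2 hc
      push_cast at hc'
      have h5 := hh rfl th t0 t1 h0 h1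
      have hn' : n = N + 1 := by linarith [hex rfl]
      have h6 := mul_le_mul_of_nonneg_left (max_le_max_right (upVal b e th 1 c : ℝ) h5)
        (show (0 : ℝ) ≤ N + 1 by linarith)
      rw [hn'] at key
      linarith
    | false =>
      simp only [Bool.false_eq_true, if_false, Bool.and_eq_true, decide_eq_true_eq, hq] at hc
      obtain ⟨⟨h4, h5⟩, h6⟩ := hc
      have h4' := (Rat.cast_le (K := ℝ)).2 h4
      have h5' := (Rat.cast_le (K := ℝ)).2 h5
      have h6' := (Rat.cast_le (K := ℝ)).2 h6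
      push_cast at h4' h5' h6'
      rw [max_eq_left (h4'.trans (hdec th t1 h1 h5'))] at key
      have h7 := quad_le_max (b := 2 * (b : ℝ)) (β := t * b - 2 * th) (by linarith) ha.le (ha1 _ h1)
      have h8 : 0 ≤ (b : ℝ) * (t1 / N) := mul_nonneg hb' (ha.le.trans (ha1 _ h1))
      have h9 : n * ((b : ℝ) * a ^ 2 - th * a) = t * (b * a - th) + (b * a ^ 2 - th * a) := by
        rw [ht]; ring
      have h10 := le_max_left (-(t0 : ℝ) * th)
        (2 * (b * (t1 / N : ℝ) ^ 2 - th * (t1 / N)) + t0 * (b * (t1 / N) - th))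
      have h11 := le_max_right (-(t0 : ℝ) * th)
        (2 * (b * (t1 / N : ℝ) ^ 2 - th * (t1 / N)) + t0 * (b * (t1 / N) - th))
      rcases le_max_iff.1 h7 with h | h
      · nlinarith [mul_nonneg (sub_nonneg.2 h0) (show (0 : ℝ) ≤ th by linarith)]
      · nlinarith [mul_nonneg (sub_nonneg.2 h0) (show (0 : ℝ) ≤ th - b * (t1 / N) by linarith)]
  | B th c2 c3 =>
    intro t0 t1 d0 d1 hc h0 h1 h2 h3
    simp only [check, Bool.and_eq_true, decide_eq_true_eq] at hc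
    obtain ⟨⟨⟨⟨hd0, hth⟩, hok2⟩, hok3⟩, hc⟩ := hc
    have hth' : (0 : ℝ) ≤ th := by exact_mod_cast hth
    have hu := R.adm.le_uOne ha hb he0 he4 hd0 h2
    have key := R.hB th _ _
      (fun p ρ h hρ => upVal_sound (X := uOne b e d0) hok2 hb he0 h (hρ.trans hu))
      (fun p ρ h hρ hρ' => upVal_sound
        (X := min (uOne b e d0) (uOne b e d0 - 9 / 8 + C * t1 ^ 2)) hok3 hb he0 h (by
          push_cast
          exact le_min (hρ.trans hu) (by linarith [hsq _ h1])))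
    have hθ : (th : ℝ) * (1 - p₁) ≤ th * (d1 + 1 / 2) :=
      mul_le_mul_of_nonneg_left (by linarith) hth'
    cases ex with
    | true =>
      simp only [if_true, decide_eq_true_eq, hq] at hc
      have hc' := (Rat.cast_le (K := ℝ)).2 hc
      push_cast at hc'
      have h5 := hh rfl th t0 t1 h0 h1
      have hn' : n - 2 = N - 1 := by linarith [hex rfl]
      have h6 := mul_le_mul_of_nonneg_left (max_le_max_right
        (upVal b e th (min (uOne b e d0) (uOne b e d0 - 9 / 8 + C * t1 ^ 2)) c3 : ℝ) h5)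
        (show (0 : ℝ) ≤ N - 1 by linarith)
      have h7 := max_le_max_right (upVal b e th (uOne b e d0) c2 : ℝ) h5
      rw [hn'] at key
      linarith
    | false =>
      simp only [Bool.false_eq_true, if_false, Bool.and_eq_true, decide_eq_true_eq, hq] at hc
      obtain ⟨⟨h4, h5⟩, h6⟩ := hc
      have h4' := (Rat.cast_le (K := ℝ)).2 h4
      have h5' := (Rat.cast_le (K := ℝ)).2 h5
      have h6' := (Rat.cast_le (K := ℝ)).2 h6
      push_cast at h4' h5' h6'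
      rw [max_eq_left (h4'.trans (hdec th t1 h1 h5'))] at key
      have h7 := quad_le_max (b := (b : ℝ)) (β := t * b - th) hb' ha.le (ha1 _ h1)
      have h8 : 0 ≤ (b : ℝ) * (t1 / N) := mul_nonneg hb' (ha.le.trans (ha1 _ h1))
      have h9 : (n - 2) * ((b : ℝ) * a ^ 2 - th * a) =
          t * (b * a - th) - (b * a ^ 2 - th * a) := by
        rw [ht]; ring
      set s2 : ℝ := (upVal b e th (uOne b e d0) c2 : ℝ)
      set h1v : ℝ := b * (t1 / N : ℝ) ^ 2 - th * (t1 / N) with hh1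
      have h10 := le_max_left (-(t0 : ℝ) * th) (max h1v s2 + t0 * (b * (t1 / N) - th))
      have h11 := le_max_right (-(t0 : ℝ) * th) (max h1v s2 + t0 * (b * (t1 / N) - th))
      have h12 := le_max_left h1v s2
      have h13 := le_max_right h1v s2
      have h14 := mul_nonneg (sub_nonneg.2 h0) hth'
      have h15 := mul_nonneg (sub_nonneg.2 h0) (show (0 : ℝ) ≤ th - b * (t1 / N) by linarith)
      have h16 := mul_nonneg ht0 (mul_nonneg hb' (sub_nonneg.2 (ha1 _ h1)))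
      rcases le_total ((b : ℝ) * a ^ 2 - th * a) s2 with hm | hm
      · rw [max_eq_right hm] at key
        nlinarith
      · rw [max_eq_left hm] at key
        rcases le_max_iff.1 h7 with h | h
        · nlinarith
        · nlinarith
  | st m l r ihl ihr =>
    intro t0 t1 d0 d1 hc h0 h1 h2 h3
    simp only [check, Bool.and_eq_true] at hc
    rcases le_total t m with h | h
    · exact ihl _ _ _ _ hc.1 h0 h h2 h3
    · exact ihr _ _ _ _ hc.2 h h1 h2 h3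
  | sd m l r ihl ihr =>
    intro t0 t1 d0 d1 hc h0 h1 h2 h3
    simp only [check, Bool.and_eq_true] at hc
    rcases le_total (1 / 2 - p₁) m with h | h
    · exact ihl _ _ _ _ hc.1 h0 h1 h2 h
    · exact ihr _ _ _ _ hc.2 h0 h1 h h3

end Crest.Agent.R215
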