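import Crest.Agent.R215.Const

/-! Row 215: Gaussian density, Prékopa–Leindler on `V`, and polar coordinates for homogeneous
functions. -/

set_option autoImplicit false

open MeasureTheory ProbabilityTheory Set Module
open scoped RealInnerProductSpace

namespace Crest.Agent.R215

variable {V : Type*} [NormedAddCommGroup V] [InnerProductSpace ℝ V] [FiniteDimensional ℝ V]
  [MeasurableSpace V] [BorelSpace V]

theorem integrable_gauss_weight : Integrable fun x : V => Real.exp (-‖x‖ ^ 2 / 2) := by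
  have h := (GaussianFourier.integrable_cexp_neg_mul_sq_norm_add (V := V) (b := 1 / 2)
    (by norm_num) 0 0).norm
  refine h.congr (Filter.Eventually.of_forall fun x => ?_)
  simp only [zero_mul, add_zero, Complex.norm_exp]
  congr 1
  have : -(1 / 2 : ℂ) * (‖x‖ : ℂ) ^ 2 = ((-‖x‖ ^ 2 / 2 : ℝ) : ℂ) := by push_cast; ring
  rw [this, Complex.ofReal_re]

/-- The density of the standard Gaussian (orthonormal coordinates,
`OrthonormalBasis.measurePreserving_repr_symm`, product of the one-dimensional densities). -/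
theorem stdGaussian_eq_withDensity :
    stdGaussian V = (volume : Measure V).withDensity fun x =>
      ENNReal.ofReal ((√(2 * Real.pi))⁻¹ ^ finrank ℝ V * Real.exp (-‖x‖ ^ 2 / 2)) := by
  set c : ℝ := (√(2 * Real.pi))⁻¹ ^ finrank ℝ V with hc
  have hc0 : 0 ≤ c := by positivity
  have hint : Integrable fun x : V => c * Real.exp (-‖x‖ ^ 2 / 2) :=
    integrable_gauss_weight.const_mul c
  haveI : IsFiniteMeasure ((volume : Measure V).withDensity fun x =>
      ENNReal.ofReal (c * Real.exp (-‖x‖ ^ 2 / 2))) :=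
    isFiniteMeasure_withDensity_ofReal hint.2
  apply Measure.ext_of_charFun
  ext t
  rw [charFun_stdGaussian, charFun_apply,
    integral_withDensity_eq_integral_toReal_smul (by fun_prop)
      (Filter.Eventually.of_forall fun _ => ENNReal.ofReal_lt_top)]
  have h1 : ∀ x : V, (ENNReal.ofReal (c * Real.exp (-‖x‖ ^ 2 / 2))).toReal •
      Complex.exp ((⟪x, t⟫ : ℝ) * Complex.I) =
      (c : ℂ) * Complex.exp (-(1 / 2 : ℂ) * (‖x‖ : ℂ) ^ 2 + Complex.I * (⟪t, x⟫ : ℝ)) := by
    intro x
    rw [ENNReal.toReal_ofReal (by positivity), Complex.real_smul, Complex.exp_add,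
      real_inner_comm]
    push_cast
    rw [mul_assoc, mul_comm Complex.I]
    congr 3
    ring
  simp_rw [h1]
  rw [integral_const_mul, GaussianFourier.integral_cexp_neg_mul_sq_norm_add (by norm_num)]
  have h2 : (c : ℂ) * ((Real.pi : ℂ) / (1 / 2)) ^ ((finrank ℝ V : ℂ) / 2) = 1 := by
    have h3 : ((Real.pi : ℂ) / (1 / 2)) = ((2 * Real.pi : ℝ) : ℂ) := by push_cast; ring
    have h4 : ((finrank ℝ V : ℂ) / 2) = (((finrank ℝ V : ℝ) / 2 : ℝ) : ℂ) := by push_cast; ring
    rw [h3, h4, ← Complex.ofReal_cpow (by positivity), ← Complex.ofReal_mul, hc]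
    have h5 : (2 * Real.pi) ^ ((finrank ℝ V : ℝ) / 2) = √(2 * Real.pi) ^ finrank ℝ V := by
      rw [Real.sqrt_eq_rpow, ← Real.rpow_natCast, ← Real.rpow_mul (by positivity)]
      congr 1
      ring
    rw [h5, ← mul_pow, inv_mul_cancel₀ (by positivity)]
    simp
  rw [← mul_assoc, h2, one_mul]
  congr 1
  rw [Complex.I_sq]
  ring

theorem integral_stdGaussian (f : V → ℝ) :
    ∫ x, f x ∂stdGaussian V =
      (√(2 * Real.pi))⁻¹ ^ finrank ℝ V * ∫ x, f x * Real.exp (-‖x‖ ^ 2 / 2) := by
  rw [stdGaussian_eq_withDensity,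
    integral_withDensity_eq_integral_toReal_smul (by fun_prop)
      (Filter.Eventually.of_forall fun _ => ENNReal.ofReal_lt_top), ← integral_const_mul]
  congr 1
  ext x
  rw [ENNReal.toReal_ofReal (by positivity), smul_eq_mul]
  ring

theorem integrable_stdGaussian_iff (f : V → ℝ) :
    Integrable f (stdGaussian V) ↔ Integrable fun x => f x * Real.exp (-‖x‖ ^ 2 / 2) := by
  rw [stdGaussian_eq_withDensity,
    integrable_withDensity_iff_integrable_smul' (by fun_prop)
      (Filter.Eventually.of_forall fun _ => ENNReal.ofReal_lt_top)]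
  have hc : (√(2 * Real.pi))⁻¹ ^ finrank ℝ V ≠ 0 := by positivity
  rw [← integrable_const_mul_iff (IsUnit.mk0 _ hc) fun x => f x * Real.exp (-‖x‖ ^ 2 / 2)]
  apply integrable_congr
  refine Filter.Eventually.of_forall fun x => ?_
  simp only
  rw [ENNReal.toReal_ofReal (by positivity), smul_eq_mul]
  ring

/-- Prékopa–Leindler for the volume of `V` (`hasPL_euclidean` and `HasPL.of_map`). -/
theorem hasPL_volume {t : ℝ} (ht0 : 0 < t) (ht1 : t < 1) :
    Crest.Agent.Lib.PL.HasPL (volume : Measure V) t := by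
  refine (Crest.Agent.Lib.PL.hasPL_euclidean ht0 ht1 (finrank ℝ V)).of_map
    (stdOrthonormalBasis ℝ V).measurePreserving_repr_symm fun x y => ?_
  simp

/-- The integral over the unit sphere. -/
noncomputable def sph (f : V → ℝ) : ℝ :=
  ∫ θ : Metric.sphere (0 : V) 1, f θ ∂(volume : Measure V).toSphere

/-- Polar coordinates (`Measure.measurePreserving_homeomorphUnitSphereProd`). -/
theorem polar (hn : 1 ≤ finrank ℝ V) (j : ℕ) (f : V → ℝ) (hf : Measurable f) (hh : Homog j f)
    (C : ℝ) (hb : ∀ x, ‖x‖ = 1 → |f x| ≤ C) (h : ℝ → ℝ) (hm : Measurable h)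
    (hi : IntegrableOn (fun r => r ^ (finrank ℝ V - 1 + j) * h r) (Ioi 0)) :
    Integrable (fun x => f x * h ‖x‖) ∧
      ∫ x, f x * h ‖x‖ = sph f * ∫ r in Ioi (0 : ℝ), r ^ (finrank ℝ V - 1 + j) * h r := by
  haveI : Nontrivial V := Module.nontrivial_of_finrank_pos (R := ℝ) (by omega)
  set n := finrank ℝ V - 1 with hn'
  set G : Metric.sphere (0 : V) 1 × Ioi (0 : ℝ) → ℝ :=
    fun p => f p.1 * (p.2.1 ^ j * h p.2.1) with hG
  have hcomp : ∀ x : ({(0 : V)}ᶜ : Set V),
      G (homeomorphUnitSphereProd V x) = f x * h ‖(x : V)‖ := by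
    intro x
    have hx : (0 : ℝ) < ‖(x : V)‖ := norm_pos_iff.2 x.2
    simp only [hG, homeomorphUnitSphereProd_apply_snd_coe, homeomorphUnitSphereProd_apply_fst_coe]
    have : f x = ‖(x : V)‖ ^ j * f (‖(x : V)‖⁻¹ • (x : V)) := by
      rw [← hh _ hx, smul_inv_smul₀ hx.ne']
    rw [this]
    ring
  have hf1 : Integrable (fun θ : Metric.sphere (0 : V) 1 => f θ) (volume : Measure V).toSphere := by
    refine Integrable.of_bound (hf.comp measurable_subtype_coe).aestronglyMeasurable C
      (Filter.Eventually.of_forall fun θ => ?_)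
    exact hb θ (by simpa using θ.2)
  have hmeas : Measurable fun r : Ioi (0 : ℝ) => ENNReal.ofReal (r.1 ^ n) := by fun_prop
  have hsm : ∀ r : Ioi (0 : ℝ), (ENNReal.ofReal (r.1 ^ n)).toReal • (r.1 ^ j * h r.1) =
      r.1 ^ (n + j) * h r.1 := by
    rintro ⟨r, hr : 0 < r⟩
    rw [ENNReal.toReal_ofReal (by positivity), smul_eq_mul, pow_add]
    ring
  have hh1 : Integrable (fun r : Ioi (0 : ℝ) => r.1 ^ j * h r.1) (Measure.volumeIoiPow n) := by
    rw [Measure.volumeIoiPow, integrable_withDensity_iff_integrable_smul' hmeas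
      (Filter.Eventually.of_forall fun _ => ENNReal.ofReal_lt_top)]
    simp_rw [hsm]
    exact (integrableOn_iff_comap_subtypeVal measurableSet_Ioi).1 hi
  have hh2 : ∫ r : Ioi (0 : ℝ), r.1 ^ j * h r.1 ∂Measure.volumeIoiPow n =
      ∫ r in Ioi (0 : ℝ), r ^ (n + j) * h r := by
    rw [Measure.volumeIoiPow, integral_withDensity_eq_integral_toReal_smul hmeas
      (Filter.Eventually.of_forall fun _ => ENNReal.ofReal_lt_top)]
    simp_rw [hsm]
    exact integral_subtype_comap measurableSet_Ioi fun r => r ^ (n + j) * h r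
  have hGi : Integrable G ((volume : Measure V).toSphere.prod (Measure.volumeIoiPow n)) :=
    hf1.mul_prod hh1
  have hmp := (volume : Measure V).measurePreserving_homeomorphUnitSphereProd
  constructor
  · have h1 := (hmp.integrable_comp_emb (g := G) (Homeomorph.measurableEmbedding _)).2 hGi
    rw [← restrict_compl_singleton (μ := volume) (0 : V), ← IntegrableOn,
      integrableOn_iff_comap_subtypeVal (measurableSet_singleton _).compl]
    refine h1.congr (Filter.Eventually.of_forall fun x => ?_)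
    exact hcomp x
  · calc ∫ x, f x * h ‖x‖
        = ∫ x : ({(0 : V)}ᶜ : Set V), f x * h ‖(x : V)‖ ∂((volume : Measure V).comap (↑)) := by
          rw [integral_subtype_comap (measurableSet_singleton _).compl fun x => f x * h ‖x‖,
            restrict_compl_singleton]
      _ = ∫ p, G p ∂((volume : Measure V).toSphere.prod (Measure.volumeIoiPow n)) := by
          rw [← hmp.integral_comp (Homeomorph.measurableEmbedding _) G]
          simp_rw [hcomp]
      _ = _ := by
          rw [hG, integral_prod_mul (fun θ : Metric.sphere (0 : V) 1 => f θ)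
            (fun r : Ioi (0 : ℝ) => r.1 ^ j * h r.1), hh2]
          rfl

variable (V) in
/-- Total mass of `e^{-‖x‖} dx`. -/
noncomputable def NV : ℝ := ∫ x : V, Real.exp (-‖x‖)

theorem integral_pow_exp (m : ℕ) :
    ∫ r in Ioi (0 : ℝ), r ^ m * Real.exp (-r) = m.factorial := by
  rw [← Real.Gamma_nat_eq_factorial, Real.Gamma_eq_integral (by positivity)]
  refine setIntegral_congr_fun measurableSet_Ioi fun x _ => ?_
  simp only [add_sub_cancel_right, Real.rpow_natCast]
  ring

theorem integrableOn_pow_exp (m : ℕ) :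
    IntegrableOn (fun r : ℝ => r ^ m * Real.exp (-r)) (Ioi 0) := by
  refine (Real.GammaIntegral_convergent (s := m + 1) (by positivity)).congr_fun
    (fun x _ => ?_) measurableSet_Ioi
  simp only [add_sub_cancel_right, Real.rpow_natCast]
  ring

theorem polar_exp (hn : 1 ≤ finrank ℝ V) {j : ℕ} {f : V → ℝ} (hf : Measurable f)
    (hh : Homog j f) {C : ℝ} (hb : ∀ x, ‖x‖ = 1 → |f x| ≤ C) :
    Integrable (fun x => f x * Real.exp (-‖x‖)) ∧
      ∫ x, f x * Real.exp (-‖x‖) = sph f * (finrank ℝ V - 1 + j).factorial := by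
  have h := polar hn j f hf hh C hb (fun r => Real.exp (-r)) (by fun_prop)
    (integrableOn_pow_exp _)
  rwa [integral_pow_exp] at h

theorem polar_gauss (hn : 1 ≤ finrank ℝ V) {j : ℕ} {f : V → ℝ} (hf : Measurable f)
    (hh : Homog j f) {C : ℝ} (hb : ∀ x, ‖x‖ = 1 → |f x| ≤ C) (k : ℕ) :
    Integrable (fun x => ‖x‖ ^ k * f x) (stdGaussian V) ∧
      ∫ x, ‖x‖ ^ k * f x ∂stdGaussian V =
        (√(2 * Real.pi))⁻¹ ^ finrank ℝ V * (sph f * Mo (finrank ℝ V - 1 + j + k)) := by
  have e : ∀ r : ℝ, r ^ (finrank ℝ V - 1 + j) * (r ^ k * Real.exp (-r ^ 2 / 2)) =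
      r ^ (finrank ℝ V - 1 + j + k) * Real.exp (-r ^ 2 / 2) := by
    intro r
    rw [pow_add r (finrank ℝ V - 1 + j) k]
    ring
  have h := polar hn j f hf hh C hb (fun r => r ^ k * Real.exp (-r ^ 2 / 2)) (by fun_prop)
    (by simp_rw [e]; exact integrableOn_Mo _)
  simp_rw [e] at h
  have e2 : ∀ x : V, ‖x‖ ^ k * f x * Real.exp (-‖x‖ ^ 2 / 2) =
      f x * (‖x‖ ^ k * Real.exp (-‖x‖ ^ 2 / 2)) := fun x => by ring
  rw [integrable_stdGaussian_iff, integral_stdGaussian]
  simp_rw [e2]
  exact ⟨h.1, by rw [h.2]; rfl⟩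

theorem polar_gauss0 (hn : 1 ≤ finrank ℝ V) {j : ℕ} {f : V → ℝ} (hf : Measurable f)
    (hh : Homog j f) {C : ℝ} (hb : ∀ x, ‖x‖ = 1 → |f x| ≤ C) :
    ∫ x, f x ∂stdGaussian V =
      (√(2 * Real.pi))⁻¹ ^ finrank ℝ V * (sph f * Mo (finrank ℝ V - 1 + j)) := by
  simpa using (polar_gauss hn hf hh hb 0).2

theorem sph_one_gauss (hn : 1 ≤ finrank ℝ V) :
    (√(2 * Real.pi))⁻¹ ^ finrank ℝ V * (sph (fun _ : V => (1 : ℝ)) * Mo (finrank ℝ V - 1)) = 1 := by
  have h := polar_gauss0 hn (j := 0) (f := fun _ : V => (1 : ℝ)) measurable_const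
    (fun t _ x => by simp) (C := 1) (fun x _ => by simp)
  simpa using h.symm

theorem NV_eq (hn : 1 ≤ finrank ℝ V) :
    NV V = sph (fun _ : V => (1 : ℝ)) * (finrank ℝ V - 1).factorial := by
  have h := (polar_exp hn (j := 0) (f := fun _ : V => (1 : ℝ)) measurable_const
    (fun t _ x => by simp) (C := 1) (fun x _ => by simp)).2
  simpa [NV] using h

theorem NV_pos (hn : 1 ≤ finrank ℝ V) : 0 < NV V := by
  have h := (polar_exp hn (j := 0) (f := fun _ : V => (1 : ℝ)) measurable_const
    (fun t _ x => by simp) (C := 1) (fun x _ => by simp)).1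
  simp only [one_mul] at h
  unfold NV
  rw [integral_pos_iff_support_of_nonneg (fun x => (Real.exp_pos _).le) h]
  have : Function.support (fun x : V => Real.exp (-‖x‖)) = univ := by
    ext x
    simp
  rw [this]
  exact isOpen_univ.measure_pos _ univ_nonempty

section

variable (hn : 1 ≤ finrank ℝ V) {j : ℕ} {f : V → ℝ} (hf : Measurable f) (hh : Homog j f)
  {C : ℝ} (hb : ∀ x, ‖x‖ = 1 → |f x| ≤ C)
include hn hf hh hb

theorem Homog.integrable_gauss : Integrable f (stdGaussian V) := by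
  simpa using (polar_gauss hn hf hh hb 0).1

theorem Homog.integrable_exp : Integrable fun x => f x * Real.exp (-‖x‖) := by
  exact (polar_exp hn hf hh hb).1

end

section

variable (hn : 1 ≤ finrank ℝ V) {f : V → ℝ} (hf : Measurable f)
  {C : ℝ} (hb : ∀ x, ‖x‖ = 1 → |f x| ≤ C)
include hn hf hb

/-! In the next five statements use `polar` for the weights `e^{-r}` (`∫ r^m e^{-r} = m!`) and
`e^{-r²/2}` (`Mo`), the normalisation `∫ 1 dγ = 1`, `NV V = sph 1 * (n-1)!` and `Mo_add_two`. -/

theorem exp_hom0 (hh : Homog 0 f) :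
    ∫ x, f x * Real.exp (-‖x‖) = NV V * ∫ x, f x ∂stdGaussian V := by
  rw [(polar_exp hn hf hh hb).2, polar_gauss0 hn hf hh hb, NV_eq hn]
  have h := sph_one_gauss (V := V) hn
  simp only [add_zero]
  linear_combination (-(sph f * ((finrank ℝ V - 1).factorial : ℝ))) * h

theorem exp_hom1 (hh : Homog 1 f) :
    aN (finrank ℝ V) * ∫ x, f x * Real.exp (-‖x‖) =
      finrank ℝ V * NV V * ∫ x, f x ∂stdGaussian V := by
  rw [(polar_exp hn hf hh hb).2, polar_gauss0 hn hf hh hb, NV_eq hn]
  have h := sph_one_gauss (V := V) hn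
  obtain ⟨m, hm⟩ : ∃ m, finrank ℝ V = m + 1 := ⟨finrank ℝ V - 1, by omega⟩
  have hp := (Mo_pos m).ne'
  rw [hm] at h ⊢
  simp only [aN, add_tsub_cancel_right, Nat.factorial_succ] at h ⊢
  push_cast
  field_simp
  linear_combination (-(Mo (m + 1) * sph f)) * h

theorem exp_hom2 (hh : Homog 2 f) :
    ∫ x, f x * Real.exp (-‖x‖) = (finrank ℝ V + 1) * NV V * ∫ x, f x ∂stdGaussian V := by
  rw [(polar_exp hn hf hh hb).2, polar_gauss0 hn hf hh hb, NV_eq hn, Mo_add_two]
  have h := sph_one_gauss (V := V) hn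
  obtain ⟨m, hm⟩ : ∃ m, finrank ℝ V = m + 1 := ⟨finrank ℝ V - 1, by omega⟩
  rw [hm] at h ⊢
  simp only [add_tsub_cancel_right, Nat.factorial_succ] at h ⊢
  push_cast
  linear_combination (-(sph f * ((m : ℝ) + 1 + 1) * (m + 1) * (m.factorial : ℝ))) * h

theorem gauss_norm_mul (hh : Homog 0 f) :
    ∫ x, ‖x‖ * f x ∂stdGaussian V = aN (finrank ℝ V) * ∫ x, f x ∂stdGaussian V := by
  have h1 := (polar_gauss hn hf hh hb 1).2
  simp only [pow_one] at h1
  rw [h1, polar_gauss0 hn hf hh hb]
  obtain ⟨m, hm⟩ : ∃ m, finrank ℝ V = m + 1 := ⟨finrank ℝ V - 1, by omega⟩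
  have hp := (Mo_pos m).ne'
  rw [hm]
  simp only [aN, add_tsub_cancel_right, add_zero]
  field_simp

theorem gauss_norm_sq_mul (hh : Homog 0 f) :
    ∫ x, ‖x‖ ^ 2 * f x ∂stdGaussian V = finrank ℝ V * ∫ x, f x ∂stdGaussian V := by
  rw [(polar_gauss hn hf hh hb 2).2, polar_gauss0 hn hf hh hb, Mo_add_two]
  obtain ⟨m, hm⟩ : ∃ m, finrank ℝ V = m + 1 := ⟨finrank ℝ V - 1, by omega⟩
  rw [hm]
  simp only [add_tsub_cancel_right, add_zero]
  push_cast
  ring

end

omit [FiniteDimensional ℝ V] [MeasurableSpace V] [BorelSpace V] in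
theorem homog_indicator {A : Set V} (hc : IsCone A) :
    Homog 0 (A.indicator fun _ => (1 : ℝ)) := by
  intro t ht x
  have : t • x ∈ A ↔ x ∈ A := by
    refine ⟨fun h => ?_, hc t ht x⟩
    have := hc t⁻¹ (inv_pos.2 ht) _ h
    rwa [inv_smul_smul₀ ht.ne'] at this
  by_cases hx : x ∈ A
  · simp [hx, this.2 hx]
  · simp [hx, mt this.1 hx]

theorem abs_indicator_one_le {X : Type*} (A : Set X) (x : X) :
    |A.indicator (fun _ => (1 : ℝ)) x| ≤ 1 := by
  by_cases hx : x ∈ A <;> simp [hx]

theorem cone_norm (hn : 1 ≤ finrank ℝ V) {A : Set V} (hA : MeasurableSet A) (hc : IsCone A) :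
    ∫ x in A, ‖x‖ ∂stdGaussian V = aN (finrank ℝ V) * (stdGaussian V).real A := by
  have h := gauss_norm_mul hn (f := A.indicator fun _ => (1 : ℝ))
    (measurable_const.indicator hA) (C := 1) (fun x _ => abs_indicator_one_le A x)
    (homog_indicator hc)
  rw [integral_indicator hA] at h
  simp only [integral_const, measureReal_restrict_apply_univ, smul_eq_mul, mul_one] at h
  rw [← h, ← integral_indicator hA]
  congr 1
  ext x
  by_cases hx : x ∈ A <;> simp [hx]

theorem cone_norm_sq (hn : 1 ≤ finrank ℝ V) {A : Set V} (hA : MeasurableSet A) (hc : IsCone A) :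
    ∫ x in A, ‖x‖ ^ 2 ∂stdGaussian V = finrank ℝ V * (stdGaussian V).real A := by
  have h := gauss_norm_sq_mul hn (f := A.indicator fun _ => (1 : ℝ))
    (measurable_const.indicator hA) (C := 1) (fun x _ => abs_indicator_one_le A x)
    (homog_indicator hc)
  rw [integral_indicator hA] at h
  simp only [integral_const, measureReal_restrict_apply_univ, smul_eq_mul, mul_one] at h
  rw [← h, ← integral_indicator hA]
  congr 1
  ext x
  by_cases hx : x ∈ A <;> simp [hx]

end Crest.Agent.R215
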