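import Crest.Agent.R215.Crit
import Crest.Agent.R215.BL

/-! Row 215: the trace inequality for one cell. -/

set_option autoImplicit false

open MeasureTheory ProbabilityTheory Set Module
open scoped RealInnerProductSpace

namespace Crest.Agent.R215

universe u

variable {V : Type u} [NormedAddCommGroup V] [InnerProductSpace ℝ V] [FiniteDimensional ℝ V]
  [MeasurableSpace V] [BorelSpace V] {ι : Type} [Fintype ι] {z : ι → V} {n : ℕ}

omit [FiniteDimensional ℝ V] [MeasurableSpace V] [BorelSpace V] in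
private lemma sum_sub_eq [DecidableEq ι] {M : Type*} [AddCommGroup M] (f : ι → M) (i₀ : ι) :
    ∑ j : {j // j ≠ i₀}, f j = ∑ j, f j - f i₀ := by
  rw [Fintype.sum_eq_add_sum_subtype_ne f i₀]; abel

private lemma card_sub [DecidableEq ι] (hc : Fintype.card ι = n + 1) (i₀ : ι) :
    Fintype.card {j // j ≠ i₀} = n := by
  rw [Fintype.card_subtype_compl, Fintype.card_subtype_eq, hc]; rfl

private lemma sum_gam [DecidableEq ι] (h : Crit z) (i₀ : ι) (h0 : z i₀ ≠ 0) :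
    ∑ j : {j // j ≠ i₀}, (-⟪z i₀, z j⟫ / ‖z i₀‖ ^ 2) = 1 := by
  have hρ : 0 < ‖z i₀‖ ^ 2 := by positivity
  rw [← Finset.sum_div, Finset.sum_neg_distrib, ← inner_sum, sum_sub_eq z i₀, h.sum_zero,
    zero_sub, inner_neg_right, neg_neg, real_inner_self_eq_norm_sq, div_self hρ.ne']

private lemma gam_nonneg (hB : Bound.{u} n) (hc : Fintype.card ι = n + 1) (h : Crit z) (i₀ : ι)
    (j : {j // j ≠ i₀}) : 0 ≤ -⟪z i₀, z j⟫ / ‖z i₀‖ ^ 2 :=
  div_nonneg (neg_nonneg.2 (h.inner_neg hB hc (Ne.symm j.2)).le) (by positivity)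

private lemma sum_sq_le_one {J : Type*} [Fintype J] {g : J → ℝ} (h0 : ∀ j, 0 ≤ g j)
    (h1 : ∑ j, g j = 1) : (∀ j, g j ≤ 1) ∧ ∑ j, g j ^ 2 ≤ 1 := by
  have hle : ∀ j, g j ≤ 1 := fun j =>
    h1 ▸ Finset.single_le_sum (fun i _ => h0 i) (Finset.mem_univ j)
  refine ⟨hle, ?_⟩
  rw [← h1]
  exact Finset.sum_le_sum fun j _ => by nlinarith [h0 j, hle j]

private lemma setInt_inner (h : Crit z) (i₀ : ι) (v : V) :
    ∫ x in cell z i₀, ⟪x, v⟫ ∂stdGaussian V = ⟪z i₀, v⟫ := by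
  rw [setIntegral_inner, h.mom]

/-- Notation: `A = cell z i₀`, `p = γ A`, `ρ = ‖z i₀‖²`, `k = n+1`, `γ j = -⟪z i₀, z j⟫/ρ ≥ 0` with
`Σ_{j ≠ i₀} γ j = 1`, `ω j = -(z j + γ j • z i₀)`, `Y j = ⟪x, z i₀ - z j⟫ ≥ 0` on `A`.
`∫_A Y j = ρ(1+γ j) = p μ j`; `Σ_{j≠i₀} Y j = k ⟪x, z i₀⟫`, so with `q j = (1+γ j)/k` (`Σ q = 1`)
`⟪x, ω j⟫ = Y j - q j Σ Y = Ỹ j - q j Σ Ỹ`, `Ỹ j = Y j - μ j`.  `oblique_le` pointwise, then `varY`:
`∫_A Ỹ j² ≤ (F-1) p μ j²`, `F = 2n²/((n+1) aN²)`; `Σ (1+γ j)² ≤ n+3`; `ρ ≤ 2βp²` (`Crit.T1`,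
`β = aN²/n`) and `0 ≤ (F-1)β² = β(2n/(n+1) - β) ≤ n²/(n+1)²` (`β ≤ 1` by `aN_sq_le`). -/
theorem Crit.sum_omega_le [DecidableEq ι] (hB : Bound.{u} n) (hc : Fintype.card ι = n + 1) (hV : finrank ℝ V = n)
    (hn : 1 ≤ n) (h : Crit z) (i₀ : ι) :
    ∑ j : {j // j ≠ i₀},
        ∫ x in cell z i₀, ⟪x, -(z j + (-⟪z i₀, z j⟫ / ‖z i₀‖ ^ 2) • z i₀)⟫ ^ 2 ∂stdGaussian V ≤
      4 * (n : ℝ) ^ 3 * (n + 3) ^ 2 / (n + 1) ^ 4 * (stdGaussian V).real (cell z i₀) ^ 3 := by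
  classical
  set A := cell z i₀ with hA
  set p := (stdGaussian V).real A with hp
  set ρ := ‖z i₀‖ ^ 2 with hρ
  have h0 : z i₀ ≠ 0 := h.ne_zero hB hc hn i₀
  have hρ0 : 0 < ρ := by positivity
  have hp0 : 0 < p := h.p_pos hB hc hn i₀
  set g : {j // j ≠ i₀} → ℝ := fun j => -⟪z i₀, z j⟫ / ρ with hg
  have hg0 : ∀ j, 0 ≤ g j := gam_nonneg hB hc h i₀
  have hg1 : ∑ j, g j = 1 := sum_gam h i₀ h0
  obtain ⟨-, hg2⟩ := sum_sq_le_one hg0 hg1
  have hcard := card_sub hc i₀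
  have hn' : (1 : ℝ) ≤ n := by exact_mod_cast hn
  have ha := aN_pos n
  set β := aN n ^ 2 / n with hβ
  have hβ0 : 0 < β := by positivity
  have hβ1 : β ≤ 1 := by
    rw [hβ, div_le_one (by positivity)]
    refine (aN_sq_le hn).trans ?_
    rw [div_le_iff₀ (by positivity)]
    nlinarith
  have hT1 : ρ ≤ 2 * β * p ^ 2 := h.T1 hB hc hV hn i₀
  have hsq : ∑ j, (1 + g j) ^ 2 ≤ (n : ℝ) + 3 := by
    have : ∑ j, (1 + g j) ^ 2 = ∑ j : {j // j ≠ i₀}, (1 : ℝ) + 2 * ∑ j, g j + ∑ j, g j ^ 2 := by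
      rw [Finset.mul_sum, ← Finset.sum_add_distrib, ← Finset.sum_add_distrib]
      exact Finset.sum_congr rfl fun j _ => by ring
    rw [this, hg1]
    simp only [Finset.sum_const, Finset.card_univ, hcard, nsmul_eq_mul, mul_one]
    linarith
  set μ : {j // j ≠ i₀} → ℝ := fun j => ρ * (1 + g j) / p with hμ
  set q : {j // j ≠ i₀} → ℝ := fun j => (1 + g j) / (n + 1) with hq
  have hs1 : ∑ j, (1 + g j) = (n : ℝ) + 1 := by
    rw [Finset.sum_add_distrib, hg1]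
    simp [hcard]
  have hq1 : ∑ j, q j = 1 := by
    simp only [hq]
    rw [← Finset.sum_div, hs1, div_self (by positivity)]
  have hqs : ∑ j, q j ^ 2 ≤ ((n : ℝ) + 3) / (n + 1) ^ 2 := by
    simp only [hq, div_pow]
    rw [← Finset.sum_div]
    gcongr
  -- pointwise identity
  have hid : ∀ (x : V) (j : {j // j ≠ i₀}), ⟪x, -(z j + g j • z i₀)⟫ =
      (⟪x, z i₀ - z j⟫ - μ j) - q j * ∑ l : {j // j ≠ i₀}, (⟪x, z i₀ - z l⟫ - μ l) := by
    intro x j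
    have e1 : ∑ l : {j // j ≠ i₀}, ⟪x, z i₀ - z l⟫ = (n + 1) * ⟪x, z i₀⟫ := by
      rw [← inner_sum, Finset.sum_sub_distrib, sum_sub_eq z i₀, h.sum_zero]
      simp only [Finset.sum_const, Finset.card_univ, hcard, zero_sub, sub_neg_eq_add,
        inner_add_right, ← Nat.cast_smul_eq_nsmul ℝ, inner_smul_right]
      ring
    have e2 : ∑ l, μ l = ρ * (n + 1) / p := by
      simp only [hμ]
      rw [← Finset.sum_div, ← Finset.mul_sum, hs1]
    rw [Finset.sum_sub_distrib, e1, e2, inner_neg_right, inner_add_right, inner_smul_right,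
      inner_sub_right]
    simp only [hμ, hq]
    field_simp
    ring
  have hpt : ∀ x : V, ∑ j : {j // j ≠ i₀}, ⟪x, -(z j + g j • z i₀)⟫ ^ 2 ≤
      (n * ((n + 3) / (n + 1) ^ 2)) * ∑ j : {j // j ≠ i₀}, (⟪x, z i₀ - z j⟫ - μ j) ^ 2 := by
    intro x
    simp only [hid x]
    refine (oblique_le (fun j : {j // j ≠ i₀} => ⟪x, z i₀ - z j⟫ - μ j) q hq1).trans ?_
    rw [hcard]
    gcongr
  have hi1 : ∀ v : V, Integrable (fun x => ⟪x, v⟫) ((stdGaussian V).restrict A) := fun v =>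
    (integrable_inner v).integrableOn
  have hi2 : ∀ v : V, Integrable (fun x => ⟪x, v⟫ ^ 2) ((stdGaussian V).restrict A) := fun v =>
    (integrable_inner_sq v).integrableOn
  have hexp : ∀ (v : V) (c : ℝ), (fun x : V => (⟪x, v⟫ - c) ^ 2) =
      fun x => (⟪x, v⟫ ^ 2 - 2 * c * ⟪x, v⟫) + c ^ 2 := fun v c => by
    funext x; ring
  have hi3 : ∀ (v : V) (c : ℝ), Integrable (fun x => (⟪x, v⟫ - c) ^ 2)
      ((stdGaussian V).restrict A) := fun v c => by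
    rw [hexp]
    exact ((hi2 v).sub ((hi1 v).const_mul _)).add (integrable_const _)
  have hvar : ∀ j : {j // j ≠ i₀}, ∫ x in A, (⟪x, z i₀ - z j⟫ - μ j) ^ 2 ∂stdGaussian V ≤
      4 * ((n : ℝ) ^ 2 / (n + 1) ^ 2) * p ^ 3 * (1 + g j) ^ 2 := by
    intro j
    have e1 : ∫ x in A, ⟪x, z i₀ - z j⟫ ∂stdGaussian V = p * μ j := by
      rw [hA, setInt_inner h, inner_sub_right, real_inner_self_eq_norm_sq]
      simp only [hμ, hg]
      field_simp
      ring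
    have e2 := varY (V := V) (by omega) (measurableSet_cell z i₀) (convex_cell z i₀)
      (isCone_cell z i₀) (z i₀ - z j) (fun x hx => by
        rw [inner_sub_right]; exact sub_nonneg.2 (hx j))
    rw [hV, ← hA, e1, ← hp] at e2
    have hi4 : Integrable (fun x : V => ⟪x, z i₀ - z j⟫ ^ 2 - 2 * μ j * ⟪x, z i₀ - z j⟫)
        ((stdGaussian V).restrict A) := (hi2 _).sub ((hi1 _).const_mul _)
    rw [hexp, integral_add hi4 (integrable_const _),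
      integral_sub (hi2 _) ((hi1 _).const_mul _), integral_const_mul, e1, integral_const]
    simp only [smul_eq_mul, measureReal_restrict_apply_univ, ← hp]
    set I := ∫ x in A, ⟪x, z i₀ - z j⟫ ^ 2 ∂stdGaussian V
    have haβ : aN n ^ 2 = β * n := by rw [hβ]; field_simp
    rw [haβ] at e2
    -- I ≤ F p μ²
    have e3 : I ≤ 2 * n / ((n + 1) * β) * p * μ j ^ 2 := by
      rw [div_mul_eq_mul_div, div_mul_eq_mul_div, le_div_iff₀ (by positivity)]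
      have : (n * p) * (I * ((n + 1) * β)) ≤ (n * p) * (2 * n * p * μ j ^ 2) := by
        nlinarith
      exact le_of_mul_le_mul_left this (by positivity)
    have hF : 0 ≤ 2 * n / ((n + 1) * β) - 1 := by
      rw [sub_nonneg, le_div_iff₀ (by positivity)]
      nlinarith
    have hF2 : (2 * n / ((n + 1) * β) - 1) * β ^ 2 ≤ (n : ℝ) ^ 2 / (n + 1) ^ 2 := by
      have : (2 * n / ((n + 1) * β) - 1) * β ^ 2 = β * (2 * (n / (n + 1)) - β) := by
        field_simp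
      rw [this, ← div_pow]
      nlinarith [sq_nonneg (β - n / (n + 1))]
    have e4 : p * μ j ^ 2 ≤ 4 * β ^ 2 * p ^ 3 * (1 + g j) ^ 2 := by
      have : p * μ j ^ 2 = ρ ^ 2 / p * (1 + g j) ^ 2 := by
        simp only [hμ]; field_simp
      rw [this]
      gcongr
      rw [div_le_iff₀ hp0]
      calc ρ ^ 2 ≤ (2 * β * p ^ 2) ^ 2 := by gcongr
        _ = _ := by ring
    calc I - 2 * μ j * (p * μ j) + p * μ j ^ 2 = I - p * μ j ^ 2 := by ring
      _ ≤ (2 * n / ((n + 1) * β) - 1) * (p * μ j ^ 2) := by linarith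
      _ ≤ (2 * n / ((n + 1) * β) - 1) * (4 * β ^ 2 * p ^ 3 * (1 + g j) ^ 2) := by gcongr
      _ = 4 * ((2 * n / ((n + 1) * β) - 1) * β ^ 2) * p ^ 3 * (1 + g j) ^ 2 := by ring
      _ ≤ _ := by gcongr
  calc ∑ j : {j // j ≠ i₀}, ∫ x in A, ⟪x, -(z j + g j • z i₀)⟫ ^ 2 ∂stdGaussian V
      = ∫ x in A, ∑ j : {j // j ≠ i₀}, ⟪x, -(z j + g j • z i₀)⟫ ^ 2 ∂stdGaussian V :=
        (integral_finsetSum _ fun j _ => hi2 _).symm
    _ ≤ ∫ x in A, (n * ((n + 3) / (n + 1) ^ 2)) *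
          ∑ j : {j // j ≠ i₀}, (⟪x, z i₀ - z j⟫ - μ j) ^ 2 ∂stdGaussian V :=
        integral_mono (integrable_finsetSum _ fun j _ => hi2 _)
          ((integrable_finsetSum _ fun j _ => hi3 _ _).const_mul _) hpt
    _ = (n * ((n + 3) / (n + 1) ^ 2)) *
          ∑ j : {j // j ≠ i₀}, ∫ x in A, (⟪x, z i₀ - z j⟫ - μ j) ^ 2 ∂stdGaussian V := by
        rw [integral_const_mul, integral_finsetSum _ fun j _ => hi3 _ _]
    _ ≤ (n * ((n + 3) / (n + 1) ^ 2)) *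
          ∑ j : {j // j ≠ i₀}, 4 * ((n : ℝ) ^ 2 / (n + 1) ^ 2) * p ^ 3 * (1 + g j) ^ 2 := by
        gcongr with j
        exact hvar j
    _ ≤ (n * ((n + 3) / (n + 1) ^ 2)) * (4 * ((n : ℝ) ^ 2 / (n + 1) ^ 2) * p ^ 3 * (n + 3)) := by
        rw [← Finset.mul_sum]
        gcongr
    _ = _ := by field_simp

/-- Notation as above, `w = z i₀/‖z i₀‖`, `es` the first factor.  The `ω j` (`j ≠ i₀`) are orthogonal
to `w`, have sum `0`, `⟪ω j, ω l⟫ = ⟪z j, z l⟫ - γ j γ l ρ ≤ 0`, `‖ω j‖² = ‖z j‖² - γ j² ρ`; so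
`exists_eigen` applies with `M`, `m - ρ`, `es`.  Put `c i = ∫_A ⟪x, b i⟫²/p ∈ [0,1]` (`bl_cone`, the first
moment vanishes).  `cone_norm_sq`: `n = Q + Σ c i` with `Q = ∫_A ⟪x,w⟫²/p ≤ 1 + (1 - 1/(2n)) ρ/p²`
(`bl_cone`).  So `Q - 1 = Σ (1 - c i) ≥ Σ (1 - c i) min 1 (e i/es) ≥ 2 - Σ e i c i / es`, and
`Σ e i c i = Σ_j ∫_A ⟪x, ω j⟫²/p` is bounded by `sum_omega_le`; finally `ρ/p² ≤ 2β`. -/
theorem Crit.T4 (hB : Bound.{u} n) (hc : Fintype.card ι = n + 1) (hV : finrank ℝ V = n)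
    (hn : 3 ≤ n) (h : Crit z) (i₀ j₁ j₂ j₃ : ι) (h1 : j₁ ≠ i₀) (h2 : j₂ ≠ i₀) (h3 : j₃ ≠ i₀)
    (h12 : j₁ ≠ j₂) (h13 : j₁ ≠ j₃) (h23 : j₂ ≠ j₃) (M m : ℝ)
    (hM : ∀ j, j ≠ i₀ → ‖z j‖ ^ 2 ≤ M)
    (hm₁ : m ≤ ‖z j₁‖ ^ 2) (hm₂ : m ≤ ‖z j₂‖ ^ 2) (hm₃ : m ≤ ‖z j₃‖ ^ 2)
    (hpos : 0 < (∑ i, ‖z i‖ ^ 2) / 2 - 2 * ‖z i₀‖ ^ 2 - M + m) :
    ((∑ i, ‖z i‖ ^ 2) / 2 - 2 * ‖z i₀‖ ^ 2 - M + m) *
        (2 - 2 * (aN n ^ 2 / n) * (1 - 1 / (2 * (n : ℝ)))) ≤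
      4 * (n : ℝ) ^ 3 * (n + 3) ^ 2 / (n + 1) ^ 4 * (stdGaussian V).real (cell z i₀) ^ 2 := by
  classical
  have hn1 : 1 ≤ n := by omega
  have hom := h.sum_omega_le hB hc hV hn1 i₀
  set K := 4 * (n : ℝ) ^ 3 * (n + 3) ^ 2 / (n + 1) ^ 4 with hK
  set es := (∑ i, ‖z i‖ ^ 2) / 2 - 2 * ‖z i₀‖ ^ 2 - M + m with hes
  set A := cell z i₀ with hA
  set p := (stdGaussian V).real A with hp
  have h0 : z i₀ ≠ 0 := h.ne_zero hB hc hn1 i₀
  have hz0 : 0 < ‖z i₀‖ := norm_pos_iff.2 h0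
  have hp0 : 0 < p := h.p_pos hB hc hn1 i₀
  have hT1 : ‖z i₀‖ ^ 2 ≤ 2 * (aN n ^ 2 / n) * p ^ 2 := h.T1 hB hc hV hn1 i₀
  set β := aN n ^ 2 / n with hβ
  set g : {j // j ≠ i₀} → ℝ := fun j => -⟪z i₀, z j⟫ / ‖z i₀‖ ^ 2 with hg
  have hg0 : ∀ j, 0 ≤ g j := gam_nonneg hB hc h i₀
  have hg1 : ∑ j, g j = 1 := sum_gam h i₀ h0
  obtain ⟨hgle, hg2⟩ := sum_sq_le_one hg0 hg1
  set ρ := ‖z i₀‖ ^ 2 with hρ
  have hρ0 : 0 < ρ := by positivity
  have hgi : ∀ j : {j // j ≠ i₀}, ⟪z i₀, z j⟫ = -(g j * ρ) := fun j => by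
    simp only [hg]; field_simp
  set ω : {j // j ≠ i₀} → V := fun j => -(z j + g j • z i₀) with hω
  set w : V := ‖z i₀‖⁻¹ • z i₀ with hw
  have hw1 : ‖w‖ = 1 := by
    rw [hw, norm_smul, norm_inv, norm_norm, inv_mul_cancel₀ hz0.ne']
  have hzw : z i₀ = ‖z i₀‖ • w := by
    rw [hw, smul_smul, mul_inv_cancel₀ hz0.ne', one_smul]
  have hin : ∀ j l : {j // j ≠ i₀}, ⟪ω j, ω l⟫ = ⟪z j, z l⟫ - g j * g l * ρ := by
    intro j l
    simp only [hω, inner_neg_neg, inner_add_left, inner_add_right, inner_smul_left,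
      inner_smul_right, real_inner_self_eq_norm_sq, ← hρ, hgi, real_inner_comm (z i₀) (z j),
      conj_trivial]
    ring
  have hnorm : ∀ j : {j // j ≠ i₀}, ‖ω j‖ ^ 2 = ‖z j‖ ^ 2 - g j ^ 2 * ρ := by
    intro j
    rw [← real_inner_self_eq_norm_sq, hin, real_inner_self_eq_norm_sq]; ring
  have hperp : ∀ j, ⟪ω j, w⟫ = 0 := by
    intro j
    simp only [hω, hw, inner_neg_left, inner_add_left, inner_smul_left,
      inner_smul_right, real_inner_self_eq_norm_sq, ← hρ, hgi, real_inner_comm (z i₀) (z j),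
      conj_trivial]
    ring
  have hsum0 : ∑ j, ω j = 0 := by
    simp only [hω]
    rw [Finset.sum_neg_distrib, Finset.sum_add_distrib, ← Finset.sum_smul, hg1,
      sum_sub_eq z i₀, h.sum_zero]
    simp
  have hneg : ∀ j l : {j // j ≠ i₀}, j ≠ l → ⟪ω j, ω l⟫ ≤ 0 := by
    intro j l hjl
    rw [hin]
    have := h.inner_neg hB hc (i := j) (j := l) (fun e => hjl (Subtype.ext e))
    have := mul_nonneg (mul_nonneg (hg0 j) (hg0 l)) hρ0.le
    linarith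
  have hlow : ∀ j : {j // j ≠ i₀}, m ≤ ‖z j‖ ^ 2 → m - ρ ≤ ‖ω j‖ ^ 2 := by
    intro j hj
    rw [hnorm]
    have : g j ^ 2 ≤ 1 := by nlinarith [hg0 j, hgle j]
    nlinarith
  obtain ⟨d, b, e, hd, hb1, hwb, he0, hpar, hdiag, hmin⟩ :=
    exists_eigen (M := M) (m := m - ρ) (es := es) hw1 hperp hsum0 hneg
      (j₁ := ⟨j₁, h1⟩) (j₂ := ⟨j₂, h2⟩) (j₃ := ⟨j₃, h3⟩)
      (fun e => h12 (congrArg Subtype.val e)) (fun e => h13 (congrArg Subtype.val e))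
      (fun e => h23 (congrArg Subtype.val e))
      (fun j => by
        rw [hnorm]
        have := hM j j.2
        have := mul_nonneg (sq_nonneg (g j)) hρ0.le
        linarith)
      (hlow _ hm₁) (hlow _ hm₂) (hlow _ hm₃) hpos (by
        simp only [hnorm]
        rw [Finset.sum_sub_distrib, ← Finset.sum_mul, sum_sub_eq (fun j => ‖z j‖ ^ 2) i₀, hes]
        nlinarith)
  have hi2 : ∀ v : V, Integrable (fun x => ⟪x, v⟫ ^ 2) ((stdGaussian V).restrict A) := fun v =>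
    (integrable_inner_sq v).integrableOn
  have hbl : ∀ v : V, ‖v‖ = 1 → p * ∫ x in A, ⟪x, v⟫ ^ 2 ∂stdGaussian V ≤
      p ^ 2 + (1 - 1 / (2 * (n : ℝ))) * ⟪z i₀, v⟫ ^ 2 := by
    intro v hv
    have := bl_cone (V := V) (by omega) (measurableSet_cell z i₀) (convex_cell z i₀)
      (isCone_cell z i₀) v hv
    rwa [hV, setInt_inner h] at this
  set C : Fin d → ℝ := fun i => ∫ x in A, ⟪x, b i⟫ ^ 2 ∂stdGaussian V with hC
  set Q := ∫ x in A, ⟪x, w⟫ ^ 2 ∂stdGaussian V with hQ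
  have hC0 : ∀ i, 0 ≤ C i := fun i => integral_nonneg fun x => sq_nonneg _
  have hCp : ∀ i, C i ≤ p := by
    intro i
    have := hbl (b i) (hb1 i)
    rw [hzw, inner_smul_left, hwb] at this
    have : p * C i ≤ p * p := by simp only [hC]; nlinarith
    exact le_of_mul_le_mul_left this hp0
  have hn' : (3 : ℝ) ≤ n := by exact_mod_cast hn
  have hκ : 0 ≤ 1 - 1 / (2 * (n : ℝ)) := by
    rw [sub_nonneg, div_le_one (by positivity)]; linarith
  have hQp : Q - p ≤ 2 * β * (1 - 1 / (2 * (n : ℝ))) * p := by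
    have h1 := hbl w hw1
    have h2 : ⟪z i₀, w⟫ ^ 2 = ρ := by
      rw [hw, inner_smul_right, real_inner_self_eq_norm_sq, hρ]; field_simp
    rw [h2] at h1
    have h3 := mul_le_mul_of_nonneg_left hT1 hκ
    have : p * (Q - p) ≤ p * (2 * β * (1 - 1 / (2 * (n : ℝ))) * p) := by nlinarith
    exact le_of_mul_le_mul_left this hp0
  have hnp : (n : ℝ) * p = Q + ∑ i, C i := by
    have := cone_norm_sq (V := V) (by omega) (measurableSet_cell z i₀) (isCone_cell z i₀)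
    rw [hV] at this
    rw [← this]
    simp only [hpar]
    rw [integral_add (hi2 _) (integrable_finsetSum _ fun i _ => hi2 _),
      integral_finsetSum _ fun i _ => hi2 _]
  have heC : ∑ i, e i * C i ≤ K * p ^ 3 := by
    refine le_trans (le_of_eq ?_) hom
    rw [← integral_finsetSum _ fun j _ => hi2 _]
    change _ = ∫ x in A, ∑ j, ⟪x, ω j⟫ ^ 2 ∂stdGaussian V
    simp only [hdiag]
    rw [integral_finsetSum _ fun i _ => (hi2 _).const_mul _]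
    simp only [integral_const_mul, hC]
  have hdn : (n : ℝ) = d + 1 := by rw [← hV, ← hd]; push_cast; ring
  have key : 2 * p - (∑ i, e i * C i) / es ≤ Q - p := by
    have e1 : Q - p = ∑ i : Fin d, (p - C i) := by
      rw [Finset.sum_sub_distrib]
      simp only [Finset.sum_const, Finset.card_univ, Fintype.card_fin, nsmul_eq_mul]
      rw [hdn] at hnp
      linarith
    have e2 : ∑ i, (p * min 1 (e i / es) - e i * C i / es) ≤ ∑ i : Fin d, (p - C i) := by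
      refine Finset.sum_le_sum fun i _ => ?_
      have a1 := min_le_left 1 (e i / es)
      have a2 := min_le_right 1 (e i / es)
      have a3 : e i * C i / es = e i / es * C i := by ring
      rw [a3]
      nlinarith [hC0 i, hCp i, mul_nonneg (sub_nonneg.2 (hCp i)) (sub_nonneg.2 a1),
        mul_nonneg (hC0 i) (sub_nonneg.2 a2)]
    rw [Finset.sum_sub_distrib, ← Finset.mul_sum, ← Finset.sum_div] at e2
    rw [e1]
    nlinarith
  have key2 : 2 * p - K * p ^ 3 / es ≤ 2 * β * (1 - 1 / (2 * (n : ℝ))) * p := by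
    have : (∑ i, e i * C i) / es ≤ K * p ^ 3 / es := by gcongr
    linarith
  have key3 : p * (es * (2 - 2 * β * (1 - 1 / (2 * (n : ℝ))))) ≤ p * (K * p ^ 2) := by
    have := mul_le_mul_of_nonneg_left key2 hpos.le
    rw [mul_sub, mul_div_cancel₀ _ hpos.ne'] at this
    nlinarith
  exact le_of_mul_le_mul_left key3 hp0

end Crest.Agent.R215
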